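import Claimed.Agent.R285.Cut.LinkV
import Claimed.Agent.R285.Asm.ConcDefs

/-!
# ROW 285, post BP-E3-CUTGRID (chief helper167), file 8 (helper267): the five fields of `Asm.CutOK` for the concrete tower `obsReg`, VERBATIM in the vocabulary of `Asm/RawSys.lean`, `Asm/ConcDefs.lean`, `Rdo/Defs.lean`.
No own `sorry`.  `link_top` is what `Asm.cutgrid_top` (`Asm/Concrete.lean`) cites: its conclusion is the anonymous-constructor form of `Asm.CutOK K κe sd (X.Sy ..)` (`(X.Sy ..).cV = Rdo.cV X.K (X.reg ..)` etc. by `rfl`).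
Hypothesis `hmain` = the exit of `Cut/Main.lean` (file 5).
-/

set_option autoImplicit false

namespace Claimed.Agent.R285.Cut

open scoped BigOperators
open Claims.C0459
open Claimed.Agent.R285 Claimed.Agent.R285.RG Claimed.Agent.R285.F4a Claimed.Agent.R285.B8 Claimed.Agent.R285.Flow
open Claimed.Agent.R285.Asm Claimed.Agent.R285.B4

noncomputable section

theorem link_disk (κe : EntC) (s : ℕ) (b : ℝ) (h : (b : ℂ) ∈ disk κe s) : |b - xyCritical| < κe.c / (s : ℝ) ^ 2 := by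
  unfold disk at h
  rw [Metric.mem_ball, Complex.dist_eq, ← Complex.ofReal_sub, Complex.norm_real, Real.norm_eq_abs] at h
  exact h

theorem link_alpha8 : Step.alpha ω8 ^ 2 = 8 * Real.pi := by
  have hk : 0 < k0 := by unfold k0; positivity
  have h1 : Step.alpha ω8 = Real.sqrt k0 := by
    unfold Step.alpha ω8
    have hs : Real.sqrt k0 ≠ 0 := (Real.sqrt_pos.2 hk).ne'
    have hp := Real.pi_pos.ne'
    field_simp
  rw [h1, Real.sq_sqrt hk.le]
  rfl

theorem link_tMix (b : ℝ) (n : ℕ) (w : ℝ) : torMix b n w = tMix b n w := rfl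

/-- **the link**, in the vocabulary of the assembly -/
theorem link_top (Kc : Cfg) (o : ObsPar) (hω : Kc.p.ω = ω8) (w0 : ℝ) (hbc : 0 < xyCritical)
    (hmain : ∀ V : ℝ, MainStmt (xyCritical / 2) (3 * xyCritical / 2) w0 V) :
    ∃ Cc Ce ce : ℝ, 0 < ce ∧ ∀ (K : RawK) (κe : EntC), K.L = Kc.s.L → K.D0 = Kc.s.D0 → Cc ≤ K.κ.C → K.w0 = w0 → Ce ≤ κe.C → κe.c ≤ ce →
      4 ≤ κe.P0 → ∀ sd P0 j0 : ℕ, 0 < sd → sd ∣ Kc.s.L ^ j0 →
      (∀ (b : ℝ) (h : ℕ), (b : ℂ) ∈ disk κe sd → ValidR K κe sd j0 h →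
        |torVar b (K.n h) - Rdo.cV Kc (obsReg Kc.s o sd P0) h b| ≤ K.κ.C * ((sd : ℝ) / K.n h) ^ 4 + cutR K κe sd h) ∧
      (∀ (b : ℝ) (h : ℕ), (b : ℂ) ∈ disk κe sd → ValidR K κe sd j0 h →
        |torPhase b (K.n h) - Rdo.cP Kc (obsReg Kc.s o sd P0) h b| ≤ cutR K κe sd h) ∧
      (∀ (b : ℝ) (h : ℕ), (b : ℂ) ∈ disk κe sd → ValidR K κe sd j0 h →
        |torMix b (K.n h) K.w0 - Rdo.cM Kc (obsReg Kc.s o sd P0) w0 h b| ≤ K.κ.C * ((sd : ℝ) / K.n h) + cutR K κe sd h) ∧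
      (∀ (b b' : ℝ) (h : ℕ), (b : ℂ) ∈ disk κe sd → (b' : ℂ) ∈ disk κe sd → ValidR K κe sd j0 h →
        |(torVar b (K.n h) - Rdo.cV Kc (obsReg Kc.s o sd P0) h b) - (torVar b' (K.n h) - Rdo.cV Kc (obsReg Kc.s o sd P0) h b')|
          ≤ |b - b'| * (κe.C * (K.n h : ℝ) ^ 2 * ((sd : ℝ) / K.n h) ^ 4 + cutR K κe sd h)) ∧
      (∀ (b b' : ℝ) (h : ℕ), (b : ℂ) ∈ disk κe sd → (b' : ℂ) ∈ disk κe sd → ValidR K κe sd j0 h →
        |(torPhase b (K.n h) - Rdo.cP Kc (obsReg Kc.s o sd P0) h b) - (torPhase b' (K.n h) - Rdo.cP Kc (obsReg Kc.s o sd P0) h b')|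
          ≤ |b - b'| * cutR K κe sd h) := by
  obtain ⟨Cv, hCv, hv⟩ := link_v0raw
  obtain ⟨Cc, Ce, ce, hce, H⟩ := cut_link xyCritical w0 Cv hbc hCv (hmain _)
  refine ⟨Cc, Ce, ce, hce, fun K κe hL hD hCc hw hCe hc hP sd P0 j0 hsd hdvd => ?_⟩
  -- one valid stop
  have key : ∀ h, ValidR K κe sd j0 h →
      LinkOK xyCritical w0 K.κ.C κe.C κe.c (Rdo.v0raw (Rdo.aa Kc) ((obsReg Kc.s o sd P0).gs h)) ((obsReg Kc.s o sd P0).gs h)
        ∧ ((obsReg Kc.s o sd P0).gs h).m = sd ∧ (Kc.s.T h).M = K.n h := by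
    intro h hv'
    obtain ⟨hj, hside, hsmall⟩ := hv'
    have hM : (Kc.s.T h).M = K.n h := by
      show Kc.s.D0 * Kc.s.L ^ h = K.D0 * K.L ^ h
      rw [hL, hD]
    have hd : sd ∣ (Kc.s.T h).M :=
      Dvd.dvd.mul_left (hdvd.trans (pow_dvd_pow _ hj)) _
    have e : (obsReg Kc.s o sd P0).gs h = torusGrid (Kc.s.T h) sd hd := dif_pos hd
    have h4 : sd * 4 ≤ (Kc.s.T h).M := by
      rw [hM]
      exact le_trans (Nat.mul_le_mul_left _ hP) hside
    have hW : Whole (torusGrid (Kc.s.T h) sd hd) :=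
      { pos := hsd
        mono := (torusGrid_ok _ sd hd hsd).mono
        size := torusGrid_card _ sd hd hsd
        two := (Nat.le_div_iff_mul_le hsd).2 (by omega) }
    have haa : Rdo.aa Kc = 8 * Real.pi := by
      unfold Rdo.aa
      rw [hω]
      exact link_alpha8
    rw [e, haa]
    refine ⟨H K.κ.C κe.C κe.c hCc hCe κe.hc hc (Kc.s.T h) (torusGrid (Kc.s.T h) sd hd) rfl hW h4 ?_ _
      (hv (Kc.s.T h) rfl _ hW h4), rfl, hM⟩
    show κe.C * ((Kc.s.T h).M : ℝ) ^ κe.C * Real.exp (-κe.c * (sd : ℝ) ^ 2) ≤ 1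
    rw [hM]
    exact hsmall
  refine ⟨fun b h hb hv' => ?_, fun b h hb hv' => ?_, fun b h hb hv' => ?_, fun b b' h hb hb' hv' => ?_,
    fun b b' h hb hb' hv' => ?_⟩
  · obtain ⟨F, hm, hM⟩ := key h hv'
    have := F.cmpV b (by rw [hm]; exact link_disk κe sd b hb)
    rw [hm, hM] at this
    exact this
  · obtain ⟨F, hm, hM⟩ := key h hv'
    have := F.cmpP b (by rw [hm]; exact link_disk κe sd b hb)
    rw [hm, hM] at this
    exact this
  · obtain ⟨F, hm, hM⟩ := key h hv'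
    have := F.cmpM b (by rw [hm]; exact link_disk κe sd b hb)
    rw [hm, hM] at this
    rw [hw]
    exact this
  · obtain ⟨F, hm, hM⟩ := key h hv'
    have := F.lipV b b' (by rw [hm]; exact link_disk κe sd b hb) (by rw [hm]; exact link_disk κe sd b' hb')
    rw [hm, hM] at this
    exact this
  · obtain ⟨F, hm, hM⟩ := key h hv'
    have := F.lipP b b' (by rw [hm]; exact link_disk κe sd b hb) (by rw [hm]; exact link_disk κe sd b' hb')
    rw [hm, hM] at this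
    exact this

end

end Claimed.Agent.R285.Cut
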