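import Claimed.Agent.R285.Cut.Link

/-!
# ROW 285, post BP-E3-CUTGRID (architect helper167), file 5: THE CONTRACT `cut_grid`  ([E] L3.4 + L3.5, [F] (trj:mixed-diagnostic), physical side).

`cut_grid b0 b1 w`: constants `Cg` (grid), `Cc, cc` (cutoff) such that for EVERY periodic `G`, whole cells `c` with `4 s ≤ n` and `Cc n⁴ e^{-cc s²} ≤ 1` the five inequalities `cmpV, cmpP, cmpM, lipV, lipP` of `Asm.RawReadOK` hold
on `[b0, b1]` for `gV b c = Rdo.cVof b c`, `gP b c = Rdo.cPof b c`, `gM v w b c = Rdo.cMof a w b c` (`v = Rdo.v0raw a c`), `tMix = Flow.torMix` (all four by `rfl`).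
Everything in this file is PROVED (glue); the leaves are in `Abs.lean`, `Tor.lean`, `Phys.lean`.
-/

set_option autoImplicit false

namespace Claimed.Agent.R285.Cut

open scoped BigOperators
open Claimed.Agent.R285 Claimed.Agent.R285.RG Claimed.Agent.R285.F4a Claimed.Agent.R285.E2 Claimed.Agent.R285.C2
open Claimed.Agent.R285.Free

noncomputable section

variable {G : Geom}

/-! ## 1. The uncut expectations -/

theorem eu_eq (c : Grid G) (b : ℝ) (H : (c.I → ℝ) → ℝ) : (tobs c).Eu b H = (tSb G.M b).E0 ((tobs c).sm H) :=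
  (rd_E0_eq (S := tSb G.M b) _).symm

theorem eu_X2 (c : Grid G) (b : ℝ) (hb : 0 < b) :
    (tobs c).Eu b (fun y => obsX c y ^ 2) = (tSb G.M b).V0 ((tobs c).row (fX c)) + nf2 c := by
  rw [eu_eq]
  have e : (tobs c).sm (fun y => obsX c y ^ 2) = fun z => (tobs c).row (fX c) z ^ 2 + nf2 c := by
    funext z
    exact (tobs c).sm_lin_sq (fX c) z
  rw [e]
  refine (rd_E0_add (S := tSb G.M b) (tSb_ok G.M b hb) (F := fun z => (tobs c).row (fX c) z ^ 2)
    (G := fun _ => nf2 c) (rd_dom_pow (rd_dom_test (S := tSb G.M b) ((tobs c).row (fX c))) 2) (rd_dom_const _)).trans ?_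
  rw [rd_E0_const (tSb_ok G.M b hb)]
  congr 1
  exact (rd_V0_eq (S := tSb G.M b) _).symm

theorem eu_X (c : Grid G) (b : ℝ) : (tobs c).Eu b (obsX c) = 0 := by
  rw [eu_eq]
  have e : (tobs c).sm (obsX c) = fun z => (tobs c).row (fX c) z := by
    funext z
    exact (tobs c).sm_lin (fX c) z
  rw [e]
  exact rd_E0_test (S := tSb G.M b) _

/-- the coefficients of the mean observation -/
def uM (c : Grid G) : c.I → ℝ := fun _ => 1 / (Fintype.card c.I : ℝ)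

theorem obsM_eq (c : Grid G) (y : c.I → ℝ) : obsM c y = lin (uM c) y := by
  unfold obsM lin uM
  rw [Finset.sum_div]
  refine Finset.sum_congr rfl fun i _ => ?_
  ring

theorem obsX_eq (c : Grid G) (y : c.I → ℝ) : obsX c y = lin (fX c) y := rfl

theorem sum_uM_sq {c : Grid G} (hc : Whole c) : ∑ i, uM c i ^ 2 = snr c ^ 2 := by
  unfold uM
  rw [Finset.sum_const, Finset.card_univ, nsmul_eq_mul, ← card_I hc]
  by_cases h : (Fintype.card c.I : ℝ) = 0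
  · rw [h]; simp
  · field_simp

theorem row_mean {c : Grid G} (hc : Whole c) : (tobs c).row (uM c) = Mn G.M := by
  rw [row_eq]
  have : Bst c (uM c) = fun _ => (G.M : ℝ)⁻¹ ^ 2 := funext fun v => Bst_mean hc v
  rw [this]
  rfl

theorem row_smul (c : Grid G) (w : ℝ) (l : c.I → ℝ) (z : (tS G.M).L) :
    (tobs c).row (fun i => w * l i) z = w * (tobs c).row l z := by
  simp only [Obs.row_apply, lin, Finset.mul_sum, mul_assoc]

theorem eu_cos {c : Grid G} (hc : Whole c) (b : ℝ) :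
    Real.exp (snr c ^ 2 / 2) * (tobs c).Eu b (fun y => Real.cos (obsM c y)) = torPhase b G.M := by
  rw [eu_eq, torPhase_eq]
  have e : (tobs c).sm (fun y => Real.cos (obsM c y))
      = fun z => Real.exp (-(snr c ^ 2) / 2) * Real.cos (Mn G.M z) := by
    funext z
    simp only [obsM_eq]
    rw [(tobs c).sm_cos (uM c) z, sum_uM_sq hc, row_mean hc]
  rw [e]
  refine (congrArg _ (rd_E0_smul (S := tSb G.M b) _ _)).trans ?_
  rw [← mul_assoc, ← Real.exp_add]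
  have : snr c ^ 2 / 2 + -(snr c ^ 2) / 2 = 0 := by ring
  rw [this, Real.exp_zero, one_mul]
  rfl

theorem eu_mix {c : Grid G} (hc : Whole c) (b w : ℝ) :
    Real.exp (snr c ^ 2 / 2) * (tobs c).Eu b (fun y => Real.cos (obsM c y) * Real.exp (w * obsX c y))
      = Real.exp (w ^ 2 * nf2 c / 2) *
        (tSb G.M b).E0 fun z => Real.cos (Mn G.M z) * Real.exp (w * (tobs c).row (fX c) z) := by
  rw [eu_eq]
  have hlin : ∀ y, w * obsX c y = lin (fun i => w * fX c i) y := by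
    intro y
    simp only [obsX, lin, Finset.mul_sum, mul_assoc]
  have h0 : ∑ i, uM c i * (w * fX c i) = 0 := by
    unfold uM
    simp only [← mul_assoc]
    rw [← Finset.mul_sum, sum_fX hc, mul_zero]
  have hsq : ∑ i, (w * fX c i) ^ 2 = w ^ 2 * nf2 c := by
    unfold nf2
    rw [Finset.mul_sum]
    refine Finset.sum_congr rfl fun i _ => ?_
    ring
  have e : (tobs c).sm (fun y => Real.cos (obsM c y) * Real.exp (w * obsX c y))
      = fun z => Real.exp ((w ^ 2 * nf2 c - snr c ^ 2) / 2) *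
        (Real.cos (Mn G.M z) * Real.exp (w * (tobs c).row (fX c) z)) := by
    funext z
    simp only [obsM_eq, hlin]
    rw [(tobs c).sm_cos_exp (uM c) (fun i => w * fX c i) h0 z, sum_uM_sq hc, row_mean hc, hsq, row_smul]
  rw [e]
  refine (congrArg _ (rd_E0_smul (S := tSb G.M b) _ _)).trans ?_
  rw [← mul_assoc, ← Real.exp_add]
  congr 2
  ring

/-! ## 2. The four tests -/

theorem obsX_measurable (c : Grid G) : Measurable (obsX c) := by
  unfold obsX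
  fun_prop

theorem obsM_measurable (c : Grid G) : Measurable (obsM c) := by
  unfold obsM
  fun_prop

theorem adm_X2 (c : Grid G) : Adm 2 (fX c) fun y => obsX c y ^ 2 :=
  ⟨(obsX_measurable c).pow_const 2, fun y => by
    rw [abs_of_nonneg (sq_nonneg _)]
    exact e2_sq_le_exp _⟩

theorem adm_X (c : Grid G) : Adm 2 (fX c) (obsX c) :=
  ⟨obsX_measurable c, fun y => by
    have h := rd_abs_le_exp_add (obsX c y)
    have h1 := Real.exp_pos (obsX c y)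
    have h2 := Real.exp_pos (-obsX c y)
    show |obsX c y| ≤ 2 * (Real.exp (obsX c y) + Real.exp (-obsX c y))
    linarith⟩

theorem adm_cos (c : Grid G) (l : c.I → ℝ) : Adm 2 l fun y => Real.cos (obsM c y) :=
  ⟨Real.measurable_cos.comp (obsM_measurable c), fun y => by
    have h := Real.abs_cos_le_one (obsM c y)
    have h1 := Real.add_one_le_exp (lin l y)
    have h2 := Real.add_one_le_exp (-lin l y)
    linarith⟩

theorem adm_mix (c : Grid G) (w : ℝ) :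
    Adm 2 (fun i => w * fX c i) fun y => Real.cos (obsM c y) * Real.exp (w * obsX c y) :=
  ⟨(Real.measurable_cos.comp (obsM_measurable c)).mul (Real.measurable_exp.comp ((obsX_measurable c).const_mul w)),
    fun y => by
      have hlin : lin (fun i => w * fX c i) y = w * obsX c y := by
        simp only [obsX, lin, Finset.mul_sum, mul_assoc]
      rw [hlin, abs_mul, abs_of_pos (Real.exp_pos _)]
      have h := Real.abs_cos_le_one (obsM c y)
      have h1 := Real.exp_pos (w * obsX c y)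
      have h2 := Real.exp_pos (-(w * obsX c y))
      nlinarith [abs_nonneg (Real.cos (obsM c y))]⟩

theorem obsX_shift {c : Grid G} (hc : Whole c) (y : c.I → ℝ) : obsX c (fun i => y i + 2 * Real.pi) = obsX c y := by
  unfold obsX
  simp only [mul_add, Finset.sum_add_distrib]
  rw [← Finset.sum_mul, sum_fX hc]
  ring

theorem obsM_shift {c : Grid G} (hc : Whole c) (y : c.I → ℝ) :
    obsM c (fun i => y i + 2 * Real.pi) = obsM c y + 2 * Real.pi := by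
  have hcard : (Fintype.card c.I : ℝ) ≠ 0 := by
    have h2 := hc.two
    have : 0 < Fintype.card c.I := by
      rw [Fintype.card_prod, Fintype.card_fin]
      positivity
    exact_mod_cast this.ne'
  unfold obsM
  rw [Finset.sum_add_distrib, Finset.sum_const, Finset.card_univ, nsmul_eq_mul]
  field_simp

theorem per_X2 {c : Grid G} (hc : Whole c) : Per c fun y => obsX c y ^ 2 := fun y => by
  show obsX c _ ^ 2 = _
  rw [obsX_shift hc]

theorem per_X {c : Grid G} (hc : Whole c) : Per c (obsX c) := fun y => obsX_shift hc y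

theorem per_cos {c : Grid G} (hc : Whole c) : Per c fun y => Real.cos (obsM c y) := fun y => by
  show Real.cos (obsM c _) = _
  rw [obsM_shift hc, Real.cos_add_two_pi]

theorem per_mix {c : Grid G} (hc : Whole c) (w : ℝ) :
    Per c fun y => Real.cos (obsM c y) * Real.exp (w * obsX c y) := fun y => by
  show Real.cos (obsM c _) * Real.exp (w * obsX c _) = _
  rw [obsM_shift hc, Real.cos_add_two_pi, obsX_shift hc]

/-! ## 3. Rows -/

theorem snr_nonneg (c : Grid G) : 0 ≤ snr c := by unfold snr; positivity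

theorem snr_le {c : Grid G} (h4 : c.m * 4 ≤ G.M) : snr c ≤ 1 / 4 := by
  unfold snr
  have hM : (0 : ℝ) < G.M := by exact_mod_cast G.hM
  rw [div_le_iff₀ hM]
  have : ((c.m * 4 : ℕ) : ℝ) ≤ G.M := by exact_mod_cast h4
  push_cast at this
  linarith

theorem Obs.Row.mono {S : LSys} {O : Obs S} {K K' : ℝ} {l : O.I → ℝ} (h : O.Row K l) (hK : K ≤ K') : O.Row K' l := by
  obtain ⟨h1, q, hq, h2⟩ := h
  exact ⟨h1.trans hK, q, hq, h2.trans hK⟩

theorem Obs.Row.smul {S : LSys} {O : Obs S} {K : ℝ} {l : O.I → ℝ} (h : O.Row K l) (w : ℝ) :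
    O.Row (w ^ 2 * K) fun i => w * l i := by
  obtain ⟨h1, q, hq, h2⟩ := h
  refine ⟨?_, fun e => w * q e, fun z => ?_, ?_⟩
  · simp only [mul_pow]
    rw [← Finset.mul_sum]
    exact mul_le_mul_of_nonneg_left h1 (sq_nonneg w)
  · have := hq z
    simp only [lin, mul_assoc] at this ⊢
    rw [← Finset.mul_sum, ← Finset.mul_sum, this]
  · simp only [mul_pow]
    rw [← Finset.mul_sum]
    exact mul_le_mul_of_nonneg_left h2 (sq_nonneg w)

/-- bound of the noise variance and of the reference cost of `X_{n,s}` -/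
def K0 : ℝ := Real.pi ^ 2 / 4 + 2 * Ca + 1

theorem K0_pos : 0 < K0 := by
  have := Ca_nonneg
  unfold K0
  positivity

theorem pow4_le_one {x : ℝ} (h0 : 0 ≤ x) (h1 : x ≤ 1 / 4) : x ^ 4 ≤ 1 := pow_le_one₀ h0 (by linarith)

/-- the flow of `X_{n,s}` -/
theorem rowX_flow {c : Grid G} (h4 : c.m * 4 ≤ G.M) (hs : 1 ≤ c.m) (tR : (tS G.M).E → ℝ)
    (hrow : (tobs c).row (fX c) = beta G.M c.m • Hn G.M + flowS (tS G.M) tR) (a : ℝ) :
    (tobs c).row (fX c) = a • Hn G.M + flowS (tS G.M) fun e => (beta G.M c.m - a) * torω G.M e + 1 * tR e := by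
  have e := flowS_lin (tS G.M) (beta G.M c.m - a) 1 (torω G.M) tR
  rw [hrow]
  refine Eq.trans ?_ (congrArg (fun X => a • Hn G.M + X) e.symm)
  rw [← Hn_flow G.M (by omega), sub_smul, one_smul]
  abel

theorem row_fX {c : Grid G} (hc : Whole c) (h4 : c.m * 4 ≤ G.M) (tR : (tS G.M).E → ℝ)
    (hrow : (tobs c).row (fX c) = beta G.M c.m • Hn G.M + flowS (tS G.M) tR)
    (hcost : ∑ e, tR e ^ 2 ≤ Ca * snr c ^ 4) : (tobs c).Row K0 (fX c) := by
  have hs : 1 ≤ c.m := hc.pos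
  obtain ⟨hβ, hβ1, -⟩ := beta_bounds G.M c.m hs h4
  have hsn := snr_nonneg c
  have hsn4 := snr_le h4
  have hCa := Ca_nonneg
  refine ⟨?_, fun e => (beta G.M c.m - 0) * torω G.M e + 1 * tR e, fun z => ?_, ?_⟩
  · have h := nf2_le hc h4
    unfold nf2 at h
    refine h.trans ?_
    unfold K0
    nlinarith [sq_nonneg Real.pi]
  · have h := rowX_flow h4 hs tR hrow 0
    rw [zero_smul, zero_add] at h
    exact congrArg (fun X : (tS G.M).L →+ ℝ => X z) h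
  · refine (sum_lin_sq_le _ _ _ _).trans ?_
    have h1 : ∑ e : (tS G.M).E, torω G.M e ^ 2 ≤ Real.pi ^ 2 / 8 := torω_cost G.M (by omega)
    have hT0 : 0 ≤ ∑ e : (tS G.M).E, torω G.M e ^ 2 := Finset.sum_nonneg fun _ _ => sq_nonneg _
    have h2 : (beta G.M c.m - 0) ^ 2 ≤ 1 := by
      rw [sub_zero]
      exact pow_le_one₀ (by linarith) hβ1
    have h3 : ∑ e, tR e ^ 2 ≤ Ca := hcost.trans (mul_le_of_le_one_right hCa (pow4_le_one hsn hsn4))
    have h4' : 2 * (beta G.M c.m - 0) ^ 2 * ∑ e : (tS G.M).E, torω G.M e ^ 2 ≤ 2 * 1 * (Real.pi ^ 2 / 8) :=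
      mul_le_mul (by linarith) h1 hT0 (by norm_num)
    unfold K0
    linarith

/-! ## 4. The variance -/

theorem div_beta_le {β x B : ℝ} (hβ : 1 / 2 ≤ β) (h : |x| ≤ B) : |x / β ^ 2| ≤ 4 * B := by
  have hβ2 : 1 / 4 ≤ β ^ 2 := by nlinarith
  have hpos : 0 < β ^ 2 := by linarith
  rw [abs_div, abs_of_pos hpos, div_le_iff₀ hpos]
  have hB : 0 ≤ B := (abs_nonneg _).trans h
  nlinarith

theorem realV {β nf tv x2 x1 u2 vR : ℝ} (hβ : 1 / 2 ≤ β) (hu : u2 = β ^ 2 * tv + vR + nf) :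
    tv - (x2 - x1 ^ 2 - nf) / β ^ 2 = (-(x2 - u2) + x1 ^ 2 - vR) / β ^ 2 := by
  have hβ0 : β ≠ 0 := by linarith
  rw [hu]
  field_simp
  ring

/-- the uncut variance of the observation -/
theorem eu_X2_split {c : Grid G} (tR : (tS G.M).E → ℝ)
    (hrow : (tobs c).row (fX c) = beta G.M c.m • Hn G.M + flowS (tS G.M) tR) (b : ℝ) (hb : 0 < b)
    (hcov : (tSb G.M b).Cv 0 0 (Hn G.M) (flowS (tS G.M) tR) = 0) :
    (tobs c).Eu b (fun y => obsX c y ^ 2)
      = beta G.M c.m ^ 2 * torVar b G.M + (tSb G.M b).V0 (flowS (tS G.M) tR) + nf2 c := by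
  rw [eu_X2 c b hb, hrow, torVar_eq]
  congr 1
  exact var_split (tSb G.M b) (tSb_ok G.M b hb) _ _ _ hcov

theorem mainV (hG : G.bc = BC.per) {c : Grid G} (hc : Whole c) (h4 : c.m * 4 ≤ G.M) (b0 b1 ε : ℝ) (h0 : 0 < b0)
    (hε0 : 0 ≤ ε) (hε1 : ε ≤ 1)
    (s2 : ∀ b ∈ Set.Icc b0 b1, |Eh b c (fun y => obsX c y ^ 2) - (tobs c).Eu b (fun y => obsX c y ^ 2)| ≤ ε)
    (l2 : ∀ b ∈ Set.Icc b0 b1, ∀ b' ∈ Set.Icc b0 b1,
      |(Eh b c (fun y => obsX c y ^ 2) - (tobs c).Eu b (fun y => obsX c y ^ 2))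
        - (Eh b' c (fun y => obsX c y ^ 2) - (tobs c).Eu b' (fun y => obsX c y ^ 2))|
        ≤ |b - b'| * ((Fintype.card (tS G.M).E : ℝ) * ε))
    (s1 : ∀ b ∈ Set.Icc b0 b1, |Eh b c (obsX c) - (tobs c).Eu b (obsX c)| ≤ ε)
    (l1 : ∀ b ∈ Set.Icc b0 b1, ∀ b' ∈ Set.Icc b0 b1,
      |(Eh b c (obsX c) - (tobs c).Eu b (obsX c)) - (Eh b' c (obsX c) - (tobs c).Eu b' (obsX c))|
        ≤ |b - b'| * ((Fintype.card (tS G.M).E : ℝ) * ε)) :
    (∀ b ∈ Set.Icc b0 b1, |torVar b G.M - gV b c| ≤ 4 * b1 * Ca * snr c ^ 4 + 8 * ε) ∧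
    ∀ b ∈ Set.Icc b0 b1, ∀ b' ∈ Set.Icc b0 b1, |(torVar b G.M - gV b c) - (torVar b' G.M - gV b' c)|
      ≤ |b - b'| * (4 * (Fintype.card (tS G.M).E : ℝ) * Cup b1 * Ca * snr c ^ 4
        + 12 * (Fintype.card (tS G.M).E : ℝ) * ε) := by
  obtain ⟨tR, hrow, hcost, hcov⟩ := alias_split hG hc h4
  obtain ⟨hβ, -, -⟩ := beta_bounds G.M c.m hc.pos h4
  set E : ℝ := (Fintype.card (tS G.M).E : ℝ) with hE
  have hE0 : 0 ≤ E := by positivity
  have hsn := snr_nonneg c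
  have hCa := Ca_nonneg
  -- the exact identity
  have id : ∀ b ∈ Set.Icc b0 b1, torVar b G.M - gV b c
      = (-(Eh b c (fun y => obsX c y ^ 2) - (tobs c).Eu b (fun y => obsX c y ^ 2)) + Eh b c (obsX c) ^ 2
        - (tSb G.M b).V0 (flowS (tS G.M) tR)) / beta G.M c.m ^ 2 := by
    intro b hb
    have hb0 := h0.trans_le hb.1
    exact realV hβ (eu_X2_split tR hrow b hb0 (hcov b hb0))
  have x1 : ∀ b ∈ Set.Icc b0 b1, |Eh b c (obsX c)| ≤ ε := by
    intro b hb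
    have := s1 b hb
    rwa [eu_X, sub_zero] at this
  have vR0 : ∀ b ∈ Set.Icc b0 b1, 0 ≤ (tSb G.M b).V0 (flowS (tS G.M) tR) := fun b hb =>
    rd_V0_nonneg (tSb_ok G.M b (h0.trans_le hb.1)) _
  have vR1 : ∀ b ∈ Set.Icc b0 b1, (tSb G.M b).V0 (flowS (tS G.M) tR) ≤ b1 * (Ca * snr c ^ 4) := by
    intro b hb
    have hb0 := h0.trans_le hb.1
    have h := fr_ref_var (tSb G.M b) (tSb_ok G.M b hb0) b1 (fun _ => hb.2) tR
    exact h.trans (mul_le_mul_of_nonneg_left hcost (hb0.le.trans hb.2))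
  constructor
  · intro b hb
    rw [id b hb]
    have h1 := s2 b hb
    have h2 := x1 b hb
    have h3 := vR0 b hb
    have h4' := vR1 b hb
    have h5 : Eh b c (obsX c) ^ 2 ≤ ε := by
      have : Eh b c (obsX c) ^ 2 ≤ ε ^ 2 := sq_le_sq' (by linarith [(abs_le.1 h2).1]) (abs_le.1 h2).2
      nlinarith
    have h6 : 0 ≤ Eh b c (obsX c) ^ 2 := sq_nonneg _
    refine (div_beta_le hβ (B := b1 * (Ca * snr c ^ 4) + 2 * ε) ?_).trans (le_of_eq (by ring))
    rw [abs_le] at h1 ⊢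
    constructor <;> linarith [h1.1, h1.2]
  · intro b hb b' hb'
    rw [id b hb, id b' hb', ← sub_div]
    have h1 := l2 b hb b' hb'
    have h2 := l1 b hb b' hb'
    rw [eu_X, eu_X, sub_zero, sub_zero] at h2
    have h3 := v0_lip (tS G.M) (sysP_ok _ _) tR b0 b1 h0 b hb b' hb'
    have h3' : |(tSb G.M b).V0 (flowS (tS G.M) tR) - (tSb G.M b').V0 (flowS (tS G.M) tR)|
        ≤ |b - b'| * (E * (Cup b1 * (Ca * snr c ^ 4))) := by
      refine h3.trans (mul_le_mul_of_nonneg_left ?_ (abs_nonneg _))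
      exact mul_le_mul_of_nonneg_left (mul_le_mul_of_nonneg_left hcost (e2_Cup_pos b1).le) hE0
    have h4' : |Eh b c (obsX c) ^ 2 - Eh b' c (obsX c) ^ 2| ≤ |b - b'| * (E * ε) * 2 := by
      have e : Eh b c (obsX c) ^ 2 - Eh b' c (obsX c) ^ 2
          = (Eh b c (obsX c) - Eh b' c (obsX c)) * (Eh b c (obsX c) + Eh b' c (obsX c)) := by ring
      rw [e, abs_mul]
      have h5 : |Eh b c (obsX c) + Eh b' c (obsX c)| ≤ 2 :=
        (abs_add_le _ _).trans (by linarith [x1 b hb, x1 b' hb'])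
      exact mul_le_mul h2 h5 (abs_nonneg _) (by positivity)
    refine (div_beta_le hβ (B := |b - b'| * (E * (Cup b1 * (Ca * snr c ^ 4))) + 3 * (|b - b'| * (E * ε))) ?_).trans
      (le_of_eq (by ring))
    rw [abs_le] at h1 h3' h4' ⊢
    constructor <;> linarith [h1.1, h1.2, h3'.1, h3'.2, h4'.1, h4'.2]

/-! ## 5. The phase -/

theorem exp_snr_le {c : Grid G} (h4 : c.m * 4 ≤ G.M) : Real.exp (snr c ^ 2 / 2) ≤ 2 := by
  have h1 := snr_nonneg c
  have h2 := snr_le h4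
  have h3 : snr c ^ 2 / 2 ≤ 1 / 2 := by nlinarith
  calc Real.exp (snr c ^ 2 / 2) ≤ Real.exp (1 / 2) := Real.exp_le_exp.2 h3
    _ ≤ 2 := by
        have h := Real.exp_one_lt_d9
        have h5 : Real.exp (1 / 2) ^ 2 = Real.exp 1 := by
          rw [← Real.exp_nat_mul]; norm_num
        nlinarith [Real.exp_pos (1 / 2 : ℝ)]

theorem mainP {c : Grid G} (hc : Whole c) (h4 : c.m * 4 ≤ G.M) (b0 b1 ε L : ℝ)
    (sC : ∀ b ∈ Set.Icc b0 b1,
      |Eh b c (fun y => Real.cos (obsM c y)) - (tobs c).Eu b (fun y => Real.cos (obsM c y))| ≤ ε)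
    (lC : ∀ b ∈ Set.Icc b0 b1, ∀ b' ∈ Set.Icc b0 b1,
      |(Eh b c (fun y => Real.cos (obsM c y)) - (tobs c).Eu b (fun y => Real.cos (obsM c y)))
        - (Eh b' c (fun y => Real.cos (obsM c y)) - (tobs c).Eu b' (fun y => Real.cos (obsM c y)))|
        ≤ |b - b'| * L) :
    (∀ b ∈ Set.Icc b0 b1, |torPhase b G.M - gP b c| ≤ 2 * ε) ∧
    ∀ b ∈ Set.Icc b0 b1, ∀ b' ∈ Set.Icc b0 b1, |(torPhase b G.M - gP b c) - (torPhase b' G.M - gP b' c)|
      ≤ |b - b'| * (2 * L) := by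
  have hx := exp_snr_le h4
  have hx0 := Real.exp_pos (snr c ^ 2 / 2)
  have id : ∀ b, torPhase b G.M - gP b c = -(Real.exp (snr c ^ 2 / 2) *
      (Eh b c (fun y => Real.cos (obsM c y)) - (tobs c).Eu b (fun y => Real.cos (obsM c y)))) := by
    intro b
    rw [← eu_cos hc b]
    unfold gP
    ring
  constructor
  · intro b hb
    rw [id, abs_neg, abs_mul, abs_of_pos hx0]
    exact mul_le_mul hx (sC b hb) (abs_nonneg _) (by norm_num)
  · intro b hb b' hb'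
    rw [id, id, ← neg_sub_neg, neg_neg, neg_neg, ← mul_sub, abs_mul, abs_of_pos hx0, abs_sub_comm]
    have := lC b hb b' hb'
    calc _ ≤ 2 * (|b - b'| * L) := mul_le_mul hx this (abs_nonneg _) (by norm_num)
      _ = _ := by ring

/-! ## 6. The mixed diagnostic -/

theorem abs_exp_sub_le (a b m : ℝ) (ha : a ≤ m) (hb : b ≤ m) : |Real.exp a - Real.exp b| ≤ |a - b| * Real.exp m := by
  have key : ∀ x y : ℝ, y ≤ x → x ≤ m → |Real.exp x - Real.exp y| ≤ |x - y| * Real.exp m := by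
    intro x y hxy hx
    rw [abs_of_nonneg (sub_nonneg.2 (Real.exp_le_exp.2 hxy)), abs_of_nonneg (sub_nonneg.2 hxy)]
    have h1 := Real.add_one_le_exp (y - x)
    have h2 : Real.exp y = Real.exp x * Real.exp (y - x) := by rw [← Real.exp_add]; congr 1; ring
    have h3 : Real.exp x - Real.exp y ≤ (x - y) * Real.exp x := by
      rw [h2]
      nlinarith [Real.exp_pos x]
    exact h3.trans (mul_le_mul_of_nonneg_left (Real.exp_le_exp.2 hx) (sub_nonneg.2 hxy))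
  rcases le_total b a with h | h
  · exact key a b h ha
  · rw [abs_sub_comm, abs_sub_comm a b]
    exact key b a h hb

theorem smul_flow (S : LSys) (w : ℝ) (t : S.E → ℝ) (z : S.L) : w * flowS S t z = flowS S (fun e => w * t e) z := by
  rw [frs_flowS_smul]
  rfl

theorem sum_smul_sq {ι : Type} [Fintype ι] (w : ℝ) (t : ι → ℝ) : ∑ e, (w * t e) ^ 2 = w ^ 2 * ∑ e, t e ^ 2 := by
  simp only [mul_pow]
  rw [Finset.mul_sum]

/-- constants of the mixed diagnostic -/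
def c2 : ℝ := Real.pi ^ 6 / 64 + 2 * Ca + 1

/-- bound of the costs of the flows in the mixed diagnostic -/
def Kw (w : ℝ) : ℝ := w ^ 2 * (K0 + c2)

/-- `e^{(1/π + R) w²/2}` -/
def Ew (R w : ℝ) : ℝ := Real.exp ((1 / Real.pi + R) * w ^ 2 / 2)

theorem c2_pos : 0 < c2 := by
  have := Ca_nonneg
  unfold c2
  positivity

theorem numN {w nf x : ℝ} (hnf0 : 0 ≤ nf) (hnf : nf ≤ 4 * x ^ 2) (hx0 : 0 ≤ x) (hx : x ≤ 1 / 4) :
    |1 - Real.exp (w ^ 2 * nf / 2)| ≤ 2 * w ^ 2 * Real.exp (w ^ 2 / 8) * x ^ 2 := by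
  have hw2 : 0 ≤ w ^ 2 := sq_nonneg w
  have hx2 : x ^ 2 ≤ 1 / 16 := by nlinarith
  have hnf4 : nf ≤ 1 / 4 := by linarith
  have h1 : w ^ 2 * nf / 2 ≤ w ^ 2 / 8 := by nlinarith
  have h2 := abs_exp_sub_le 0 (w ^ 2 * nf / 2) (w ^ 2 / 8) (by positivity) h1
  rw [Real.exp_zero] at h2
  refine h2.trans ?_
  rw [zero_sub, abs_neg, abs_of_nonneg (by positivity)]
  have h3 : w ^ 2 * nf / 2 ≤ 2 * w ^ 2 * x ^ 2 := by nlinarith
  calc w ^ 2 * nf / 2 * Real.exp (w ^ 2 / 8) ≤ 2 * w ^ 2 * x ^ 2 * Real.exp (w ^ 2 / 8) :=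
        mul_le_mul_of_nonneg_right h3 (Real.exp_pos _).le
    _ = _ := by ring

theorem numE {w v R : ℝ} (hv : |v - 1 / Real.pi| ≤ R) :
    Real.exp (v * w ^ 2 / 2) ≤ Ew R w ∧
    |Real.exp (v * w ^ 2 / 2) - Real.exp (w ^ 2 / (2 * Real.pi))| ≤ w ^ 2 / 2 * Ew R w * |v - 1 / Real.pi| := by
  have hw2 : 0 ≤ w ^ 2 := sq_nonneg w
  have hpi : 0 < 1 / Real.pi := by positivity
  have hR : 0 ≤ R := (abs_nonneg _).trans hv
  have hv1 : v ≤ 1 / Real.pi + R := by linarith [(abs_le.1 hv).2]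
  have hle : v * w ^ 2 / 2 ≤ (1 / Real.pi + R) * w ^ 2 / 2 := by nlinarith
  constructor
  · unfold Ew
    exact Real.exp_le_exp.2 hle
  · have h1 : w ^ 2 / (2 * Real.pi) = 1 / Real.pi * w ^ 2 / 2 := by field_simp
    have h2 := abs_exp_sub_le (v * w ^ 2 / 2) (1 / Real.pi * w ^ 2 / 2) ((1 / Real.pi + R) * w ^ 2 / 2)
      hle (by nlinarith)
    rw [h1]
    refine h2.trans (le_of_eq ?_)
    have h3 : v * w ^ 2 / 2 - 1 / Real.pi * w ^ 2 / 2 = (v - 1 / Real.pi) * (w ^ 2 / 2) := by ring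
    rw [h3, abs_mul, abs_of_nonneg (by positivity : 0 ≤ w ^ 2 / 2)]
    unfold Ew
    ring

/-- the hypothesis supplied by `mix_le` -/
def MixH (b1 w Cm : ℝ) : Prop :=
  ∀ S : LSys, S.Ok → (∀ e, S.b e ≤ b1) → ∀ (M : S.L →+ ℝ) (tY tR : S.E → ℝ),
    ∑ e, tY e ^ 2 ≤ Kw w → ∑ e, tR e ^ 2 ≤ Kw w →
    |S.E0 (fun z => Real.cos (M z) * Real.exp (flowS S tY z))
        - S.E0 (fun z => Real.cos (M z) * Real.exp (flowS S tY z + flowS S tR z))|
      ≤ Cm * Real.sqrt (∑ e, tR e ^ 2)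

/-- the cost of `X_{n,s}` as a flow -/
theorem cost0_le {c : Grid G} (hc : Whole c) (h4 : c.m * 4 ≤ G.M) (tR : (tS G.M).E → ℝ)
    (hcost : ∑ e, tR e ^ 2 ≤ Ca * snr c ^ 4) :
    ∑ e : (tS G.M).E, ((beta G.M c.m - 0) * torω G.M e + 1 * tR e) ^ 2 ≤ K0 := by
  have hs : 1 ≤ c.m := hc.pos
  obtain ⟨hβ, hβ1, -⟩ := beta_bounds G.M c.m hs h4
  have hT : ∑ e : (tS G.M).E, torω G.M e ^ 2 ≤ Real.pi ^ 2 / 8 := torω_cost G.M (by omega)
  have hT0 : 0 ≤ ∑ e : (tS G.M).E, torω G.M e ^ 2 := Finset.sum_nonneg fun _ _ => sq_nonneg _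
  refine (sum_lin_sq_le _ _ _ _).trans ?_
  have h2 : (beta G.M c.m - 0) ^ 2 ≤ 1 := by
    rw [sub_zero]
    exact pow_le_one₀ (by linarith) hβ1
  have h3 : ∑ e, tR e ^ 2 ≤ Ca :=
    hcost.trans (mul_le_of_le_one_right Ca_nonneg (pow4_le_one (snr_nonneg c) (snr_le h4)))
  have h4' : 2 * (beta G.M c.m - 0) ^ 2 * ∑ e : (tS G.M).E, torω G.M e ^ 2 ≤ 2 * 1 * (Real.pi ^ 2 / 8) :=
    mul_le_mul (by linarith) hT hT0 (by norm_num)
  unfold K0
  linarith

/-- the cost of `X_{n,s} - H_n` as a flow -/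
theorem costD_le {c : Grid G} (hc : Whole c) (h4 : c.m * 4 ≤ G.M) (tR : (tS G.M).E → ℝ)
    (hcost : ∑ e, tR e ^ 2 ≤ Ca * snr c ^ 4) :
    ∑ e : (tS G.M).E, ((beta G.M c.m - 1) * torω G.M e + 1 * tR e) ^ 2 ≤ (c2 - 1) * snr c ^ 4 := by
  have hs : 1 ≤ c.m := hc.pos
  obtain ⟨hβ, hβ1, hβ2⟩ := beta_bounds G.M c.m hs h4
  have hT : ∑ e : (tS G.M).E, torω G.M e ^ 2 ≤ Real.pi ^ 2 / 8 := torω_cost G.M (by omega)
  have hT0 : 0 ≤ ∑ e : (tS G.M).E, torω G.M e ^ 2 := Finset.sum_nonneg fun _ _ => sq_nonneg _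
  have hsn := snr_nonneg c
  refine (sum_lin_sq_le _ _ _ _).trans ?_
  have h1 : (beta G.M c.m - 1) ^ 2 ≤ Real.pi ^ 4 / 16 * snr c ^ 4 := by
    have h2 : |beta G.M c.m - 1| ≤ Real.pi ^ 2 / 4 * snr c ^ 2 := by
      rw [abs_sub_comm, abs_of_nonneg (by linarith)]
      exact hβ2
    calc (beta G.M c.m - 1) ^ 2 = |beta G.M c.m - 1| ^ 2 := (sq_abs _).symm
      _ ≤ (Real.pi ^ 2 / 4 * snr c ^ 2) ^ 2 := pow_le_pow_left₀ (abs_nonneg _) h2 2
      _ = _ := by ring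
  have h3 : 2 * (beta G.M c.m - 1) ^ 2 * ∑ e : (tS G.M).E, torω G.M e ^ 2
      ≤ 2 * (Real.pi ^ 4 / 16 * snr c ^ 4) * (Real.pi ^ 2 / 8) :=
    mul_le_mul (by linarith) hT hT0 (by positivity)
  have e : (c2 - 1) * snr c ^ 4 = 2 * (Real.pi ^ 4 / 16 * snr c ^ 4) * (Real.pi ^ 2 / 8) + 2 * (Ca * snr c ^ 4) := by
    unfold c2
    ring
  rw [e]
  linarith

/-- the two physical transforms -/
theorem mix_phys (hG : G.bc = BC.per) {c : Grid G} (hc : Whole c) (h4 : c.m * 4 ≤ G.M) (b b1 w Cm : ℝ) (hb0 : 0 < b)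
    (hb : b ≤ b1) (hCm : 0 ≤ Cm) (hmix : MixH b1 w Cm) :
    |(tSb G.M b).E0 (fun z => Real.cos (Mn G.M z) * Real.exp (w * Hn G.M z))
      - (tSb G.M b).E0 (fun z => Real.cos (Mn G.M z) * Real.exp (w * (tobs c).row (fX c) z))|
        ≤ Cm * (|w| * c2 * snr c ^ 2) ∧
    |(tSb G.M b).E0 fun z => Real.cos (Mn G.M z) * Real.exp (w * (tobs c).row (fX c) z)|
        ≤ Real.exp (b1 * (Real.cosh (Real.sqrt (Kw w)) - 1)) := by
  have hb1 : 0 ≤ b1 := hb0.le.trans hb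
  have hs : 1 ≤ c.m := hc.pos
  obtain ⟨tR, hrow, hcost, -⟩ := alias_split hG hc h4
  have hsn := snr_nonneg c
  have hsn4 := snr_le h4
  have hK0 := K0_pos
  have hc2 := c2_pos
  have hc21 : 0 ≤ c2 - 1 := by
    have : c2 - 1 = Real.pi ^ 6 / 64 + 2 * Ca := by unfold c2; ring
    rw [this]
    have := Ca_nonneg
    positivity
  have hOk := tSb_ok G.M b hb0
  have hT : ∑ e : (tS G.M).E, torω G.M e ^ 2 ≤ Real.pi ^ 2 / 8 := torω_cost G.M (by omega)
  have hw2 : 0 ≤ w ^ 2 := sq_nonneg w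
  have hrow1 := rowX_flow h4 hs tR hrow 1
  rw [one_smul] at hrow1
  have hrow0 := rowX_flow h4 hs tR hrow 0
  rw [zero_smul, zero_add] at hrow0
  have cD := costD_le hc h4 tR hcost
  have c0 := cost0_le hc h4 tR hcost
  have eH : ∀ z : (tS G.M).L, w * Hn G.M z = flowS (tS G.M) (fun e => w * torω G.M e) z := by
    intro z
    rw [Hn_flow G.M (by omega)]
    exact smul_flow (tS G.M) w (torω G.M) z
  constructor
  · have cY : ∑ e : (tS G.M).E, (w * torω G.M e) ^ 2 ≤ Kw w := by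
      refine (sum_smul_sq (ι := (tS G.M).E) w (torω G.M)).trans_le ?_
      unfold Kw
      refine mul_le_mul_of_nonneg_left (hT.trans ?_) hw2
      unfold K0
      nlinarith [sq_nonneg Real.pi, Ca_nonneg]
    have cR : ∑ e : (tS G.M).E, (w * ((beta G.M c.m - 1) * torω G.M e + 1 * tR e)) ^ 2
        ≤ w ^ 2 * ((c2 - 1) * snr c ^ 4) :=
      (sum_smul_sq (ι := (tS G.M).E) w fun e => (beta G.M c.m - 1) * torω G.M e + 1 * tR e).trans_le
        (mul_le_mul_of_nonneg_left cD hw2)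
    have cR' : ∑ e : (tS G.M).E, (w * ((beta G.M c.m - 1) * torω G.M e + 1 * tR e)) ^ 2 ≤ Kw w := by
      refine cR.trans ?_
      unfold Kw
      refine mul_le_mul_of_nonneg_left ?_ hw2
      have : (c2 - 1) * snr c ^ 4 ≤ (c2 - 1) * 1 := mul_le_mul_of_nonneg_left (pow4_le_one hsn hsn4) hc21
      linarith
    have sR : Real.sqrt (∑ e : (tS G.M).E, (w * ((beta G.M c.m - 1) * torω G.M e + 1 * tR e)) ^ 2)
        ≤ |w| * c2 * snr c ^ 2 := by
      apply Real.sqrt_le_iff.2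
      refine ⟨by positivity, cR.trans ?_⟩
      have e : (|w| * c2 * snr c ^ 2) ^ 2 = w ^ 2 * (c2 ^ 2 * snr c ^ 4) := by
        rw [mul_pow, mul_pow, sq_abs]; ring
      rw [e]
      refine mul_le_mul_of_nonneg_left (mul_le_mul_of_nonneg_right ?_ (by positivity)) hw2
      nlinarith
    have h := hmix (tSb G.M b) hOk (fun _ => hb) (Mn G.M) (fun e => w * torω G.M e)
      (fun e => w * ((beta G.M c.m - 1) * torω G.M e + 1 * tR e)) cY cR'
    have e0 : (fun z : (tSb G.M b).L => Real.cos (Mn G.M z) * Real.exp (w * Hn G.M z))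
        = fun z => Real.cos (Mn G.M z) * Real.exp (flowS (tSb G.M b) (fun e => w * torω G.M e) z) := by
      funext z
      rw [eH z]
      rfl
    have e1 : (fun z : (tSb G.M b).L => Real.cos (Mn G.M z) * Real.exp (w * (tobs c).row (fX c) z))
        = fun z => Real.cos (Mn G.M z) * Real.exp (flowS (tSb G.M b) (fun e => w * torω G.M e) z
          + flowS (tSb G.M b) (fun e => w * ((beta G.M c.m - 1) * torω G.M e + 1 * tR e)) z) := by
      funext z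
      have : w * (tobs c).row (fX c) z = flowS (tS G.M) (fun e => w * torω G.M e) z
          + flowS (tS G.M) (fun e => w * ((beta G.M c.m - 1) * torω G.M e + 1 * tR e)) z := by
        have q1 : (tobs c).row (fX c) z = Hn G.M z
            + flowS (tS G.M) (fun e => (beta G.M c.m - 1) * torω G.M e + 1 * tR e) z :=
          congrArg (fun X : (tS G.M).L →+ ℝ => X z) hrow1
        have q2 := smul_flow (tS G.M) w (fun e => (beta G.M c.m - 1) * torω G.M e + 1 * tR e) z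
        have q3 := eH z
        calc w * (tobs c).row (fX c) z
            = w * Hn G.M z + w * flowS (tS G.M) (fun e => (beta G.M c.m - 1) * torω G.M e + 1 * tR e) z := by
              rw [q1, mul_add]
          _ = _ := congrArg₂ (· + ·) q3 q2
      rw [this]
      rfl
    rw [e0, e1]
    exact h.trans (mul_le_mul_of_nonneg_left sR hCm)
  · have h := mix_bdd b1 (Kw w) hb1 (tSb G.M b) hOk (fun _ => hb) (Mn G.M)
      (fun e => w * ((beta G.M c.m - 0) * torω G.M e + 1 * tR e)) (by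
        refine (sum_smul_sq (ι := (tS G.M).E) w fun e => (beta G.M c.m - 0) * torω G.M e + 1 * tR e).trans_le ?_
        unfold Kw
        exact mul_le_mul_of_nonneg_left (c0.trans (by linarith)) hw2)
    have e1 : (fun z : (tSb G.M b).L => Real.cos (Mn G.M z) * Real.exp (w * (tobs c).row (fX c) z))
        = fun z => Real.cos (Mn G.M z) *
          Real.exp (flowS (tSb G.M b) (fun e => w * ((beta G.M c.m - 0) * torω G.M e + 1 * tR e)) z) := by
      funext z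
      rw [hrow0]
      congr 2
      exact smul_flow (tS G.M) w _ z
    rw [e1]
    exact h

theorem torPhase_abs_le (n : ℕ) [NeZero n] (b : ℝ) (hb : 0 < b) : |torPhase b n| ≤ 1 := by
  rw [torPhase_eq]
  have hOk := tSb_ok n b hb
  have h1 := lsys_phi_le_one (tSb n b) hOk (Mn n)
  have h2 := lsys_phi_lower (tSb n b) hOk (Mn n)
  rw [abs_of_nonneg ((Real.exp_pos _).le.trans h2)]
  exact h1

/-- the real inequality behind `mainM` -/
theorem realM {A0 A1 N φ Ev E0' x dM dC a1 a2 a3 ε EW : ℝ} (t1 : |A0 - A1| ≤ a1) (t2 : |(1 - N) * A1| ≤ a2)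
    (t3 : |φ * (Ev - E0')| ≤ a3) (hx0 : 0 < x) (hx : x ≤ 2) (hM : |dM| ≤ ε) (hC : |dC| ≤ ε) (hEv0 : 0 < Ev)
    (hEv : Ev ≤ EW) :
    |(A0 - A1) + (1 - N) * A1 + φ * (Ev - E0') - x * dM + Ev * (x * dC)| ≤ a1 + a2 + a3 + 2 * (1 + EW) * ε := by
  have hε0 : 0 ≤ ε := (abs_nonneg _).trans hM
  have t4 : |x * dM| ≤ 2 * ε := by
    rw [abs_mul, abs_of_pos hx0]
    exact mul_le_mul hx hM (abs_nonneg _) (by norm_num)
  have t5 : |Ev * (x * dC)| ≤ EW * (2 * ε) := by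
    rw [abs_mul, abs_of_pos hEv0, abs_mul, abs_of_pos hx0]
    exact mul_le_mul hEv (mul_le_mul hx hC (abs_nonneg _) (by norm_num)) (by positivity) (hEv0.le.trans hEv)
  rw [abs_le] at t1 t2 t3 t4 t5 ⊢
  constructor <;> linarith [t1.1, t1.2, t2.1, t2.2, t3.1, t3.2, t4.1, t4.2, t5.1, t5.2]

theorem mainM (hG : G.bc = BC.per) {c : Grid G} (hc : Whole c) (h4 : c.m * 4 ≤ G.M) (b0 b1 w ε Cm R : ℝ) (h0 : 0 < b0)
    (hCm : 0 ≤ Cm) (hmix : MixH b1 w Cm)
    (sC : ∀ b ∈ Set.Icc b0 b1,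
      |Eh b c (fun y => Real.cos (obsM c y)) - (tobs c).Eu b (fun y => Real.cos (obsM c y))| ≤ ε)
    (sM : ∀ b ∈ Set.Icc b0 b1,
      |Eh b c (fun y => Real.cos (obsM c y) * Real.exp (w * obsX c y))
        - (tobs c).Eu b (fun y => Real.cos (obsM c y) * Real.exp (w * obsX c y))| ≤ ε) :
    ∀ b ∈ Set.Icc b0 b1, ∀ v : ℝ, |v - 1 / Real.pi| ≤ R →
      |tMix b G.M w - gM v w b c|
        ≤ (Cm * |w| * c2 + 2 * w ^ 2 * Real.exp (w ^ 2 / 8) * Real.exp (b1 * (Real.cosh (Real.sqrt (Kw w)) - 1))) * snr c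
          + w ^ 2 / 2 * Ew R w * |v - 1 / Real.pi| + 2 * (1 + Ew R w) * ε := by
  intro b hb v hv
  have hb0 := h0.trans_le hb.1
  have hsn := snr_nonneg c
  have hsn4 := snr_le h4
  have hc2 := c2_pos
  obtain ⟨d01, bA1⟩ := mix_phys hG hc h4 b b1 w Cm hb0 hb.2 hCm hmix
  have hφ := torPhase_abs_le G.M b hb0
  have hN := numN (w := w) (Finset.sum_nonneg fun _ _ => sq_nonneg _ : 0 ≤ nf2 c) (nf2_le hc h4) hsn hsn4
  obtain ⟨hEv, hEd⟩ := numE (w := w) hv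
  -- the identity
  have id : tMix b G.M w - gM v w b c
      = ((tSb G.M b).E0 (fun z => Real.cos (Mn G.M z) * Real.exp (w * Hn G.M z))
          - (tSb G.M b).E0 (fun z => Real.cos (Mn G.M z) * Real.exp (w * (tobs c).row (fX c) z)))
        + (1 - Real.exp (w ^ 2 * nf2 c / 2))
          * (tSb G.M b).E0 (fun z => Real.cos (Mn G.M z) * Real.exp (w * (tobs c).row (fX c) z))
        + torPhase b G.M * (Real.exp (v * w ^ 2 / 2) - Real.exp (w ^ 2 / (2 * Real.pi)))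
        - Real.exp (snr c ^ 2 / 2) * (Eh b c (fun y => Real.cos (obsM c y) * Real.exp (w * obsX c y))
            - (tobs c).Eu b (fun y => Real.cos (obsM c y) * Real.exp (w * obsX c y)))
        + Real.exp (v * w ^ 2 / 2) * (Real.exp (snr c ^ 2 / 2) * (Eh b c (fun y => Real.cos (obsM c y))
            - (tobs c).Eu b (fun y => Real.cos (obsM c y)))) := by
    have e1 := eu_mix hc b w
    have e2 := eu_cos hc b
    rw [tMix_eq]
    unfold gM
    linear_combination (-1 : ℝ) * e1 + Real.exp (v * w ^ 2 / 2) * e2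
  rw [id]
  have t2 : |(1 - Real.exp (w ^ 2 * nf2 c / 2))
      * (tSb G.M b).E0 (fun z => Real.cos (Mn G.M z) * Real.exp (w * (tobs c).row (fX c) z))|
      ≤ 2 * w ^ 2 * Real.exp (w ^ 2 / 8) * snr c ^ 2 * Real.exp (b1 * (Real.cosh (Real.sqrt (Kw w)) - 1)) := by
    rw [abs_mul]
    exact mul_le_mul hN bA1 (abs_nonneg _) (by positivity)
  have t3 : |torPhase b G.M * (Real.exp (v * w ^ 2 / 2) - Real.exp (w ^ 2 / (2 * Real.pi)))|
      ≤ w ^ 2 / 2 * Ew R w * |v - 1 / Real.pi| := by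
    rw [abs_mul]
    calc _ ≤ 1 * (w ^ 2 / 2 * Ew R w * |v - 1 / Real.pi|) := mul_le_mul hφ hEd (abs_nonneg _) (by norm_num)
      _ = _ := one_mul _
  have key := realM d01 t2 t3 (Real.exp_pos (snr c ^ 2 / 2)) (exp_snr_le h4) (sM b hb) (sC b hb)
    (Real.exp_pos (v * w ^ 2 / 2)) hEv
  refine key.trans ?_
  have hsq : snr c ^ 2 ≤ snr c := by nlinarith
  have hB0 : 0 ≤ Cm * |w| * c2 + 2 * w ^ 2 * Real.exp (w ^ 2 / 8) * Real.exp (b1 * (Real.cosh (Real.sqrt (Kw w)) - 1)) := by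
    positivity
  have t12 : Cm * (|w| * c2 * snr c ^ 2)
      + 2 * w ^ 2 * Real.exp (w ^ 2 / 8) * snr c ^ 2 * Real.exp (b1 * (Real.cosh (Real.sqrt (Kw w)) - 1))
      ≤ (Cm * |w| * c2 + 2 * w ^ 2 * Real.exp (w ^ 2 / 8) * Real.exp (b1 * (Real.cosh (Real.sqrt (Kw w)) - 1))) * snr c := by
    calc _ = (Cm * |w| * c2 + 2 * w ^ 2 * Real.exp (w ^ 2 / 8) * Real.exp (b1 * (Real.cosh (Real.sqrt (Kw w)) - 1)))
          * snr c ^ 2 := by ring
      _ ≤ _ := mul_le_mul_of_nonneg_left hsq hB0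
  linarith

/-! ## 7. The contract -/

/-- `cut_abs` on the observed torus -/
theorem cut_tor (b0 b1 K : ℝ) (h0 : 0 < b0) : ∃ C cc : ℝ, 0 < cc ∧ 0 ≤ C ∧
    ∀ (G : Geom) (c : Grid G), G.bc = BC.per → Whole c →
      C * (Fintype.card (Face c) : ℝ) * Real.exp (-cc * (c.m : ℝ) ^ 2) ≤ 1 →
      ∀ (l : c.I → ℝ) (H : (c.I → ℝ) → ℝ), (tobs c).Row K l → Adm 2 l H → Per c H →
        (∀ b ∈ Set.Icc b0 b1, |Eh b c H - (tobs c).Eu b H|
          ≤ C * (Fintype.card (Face c) : ℝ) * Real.exp (-cc * (c.m : ℝ) ^ 2)) ∧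
        ∀ b ∈ Set.Icc b0 b1, ∀ b' ∈ Set.Icc b0 b1, |(Eh b c H - (tobs c).Eu b H) - (Eh b' c H - (tobs c).Eu b' H)|
          ≤ |b - b'| * ((Fintype.card (tS G.M).E : ℝ)
            * (C * (Fintype.card (Face c) : ℝ) * Real.exp (-cc * (c.m : ℝ) ^ 2))) := by
  obtain ⟨CΦ, hΦ⟩ := tobs_ok
  obtain ⟨C, cc, hcc, hC, hcut⟩ := cut_abs b0 b1 K CΦ 2 h0
  refine ⟨C, cc, hcc, hC, fun G c hG hc hsmall l H hl hH hper => ?_⟩
  obtain ⟨h1, h2⟩ := hcut (tS G.M) (tobs c) (hΦ G c hG hc) l H hl hH hsmall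
  have e : ∀ b ∈ Set.Icc b0 b1, Eh b c H = (tobs c).Ec b H := fun b hb =>
    eh_eq hG hc b (h0.trans_le hb.1) hH hper
  constructor
  · intro b hb
    rw [e b hb]
    exact h1 b hb
  · intro b hb b' hb'
    rw [e b hb, e b' hb']
    exact h2 b hb b' hb'

/-- the cutoff error of the contract -/
def cutE (Cc cc : ℝ) (c : Grid G) : ℝ := Cc * (G.M : ℝ) ^ 4 * Real.exp (-cc * (c.m : ℝ) ^ 2)

/-- **BP-E3-CUTGRID: the five comparison fields of `Asm.RawReadOK`.** -/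
structure CutGrid (b0 b1 w R Cg Cc cc : ℝ) (c : Grid G) : Prop where
  cmpV : ∀ b ∈ Set.Icc b0 b1, |torVar b G.M - gV b c| ≤ Cg * snr c ^ 4 + cutE Cc cc c
  cmpP : ∀ b ∈ Set.Icc b0 b1, |torPhase b G.M - gP b c| ≤ cutE Cc cc c
  cmpM : ∀ b ∈ Set.Icc b0 b1, ∀ v : ℝ, |v - 1 / Real.pi| ≤ R →
    |tMix b G.M w - gM v w b c| ≤ Cg * snr c + Cg * |v - 1 / Real.pi| + cutE Cc cc c
  lipV : ∀ b ∈ Set.Icc b0 b1, ∀ b' ∈ Set.Icc b0 b1, |(torVar b G.M - gV b c) - (torVar b' G.M - gV b' c)|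
    ≤ |b - b'| * (Cg * (G.M : ℝ) ^ 2 * snr c ^ 4 + cutE Cc cc c)
  lipP : ∀ b ∈ Set.Icc b0 b1, ∀ b' ∈ Set.Icc b0 b1, |(torPhase b G.M - gP b c) - (torPhase b' G.M - gP b' c)|
    ≤ |b - b'| * cutE Cc cc c

/-- the three main estimates with their raw constants -/
theorem cut_raw (hG : G.bc = BC.per) {c : Grid G} (hc : Whole c) (h4 : c.m * 4 ≤ G.M) (b0 b1 w ε Cm R : ℝ) (h0 : 0 < b0)
    (hε0 : 0 ≤ ε) (hε1 : ε ≤ 1) (hCm : 0 ≤ Cm) (hmix : MixH b1 w Cm)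
    (T : ∀ (l : c.I → ℝ) (H : (c.I → ℝ) → ℝ), (tobs c).Row (K0 * (1 + w ^ 2)) l → Adm 2 l H → Per c H →
        (∀ b ∈ Set.Icc b0 b1, |Eh b c H - (tobs c).Eu b H| ≤ ε) ∧
        ∀ b ∈ Set.Icc b0 b1, ∀ b' ∈ Set.Icc b0 b1, |(Eh b c H - (tobs c).Eu b H) - (Eh b' c H - (tobs c).Eu b' H)|
          ≤ |b - b'| * ((Fintype.card (tS G.M).E : ℝ) * ε)) :
    (∀ b ∈ Set.Icc b0 b1, |torVar b G.M - gV b c| ≤ 4 * b1 * Ca * snr c ^ 4 + 8 * ε) ∧
    (∀ b ∈ Set.Icc b0 b1, ∀ b' ∈ Set.Icc b0 b1, |(torVar b G.M - gV b c) - (torVar b' G.M - gV b' c)|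
      ≤ |b - b'| * (4 * (Fintype.card (tS G.M).E : ℝ) * Cup b1 * Ca * snr c ^ 4
        + 12 * (Fintype.card (tS G.M).E : ℝ) * ε)) ∧
    (∀ b ∈ Set.Icc b0 b1, |torPhase b G.M - gP b c| ≤ 2 * ε) ∧
    (∀ b ∈ Set.Icc b0 b1, ∀ b' ∈ Set.Icc b0 b1, |(torPhase b G.M - gP b c) - (torPhase b' G.M - gP b' c)|
      ≤ |b - b'| * (2 * ((Fintype.card (tS G.M).E : ℝ) * ε))) ∧
    ∀ b ∈ Set.Icc b0 b1, ∀ v : ℝ, |v - 1 / Real.pi| ≤ R →
      |tMix b G.M w - gM v w b c|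
        ≤ (Cm * |w| * c2 + 2 * w ^ 2 * Real.exp (w ^ 2 / 8) * Real.exp (b1 * (Real.cosh (Real.sqrt (Kw w)) - 1))) * snr c
          + w ^ 2 / 2 * Ew R w * |v - 1 / Real.pi| + 2 * (1 + Ew R w) * ε := by
  obtain ⟨tR, hrow, hcost, -⟩ := alias_split hG hc h4
  have hK0 := K0_pos
  have hw2 : 0 ≤ w ^ 2 := sq_nonneg w
  have rX : (tobs c).Row (K0 * (1 + w ^ 2)) (fX c) := (row_fX hc h4 tR hrow hcost).mono (by nlinarith)
  have rW : (tobs c).Row (K0 * (1 + w ^ 2)) fun i => w * fX c i :=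
    ((row_fX hc h4 tR hrow hcost).smul w).mono (by nlinarith)
  obtain ⟨s2, l2⟩ := T _ _ rX (adm_X2 c) (per_X2 hc)
  obtain ⟨s1, l1⟩ := T _ _ rX (adm_X c) (per_X hc)
  obtain ⟨sC, lC⟩ := T _ _ rX (adm_cos c (fX c)) (per_cos hc)
  obtain ⟨sM, -⟩ := T _ _ rW (adm_mix c w) (per_mix hc w)
  obtain ⟨V1, V2⟩ := mainV hG hc h4 b0 b1 ε h0 hε0 hε1 s2 l2 s1 l1
  obtain ⟨P1, P2⟩ := mainP hc h4 b0 b1 ε _ sC lC
  exact ⟨V1, V2, P1, P2, mainM hG hc h4 b0 b1 w ε Cm R h0 hCm hmix sC sM⟩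

/-- the arithmetic of the constants -/
theorem cut_num {C e F E M EW ε δ : ℝ} (hC : 0 ≤ C) (he : 0 ≤ e) (hM : 1 ≤ M) (hF : F ≤ 2 * M ^ 2) (hE : E = 2 * M ^ 2)
    (hε : ε = C * F * e) (hδ : δ = C * M ^ 4 * e) (hEW : 0 ≤ EW) (hsm : (52 + 4 * EW) * δ ≤ 1) :
    0 ≤ δ ∧ ε ≤ 2 * δ ∧ E * ε ≤ 4 * δ ∧ ε ≤ 1 := by
  have hM2 : 1 ≤ M ^ 2 := one_le_pow₀ hM
  have hCe : 0 ≤ C * e := mul_nonneg hC he
  have hδ0 : 0 ≤ δ := by rw [hδ]; positivity
  have h1 : F ≤ 2 * M ^ 4 := by nlinarith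
  have hεδ : ε ≤ 2 * δ := by
    calc ε = C * e * F := by rw [hε]; ring
      _ ≤ C * e * (2 * M ^ 4) := mul_le_mul_of_nonneg_left h1 hCe
      _ = 2 * δ := by rw [hδ]; ring
  refine ⟨hδ0, hεδ, ?_, by nlinarith⟩
  rw [hE]
  calc 2 * M ^ 2 * ε = C * e * (2 * M ^ 2) * F := by rw [hε]; ring
    _ ≤ C * e * (2 * M ^ 2) * (2 * M ^ 2) := mul_le_mul_of_nonneg_left hF (by positivity)
    _ = 4 * δ := by rw [hδ]; ring

theorem cut_grid (b0 b1 w R : ℝ) (h0 : 0 < b0) : ∃ Cg Cc cc : ℝ, 0 < cc ∧ 0 ≤ Cg ∧ 0 ≤ Cc ∧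
    ∀ (G : Geom) (c : Grid G), G.bc = BC.per → Whole c → c.m * 4 ≤ G.M → cutE Cc cc c ≤ 1 →
      CutGrid b0 b1 w R Cg Cc cc c := by
  obtain ⟨C, cc, hcc, hC, hT⟩ := cut_tor b0 b1 (K0 * (1 + w ^ 2)) h0
  obtain ⟨Cm, hCm, hmix⟩ := mix_le b1 (Kw w)
  have hCa := Ca_nonneg
  have hCup := (e2_Cup_pos b1).le
  have hc2 := c2_pos
  have hEw : 0 < Ew R w := Real.exp_pos _
  have hw2 : 0 ≤ w ^ 2 := sq_nonneg w
  obtain ⟨g1, hg1⟩ : ∃ g : ℝ, g = 4 * |b1| * Ca := ⟨_, rfl⟩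
  obtain ⟨g2, hg2⟩ : ∃ g : ℝ, g = 8 * Cup b1 * Ca := ⟨_, rfl⟩
  obtain ⟨g3, hg3⟩ : ∃ g : ℝ, g = Cm * |w| * c2
    + 2 * w ^ 2 * Real.exp (w ^ 2 / 8) * Real.exp (b1 * (Real.cosh (Real.sqrt (Kw w)) - 1)) := ⟨_, rfl⟩
  obtain ⟨g4, hg4⟩ : ∃ g : ℝ, g = w ^ 2 / 2 * Ew R w := ⟨_, rfl⟩
  have p1 : 0 ≤ g1 := by rw [hg1]; positivity
  have p2 : 0 ≤ g2 := by rw [hg2]; positivity
  have p3 : 0 ≤ g3 := by rw [hg3]; positivity
  have p4 : 0 ≤ g4 := by rw [hg4]; positivity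
  refine ⟨g1 + g2 + g3 + g4, C * (52 + 4 * Ew R w), cc, hcc, by positivity, by positivity,
    fun G c hG hc h4 hsm => ?_⟩
  have hsn := snr_nonneg c
  have hM1 : (1 : ℝ) ≤ (G.M : ℝ) := by exact_mod_cast G.hM
  obtain ⟨δ, hδ⟩ : ∃ δ : ℝ, δ = C * (G.M : ℝ) ^ 4 * Real.exp (-cc * (c.m : ℝ) ^ 2) := ⟨_, rfl⟩
  obtain ⟨ε, hε⟩ : ∃ ε : ℝ, ε = C * (Fintype.card (Face c) : ℝ) * Real.exp (-cc * (c.m : ℝ) ^ 2) := ⟨_, rfl⟩
  have hε0 : 0 ≤ ε := by rw [hε]; positivity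
  have hcutE : cutE (C * (52 + 4 * Ew R w)) cc c = (52 + 4 * Ew R w) * δ := by
    unfold cutE
    rw [hδ]
    ring
  have hE : (Fintype.card (tS G.M).E : ℝ) = 2 * (G.M : ℝ) ^ 2 := e2_torus_card G.M
  rw [hcutE] at hsm
  obtain ⟨hδ0, hεδ, hEε, hε1⟩ := cut_num hC (Real.exp_pos _).le hM1 (card_faces hc) hE hε hδ hEw.le hsm
  have T := hT G c hG hc (hε ▸ hε1)
  rw [← hε] at T
  obtain ⟨V1, V2, P1, P2, M1⟩ := cut_raw hG hc h4 b0 b1 w ε Cm R h0 hε0 hε1 hCm hmix T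
  rw [← hg3, ← hg4] at M1
  have hs4 : 0 ≤ snr c ^ 4 := by positivity
  have hEδ : 0 ≤ Ew R w * δ := mul_nonneg hEw.le hδ0
  refine ⟨fun b hb => ?_, fun b hb => ?_, fun b hb v hv => ?_, fun b hb b' hb' => ?_, fun b hb b' hb' => ?_⟩
  · refine (V1 b hb).trans ?_
    rw [hcutE]
    have h1 : 4 * b1 * Ca * snr c ^ 4 ≤ (g1 + g2 + g3 + g4) * snr c ^ 4 := by
      refine mul_le_mul_of_nonneg_right ?_ hs4
      have : 4 * b1 * Ca ≤ g1 := by
        rw [hg1]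
        exact mul_le_mul_of_nonneg_right (by linarith [le_abs_self b1]) hCa
      linarith
    linarith
  · refine (P1 b hb).trans ?_
    rw [hcutE]
    linarith
  · refine (M1 b hb v hv).trans ?_
    rw [hcutE]
    have h1 : g3 * snr c ≤ (g1 + g2 + g3 + g4) * snr c := mul_le_mul_of_nonneg_right (by linarith) hsn
    have h2 : g4 * |v - 1 / Real.pi| ≤ (g1 + g2 + g3 + g4) * |v - 1 / Real.pi| :=
      mul_le_mul_of_nonneg_right (by linarith) (abs_nonneg _)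
    have h3 : 2 * (1 + Ew R w) * ε ≤ 2 * (1 + Ew R w) * (2 * δ) := mul_le_mul_of_nonneg_left hεδ (by positivity)
    linarith
  · refine (V2 b hb b' hb').trans (mul_le_mul_of_nonneg_left ?_ (abs_nonneg _))
    rw [hcutE]
    have h1 : 4 * (Fintype.card (tS G.M).E : ℝ) * Cup b1 * Ca * snr c ^ 4
        ≤ (g1 + g2 + g3 + g4) * (G.M : ℝ) ^ 2 * snr c ^ 4 := by
      rw [hE]
      have : 4 * (2 * (G.M : ℝ) ^ 2) * Cup b1 * Ca * snr c ^ 4 = g2 * ((G.M : ℝ) ^ 2 * snr c ^ 4) := by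
        rw [hg2]; ring
      rw [this, mul_assoc]
      exact mul_le_mul_of_nonneg_right (by linarith) (by positivity)
    have h2 : 12 * (Fintype.card (tS G.M).E : ℝ) * ε ≤ 48 * δ := by linarith
    linarith
  · refine (P2 b hb b' hb').trans (mul_le_mul_of_nonneg_left ?_ (abs_nonneg _))
    rw [hcutE]
    linarith

/-- **the exit of file 5** in the form of `Cut/Link.lean` -/
theorem cut_main (b0 b1 w V : ℝ) (h0 : 0 < b0) : MainStmt b0 b1 w V := by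
  obtain ⟨Cg, Cc, cc, hcc, hCg, hCc, H⟩ := cut_grid b0 b1 w (V + 1 / Real.pi) h0
  refine ⟨Cg, Cc, cc, hcc, hCc, hCg, fun G c hG hc h4 hsm => ?_⟩
  have F := H G c hG hc h4 hsm
  refine ⟨F.cmpV, F.cmpP, fun b hb v hv => ?_, F.lipV, F.lipP⟩
  have hpi : 0 < 1 / Real.pi := by positivity
  have hv' : |v - 1 / Real.pi| ≤ V + 1 / Real.pi := by
    refine (abs_sub _ _).trans ?_
    rw [abs_of_pos hpi]
    linarith
  refine (F.cmpM b hb v hv').trans (le_of_eq ?_)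
  unfold cutE
  ring

/-- Stores the on-demand equation lemmas of the definitions above in THIS module (rule 6 hygiene). -/
theorem cut_main_forced : True := by
  have := @uM.eq_1
  have := @K0.eq_1
  have := @c2.eq_1
  have := @Kw.eq_1
  have := @Ew.eq_1
  have := @MixH.eq_1
  have := @cutE.eq_1
  trivial

end

end Claimed.Agent.R285.Cut
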