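import Claimed.Agent.R285.Cut.Defs
import Claimed.Agent.R285.F4a.Chi
import Claimed.Agent.R285.Free.Sys

/-!
# ROW 285, post BP-E3-CUTGRID (architect helper167), file 2: THE ABSTRACT CUTOFF THEOREM  ([E] L3.4 = lem:cutoff-derivative).   Paper-free.

`cut_abs`: for a lattice system `S` observed through `O : Obs S` (cell flows with constant `CΦ`), a row `l` of noise variance and reference cost `≤ K` and a test `|H| ≤ A (e^ℓ + e^{-ℓ})`:
if `ε := C |Fc| e^{-c s²} ≤ 1` then `|Ec t H - Eu t H| ≤ ε` on `[t0, t1]` and `t ↦ Ec t H - Eu t H` is Lipschitz with constant `|E| ε`.     `C, c` depend only on `(t0, t1, K, CΦ, A)`.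

NO Hölder, NO Poisson score: the noise is integrated first (`sm`), so `Zu S t 0 (sm H)` is a lattice sum of a `t`-independent function and `∂_t Zu = dZu` is a sum of UNIT SHIFTS of the affine datum
(`E2.e2_Zu_hasDerivAt'`).  The reference bound with a shifted datum (`E2.e2_reference_shift`) costs only `e^{|ω|_∞}`.  So the same Chernoff estimate bounds the loss and its derivative.

## Leaves (every `sorry`; the name is in the docstring; several leaves share this file: edit only your own theorems, helpers directly above them, splice on a fresh pull)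
* L-CUT-N1 `nz_exp_integrable`, `nz_exp`       (product Gaussian mgf)
* L-CUT-A1 `zu_exps_le`                        (lattice sum of a function dominated by finitely many exponentials of rows)
* L-CUT-A2 `chi_loss`, `one_sub_prod_le'`      (Chernoff form of the cutoff tails)
* L-CUT-A3 `mom_le`                            (moment bound, from A1)
* L-CUT-A4 `loss_le`                           (loss bound, from A1, A2)
* L-CUT-A5 `calc_ratio`                        (calculus of `(a - f)/(Z - g) - a/Z`)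
The glue (`sm_*`, `cut_abs`) is proved.
-/

set_option autoImplicit false

namespace Claimed.Agent.R285.Cut

open scoped BigOperators
open MeasureTheory ProbabilityTheory
open Claimed.Agent.R285 Claimed.Agent.R285.RG Claimed.Agent.R285.F4a Claimed.Agent.R285.E2

noncomputable section

/-! ## 1. The noise -/

instance nz_prob (I : Type) [Fintype I] : IsProbabilityMeasure (nz I) := by
  unfold nz; infer_instance

/-- L-CUT-N1.  `exp (∑ l_i e_i) = ∏ exp (l_i e_i)` (`Real.exp_sum`); `MeasureTheory.Integrable.fintype_prod` (`Mathlib/MeasureTheory/Integral/Pi.lean`), `integrable_exp_mul_gaussianReal`. -/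
theorem nz_exp_integrable {I : Type} [Fintype I] (l : I → ℝ) : Integrable (fun e => Real.exp (lin l e)) (nz I) := by
  have h := Integrable.fintype_prod (μ := fun _ : I => gaussianReal 0 1) (f := fun i x => Real.exp (l i * x))
    (fun i => integrable_exp_mul_gaussianReal (l i))
  have e : (fun e : I → ℝ => Real.exp (lin l e)) = fun e => ∏ i, Real.exp (l i * e i) := by
    funext e
    rw [← Real.exp_sum]
    rfl
  rw [e]
  exact h

/-- L-CUT-N1.  `integral_fintype_prod_eq_prod`, `mgf_id_gaussianReal` (`∫ exp (t x) dγ = exp (t²/2)`), `Real.exp_sum`. -/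
theorem nz_exp {I : Type} [Fintype I] (l : I → ℝ) :
    ∫ e, Real.exp (lin l e) ∂(nz I) = Real.exp ((∑ i, l i ^ 2) / 2) := by
  have e : (fun e : I → ℝ => Real.exp (lin l e)) = fun e => ∏ i, Real.exp (l i * e i) := by
    funext e
    rw [← Real.exp_sum]
    rfl
  have h1 : ∀ t : ℝ, ∫ x, Real.exp (t * x) ∂(gaussianReal 0 1) = Real.exp (t ^ 2 / 2) := by
    intro t
    have := congrFun (mgf_id_gaussianReal (μ := 0) (v := 1)) t
    simpa [mgf] using this
  rw [e]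
  show ∫ e : I → ℝ, ∏ i, Real.exp (l i * e i) ∂(Measure.pi fun _ => gaussianReal 0 1) = _
  rw [integral_fintype_prod_eq_prod (μ := fun _ : I => gaussianReal 0 1) (fun i x => Real.exp (l i * x))]
  simp only [h1]
  rw [← Real.exp_sum, Finset.sum_div]

theorem lin_add {I : Type} [Fintype I] (l y y' : I → ℝ) : lin l (fun i => y i + y' i) = lin l y + lin l y' := by
  simp [lin, mul_add, Finset.sum_add_distrib]

theorem lin_neg_left {I : Type} [Fintype I] (l y : I → ℝ) : lin (fun i => -l i) y = -lin l y := by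
  simp [lin]

theorem measurable_shift {I : Type} [Fintype I] (m : I → ℝ) : Measurable fun e : I → ℝ => fun i => m i + e i := by
  fun_prop

/-- admissible tests are integrable against the shifted noise -/
theorem adm_integrable {I : Type} [Fintype I] {A : ℝ} {l : I → ℝ} {H : (I → ℝ) → ℝ} (h : Adm A l H) (m : I → ℝ) :
    Integrable (fun e => H fun i => m i + e i) (nz I) := by
  have h1 : Integrable (fun e => A * (Real.exp (lin l m) * Real.exp (lin l e)
      + Real.exp (-lin l m) * Real.exp (lin (fun i => -l i) e))) (nz I) :=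
    (((nz_exp_integrable l).const_mul _).add ((nz_exp_integrable fun i => -l i).const_mul _)).const_mul A
  refine h1.mono' (h.1.comp (measurable_shift m)).aestronglyMeasurable (Filter.Eventually.of_forall fun e => ?_)
  have := h.2 fun i => m i + e i
  rw [lin_add, neg_add, Real.exp_add, Real.exp_add] at this
  rw [Real.norm_eq_abs, lin_neg_left]
  exact this

theorem Adm.abs {I : Type} [Fintype I] {A : ℝ} {l : I → ℝ} {H : (I → ℝ) → ℝ} (h : Adm A l H) :
    Adm A l fun y => |H y| :=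
  ⟨h.1.abs, fun y => by rw [abs_abs]; exact h.2 y⟩

theorem Adm.mul_bdd {I : Type} [Fintype I] {A : ℝ} {l : I → ℝ} {H k : (I → ℝ) → ℝ} (h : Adm A l H)
    (hk : Measurable k) (hk1 : ∀ y, |k y| ≤ 1) : Adm A l fun y => H y * k y :=
  ⟨h.1.mul hk, fun y => by
    rw [abs_mul]
    exact (mul_le_of_le_one_right (abs_nonneg _) (hk1 y)).trans (h.2 y)⟩

theorem adm_one {I : Type} [Fintype I] (l : I → ℝ) : Adm 1 l fun _ => (1 : ℝ) :=
  ⟨measurable_const, fun y => by
    have h1 := Real.add_one_le_exp (lin l y)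
    have h2 := Real.add_one_le_exp (-lin l y)
    rw [abs_one, one_mul]; linarith⟩

/-! ## 2. `sm` -/

namespace Obs

variable {S : LSys} (O : Obs S)

theorem row_apply (l : O.I → ℝ) (z : S.L) : O.row l z = lin l (O.m z) := rfl

theorem sm_exp (l : O.I → ℝ) (z : S.L) :
    O.sm (fun y => Real.exp (lin l y)) z = Real.exp (O.row l z + (∑ i, l i ^ 2) / 2) := by
  unfold Obs.sm
  simp only [lin_add, Real.exp_add]
  rw [integral_const_mul, nz_exp, row_apply]

theorem sm_const (c : ℝ) (z : S.L) : O.sm (fun _ => c) z = c := by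
  unfold Obs.sm
  simp

theorem sm_add {A A' : ℝ} {l l' : O.I → ℝ} {H H' : (O.I → ℝ) → ℝ} (h : Adm A l H) (h' : Adm A' l' H') (z : S.L) :
    O.sm (fun y => H y + H' y) z = O.sm H z + O.sm H' z :=
  integral_add (adm_integrable h _) (adm_integrable h' _)

theorem sm_sub {A A' : ℝ} {l l' : O.I → ℝ} {H H' : (O.I → ℝ) → ℝ} (h : Adm A l H) (h' : Adm A' l' H') (z : S.L) :
    O.sm (fun y => H y - H' y) z = O.sm H z - O.sm H' z :=
  integral_sub (adm_integrable h _) (adm_integrable h' _)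

theorem sm_mono {A A' : ℝ} {l l' : O.I → ℝ} {H H' : (O.I → ℝ) → ℝ} (h : Adm A l H) (h' : Adm A' l' H')
    (hle : ∀ y, H y ≤ H' y) (z : S.L) : O.sm H z ≤ O.sm H' z :=
  integral_mono (adm_integrable h _) (adm_integrable h' _) fun _ => hle _

theorem sm_nonneg {H : (O.I → ℝ) → ℝ} (h : ∀ y, 0 ≤ H y) (z : S.L) : 0 ≤ O.sm H z :=
  integral_nonneg fun _ => h _

theorem sm_abs_le (H : (O.I → ℝ) → ℝ) (z : S.L) : |O.sm H z| ≤ O.sm (fun y => |H y|) z :=
  abs_integral_le_integral_abs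

end Obs

/-! ## 3. Lattice sums of smoothed tests -/

/-- the affine data which occur in `dZu S t 0` -/
def UnitD (S : LSys) (α : S.Amb) : Prop := α = 0 ∨ ∃ e, α = dl S e ∨ α = -dl S e

section lattice

variable {S : LSys} (O : Obs S)

/-- smoothed admissible tests have exponential growth -/
theorem sm_gr (hS : S.Ok) {A : ℝ} {l : O.I → ℝ} {H : (O.I → ℝ) → ℝ} (h : Adm A l H) : Gr S (O.sm H) := by
  have hD : Adm A l fun y => A * (Real.exp (lin l y) + Real.exp (-lin l y)) := by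
    refine ⟨by unfold lin; fun_prop, fun y => ?_⟩
    have h0 : 0 ≤ A * (Real.exp (lin l y) + Real.exp (-lin l y)) := (abs_nonneg _).trans (h.2 y)
    rw [abs_of_nonneg h0]
  have hG : Gr S fun z => A * (Real.exp (O.row l z + (∑ i, l i ^ 2) / 2)
      + Real.exp (O.row (fun i => -l i) z + (∑ i, (-l i) ^ 2) / 2)) := by
    refine Gr.smul A (Gr.add ?_ ?_)
    · simp only [Real.exp_add]
      exact (Gr.exp_test hS _).mul (Gr.const _)
    · simp only [Real.exp_add]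
      exact (Gr.exp_test hS _).mul (Gr.const _)
  refine hG.of_le fun z => ?_
  have h1 : O.sm (fun y => |H y|) z ≤ O.sm (fun y => A * (Real.exp (lin l y) + Real.exp (-lin l y))) z :=
    O.sm_mono h.abs hD h.2 z
  have h2 : O.sm (fun y => A * (Real.exp (lin l y) + Real.exp (-lin l y))) z
      = A * (Real.exp (O.row l z + (∑ i, l i ^ 2) / 2)
        + Real.exp (O.row (fun i => -l i) z + (∑ i, (-l i) ^ 2) / 2)) := by
    rw [← O.sm_exp, ← O.sm_exp]
    unfold Obs.sm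
    rw [integral_const_mul, integral_add]
    · simp only [lin_neg_left]
    · simp only [lin_add, Real.exp_add]
      exact (nz_exp_integrable l).const_mul _
    · have e : (fun e : O.I → ℝ => Real.exp (-lin l fun i => O.m z i + e i))
          = fun e => Real.exp (lin (fun i => -l i) (O.m z)) * Real.exp (lin (fun i => -l i) e) := by
        funext e
        rw [← lin_neg_left, lin_add, Real.exp_add]
      rw [e]
      exact (nz_exp_integrable _).const_mul _
  exact ((O.sm_abs_le H z).trans (h1.trans_eq h2)).trans (le_abs_self _)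

/-- one exponential: Gaussian factor, connection factor, reference cost -/
theorem zu_exp_le (hS : S.Ok) (l : O.I → ℝ) (ω : S.E → ℝ)
    (hω : ∀ z : S.L, lin l (O.m z) = ∑ e, ω e * (((z : S.Amb).1 e : ℤ) : ℝ)) (t : ℝ) (ht : 0 < t) (α : S.Amb) :
    Zu S t α (O.sm fun y => Real.exp (lin l y)) ≤
      Real.exp ((∑ i, l i ^ 2) / 2) * (Real.exp (-∑ e, ω e * ((α.1 e : ℤ) : ℝ))
        * Real.exp (t * ∑ e, (Real.cosh (ω e) - 1))) * Zu S t 0 fun _ => 1 := by
  have h := e2_reference_shift (S.atb fun _ => t) (e2_ok_atb S hS t ht) ω (O.row l) hω α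
  have hw : 0 < Zu S t 0 fun _ => 1 := Zu_one_pos hS t ht 0
  have e1 : Zu S t α (O.sm fun y => Real.exp (lin l y))
      = Real.exp ((∑ i, l i ^ 2) / 2) * (S.atb fun _ => t).wT α (O.row l) := by
    have : (O.sm fun y => Real.exp (lin l y)) = fun z => Real.exp ((∑ i, l i ^ 2) / 2) * Real.exp (O.row l z) := by
      funext z
      rw [O.sm_exp, Real.exp_add, mul_comm]
    rw [this, Zu_smul]
    rfl
  have e2 : ∑ e, (S.atb fun _ => t).b e * (Real.cosh (ω e) - 1) = t * ∑ e, (Real.cosh (ω e) - 1) := by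
    rw [Finset.mul_sum]
    rfl
  rw [e2, div_le_iff₀ (show 0 < (S.atb fun _ => t).w 0 from hw)] at h
  rw [e1, mul_assoc]
  exact mul_le_mul_of_nonneg_left h (Real.exp_pos _).le

/-- L-CUT-A1.  **Domination by finitely many exponentials of rows.**  `sm H z ≤ ∑ c_k sm (exp ∘ lin (lk k)) z` (`integral_mono`, `integral_finset_sum`, `integral_const_mul`; integrability: `adm_integrable`, `nz_exp_integrable` after `lin_add`, `Real.exp_add`);
then `Zu_mono` (`sm_gr`; the right side is `Gr` by `Gr.sum`, `Gr.smul`, `sm_exp`, `Gr.exp_test`), `Zu_sum`, `Zu_smul`, `zu_exp_le`; `Finset.sum_mul`. -/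
theorem zu_exps_le (hS : S.Ok) {A : ℝ} {l : O.I → ℝ} {H : (O.I → ℝ) → ℝ} (h : Adm A l H) {κ : Type} (s : Finset κ)
    (c : κ → ℝ) (hc : ∀ k ∈ s, 0 ≤ c k) (lk : κ → O.I → ℝ) (ωk : κ → S.E → ℝ)
    (hω : ∀ k ∈ s, ∀ z : S.L, lin (lk k) (O.m z) = ∑ e, ωk k e * (((z : S.Amb).1 e : ℤ) : ℝ))
    (hle : ∀ y, H y ≤ ∑ k ∈ s, c k * Real.exp (lin (lk k) y)) (t : ℝ) (ht : 0 < t) (α : S.Amb) :
    Zu S t α (O.sm H) ≤ (∑ k ∈ s, c k * (Real.exp ((∑ i, lk k i ^ 2) / 2) *
      (Real.exp (-∑ e, ωk k e * ((α.1 e : ℤ) : ℝ)) * Real.exp (t * ∑ e, (Real.cosh (ωk k e) - 1))))) *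
        Zu S t 0 fun _ => 1 := by
  have hint : ∀ (k : κ) (z : S.L), Integrable (fun e : O.I → ℝ => Real.exp (lin (lk k) fun i => O.m z i + e i)) (nz O.I) := by
    intro k z
    simp only [lin_add, Real.exp_add]
    exact (nz_exp_integrable (lk k)).const_mul _
  have hadm : ∀ k, Adm 1 (lk k) fun y => Real.exp (lin (lk k) y) := by
    intro k
    refine ⟨by unfold lin; fun_prop, fun y => ?_⟩
    rw [abs_of_pos (Real.exp_pos _), one_mul]
    have := Real.exp_pos (-lin (lk k) y)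
    linarith
  have h1 : ∀ z, O.sm H z ≤ ∑ k ∈ s, c k * O.sm (fun y => Real.exp (lin (lk k) y)) z := by
    intro z
    have e1 : ∑ k ∈ s, c k * O.sm (fun y => Real.exp (lin (lk k) y)) z
        = ∫ e, ∑ k ∈ s, c k * Real.exp (lin (lk k) fun i => O.m z i + e i) ∂(nz O.I) := by
      rw [integral_finsetSum s fun k _ => (hint k z).const_mul (c k)]
      refine Finset.sum_congr rfl fun k _ => ?_
      rw [integral_const_mul]
      rfl
    rw [e1]
    exact integral_mono (adm_integrable h _) (integrable_finsetSum s fun k _ => (hint k z).const_mul (c k))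
      fun e => hle _
  have hG : ∀ k ∈ s, Gr S fun z => c k * O.sm (fun y => Real.exp (lin (lk k) y)) z :=
    fun k _ => Gr.smul (c k) (sm_gr O hS (hadm k))
  refine (Zu_mono hS (sm_gr O hS h) (Gr.sum s _ hG) t ht α h1).trans ?_
  rw [Zu_sum hS s _ hG t ht α, Finset.sum_mul]
  refine Finset.sum_le_sum fun k hk => ?_
  rw [Zu_smul, mul_assoc]
  exact mul_le_mul_of_nonneg_left (zu_exp_le O hS (lk k) (ωk k) (hω k hk) t ht α) (hc k hk)

end lattice

/-- unit data see only one coordinate of a flow -/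
theorem unitD_sum_le {S : LSys} {α : S.Amb} (hα : UnitD S α) (ω : S.E → ℝ) {B : ℝ} (hB0 : 0 ≤ B) (hB : ∀ e, |ω e| ≤ B) :
    |∑ e, ω e * ((α.1 e : ℤ) : ℝ)| ≤ B := by
  classical
  have key : ∀ e0 : S.E, ∑ e, ω e * (((dl S e0).1 e : ℤ) : ℝ) = ω e0 := by
    intro e0
    rw [Finset.sum_eq_single e0]
    · simp [dl]
    · intro e _ he
      simp [dl, he]
    · intro h
      exact absurd (Finset.mem_univ _) h
  rcases hα with rfl | ⟨e0, rfl | rfl⟩
  · simpa using hB0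
  · rw [key]
    exact hB e0
  · have : ∑ e, ω e * (((-dl S e0).1 e : ℤ) : ℝ) = -∑ e, ω e * (((dl S e0).1 e : ℤ) : ℝ) := by
      rw [← Finset.sum_neg_distrib]
      refine Finset.sum_congr rfl fun e _ => ?_
      show ω e * ((-(dl S e0).1 e : ℤ) : ℝ) = _
      push_cast
      ring
    rw [this, key, abs_neg]
    exact hB e0

/-- the three exponential factors of `zu_exps_le` -/
theorem zu_term_le {S : LSys} {I : Type} [Fintype I] {α : S.Amb} (hα : UnitD S α) (lk : I → ℝ) (ω : S.E → ℝ)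
    {K1 B Q t t1 : ℝ} (h1 : ∑ i, lk i ^ 2 ≤ K1) (hB0 : 0 ≤ B) (hB : ∀ e, |ω e| ≤ B)
    (hQ0 : 0 ≤ Q) (hQ : ∑ e, (Real.cosh (ω e) - 1) ≤ Q) (ht : 0 < t) (ht1 : t ≤ t1) :
    Real.exp ((∑ i, lk i ^ 2) / 2) * (Real.exp (-∑ e, ω e * ((α.1 e : ℤ) : ℝ))
      * Real.exp (t * ∑ e, (Real.cosh (ω e) - 1))) ≤ Real.exp (K1 / 2 + B + t1 * Q) := by
  rw [← Real.exp_add, ← Real.exp_add]
  refine Real.exp_le_exp.2 ?_
  have a1 := (neg_le_abs _).trans (unitD_sum_le hα ω hB0 hB)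
  have a2 : t * ∑ e, (Real.cosh (ω e) - 1) ≤ t1 * Q :=
    (mul_le_mul_of_nonneg_left hQ ht.le).trans (mul_le_mul_of_nonneg_right ht1 hQ0)
  linarith

/-- a coordinate is bounded by the square root of the sum of squares -/
theorem abs_le_sqrt_of_sum_sq {ι : Type} [Fintype ι] (q : ι → ℝ) {K : ℝ} (h : ∑ e, q e ^ 2 ≤ K) (e : ι) : |q e| ≤ Real.sqrt K :=
  Real.abs_le_sqrt ((Finset.single_le_sum (f := fun e => q e ^ 2) (fun _ _ => sq_nonneg _) (Finset.mem_univ e)).trans h)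

/-- L-CUT-A3.  **Moments.**  `zu_exps_le` with `κ = Bool`, `c = A`, `lk = ± l`, `ωk = ± q` (`q` = the flow of `Row`).  `∑ l² ≤ K`; `|∑ ω_e α_e| ≤ max |q_e| ≤ √K` for `UnitD S α` (`dl`: one coordinate `± 1`;
`q e ^ 2 ≤ ∑ q² ≤ K`, `Real.abs_le_sqrt`); `∑ (cosh q_e - 1) ≤ cosh √(∑ q²) - 1 ≤ cosh √K - 1` (`Free.sum_cosh_le`, `Real.cosh_le_cosh`, `cosh` even: `Real.cosh_neg`).
`M = 2 |A| exp (|K|/2 + √|K| + |t1| (cosh √|K| - 1))`. -/
theorem mom_le (t1 K A : ℝ) : ∃ M : ℝ, 0 ≤ M ∧ ∀ (S : LSys) (O : Obs S), S.Ok → ∀ (l : O.I → ℝ) (H : (O.I → ℝ) → ℝ),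
    O.Row K l → Adm A l H → ∀ t : ℝ, 0 < t → t ≤ t1 → ∀ α : S.Amb, UnitD S α →
      Zu S t α (O.sm fun y => |H y|) ≤ M * Zu S t 0 fun _ => 1 := by
  refine ⟨2 * |A| * Real.exp (|K| / 2 + Real.sqrt |K| + |t1| * (Real.cosh (Real.sqrt |K|) - 1)), by positivity,
    fun S O hS l H hl hH t ht ht1 α hα => ?_⟩
  obtain ⟨hl2, q, hq, hq2⟩ := hl
  have hK : 0 ≤ K := (Finset.sum_nonneg fun _ _ => sq_nonneg _).trans hl2
  have hA : 0 ≤ A := by
    have h1 := (abs_nonneg _).trans (hH.2 0)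
    exact nonneg_of_mul_nonneg_left h1 (by positivity)
  have hZ : 0 < Zu S t 0 fun _ => 1 := Zu_one_pos hS t ht 0
  rw [abs_of_nonneg hK, abs_of_nonneg hA, abs_of_pos (ht.trans_le ht1)]
  have hcosh : 0 ≤ Real.cosh (Real.sqrt K) - 1 := by
    have := Real.one_le_cosh (Real.sqrt K)
    linarith
  have h := zu_exps_le O hS hH.abs (Finset.univ : Finset Bool) (fun _ => A) (fun _ _ => hA)
    (fun σ i => (if σ then 1 else -1) * l i) (fun σ e => (if σ then 1 else -1) * q e)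
    (fun σ _ z => by
      cases σ
      · simp only [Bool.false_eq_true, if_false, neg_one_mul]
        rw [lin_neg_left, hq z, ← Finset.sum_neg_distrib]
        exact Finset.sum_congr rfl fun e _ => by ring
      · simp only [if_true, one_mul]
        exact hq z)
    (fun y => by
      rw [Fintype.sum_bool]
      simp only [Bool.false_eq_true, if_false, if_true, neg_one_mul, one_mul]
      rw [lin_neg_left, ← mul_add]
      exact hH.2 y) t ht α
  refine h.trans (mul_le_mul_of_nonneg_right ?_ hZ.le)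
  have hterm : ∀ σ : Bool, A * (Real.exp ((∑ i, ((if σ then 1 else -1) * l i) ^ 2) / 2) *
      (Real.exp (-∑ e, ((if σ then 1 else -1) * q e) * ((α.1 e : ℤ) : ℝ))
        * Real.exp (t * ∑ e, (Real.cosh ((if σ then 1 else -1) * q e) - 1))))
      ≤ A * Real.exp (K / 2 + Real.sqrt K + t1 * (Real.cosh (Real.sqrt K) - 1)) := by
    intro σ
    refine mul_le_mul_of_nonneg_left ?_ hA
    have hsq : ∀ x : ℝ, ((if σ then 1 else -1) * x) ^ 2 = x ^ 2 := by
      intro x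
      cases σ <;> simp
    have habs : ∀ x : ℝ, |(if σ then 1 else -1) * x| = |x| := by
      intro x
      cases σ <;> simp
    refine zu_term_le hα _ _ (by simpa only [hsq] using hl2) (Real.sqrt_nonneg K)
      (fun e => by rw [habs]; exact abs_le_sqrt_of_sum_sq q hq2 e) hcosh ?_ ht ht1
    refine (Free.sum_cosh_le _).trans ?_
    simp only [hsq]
    have : Real.cosh (Real.sqrt (∑ e, q e ^ 2)) ≤ Real.cosh (Real.sqrt K) := by
      rw [Real.cosh_le_cosh, abs_of_nonneg (Real.sqrt_nonneg _), abs_of_nonneg (Real.sqrt_nonneg _)]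
      exact Real.sqrt_le_sqrt hq2
    linarith
  rw [Fintype.sum_bool]
  have h1 := hterm true
  have h2 := hterm false
  linarith

/-! ## 4. The cutoff -/

theorem chi_continuous (s : ℝ) (hs : 0 < s) : Continuous (chi s) := by
  obtain ⟨-, -, -, hd, he⟩ := chi_facts s hs
  have h1 : Continuous fun x : ℝ => (chiC s (x : ℂ)).re :=
    Complex.continuous_re.comp (hd.continuous.comp Complex.continuous_ofReal)
  have h2 : (fun x : ℝ => (chiC s (x : ℂ)).re) = chi s := by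
    funext x
    rw [he x, Complex.ofReal_re]
  rwa [h2] at h1

/-- L-CUT-A2.  **Chernoff form of the tails.**  `C0, c0` from `F4a.chi_tails`.  If `|w| ≤ s/2`: first term (the second is `≥ 0`).  If `|w| > s/2`: `1 - χ ≤ 1` (`chi_facts`: `χ > 0`) `≤ e^{-δ s²/2} e^{δ s |w|}`
(`δ s |w| ≥ δ s²/2`) and `e^{|x|} ≤ e^x + e^{-x}` (`rd_exp_abs_le`); the first term is `≥ 0` because `0 ≤ 1 - χ_s(0) ≤ C0 e^{..}` forces `0 ≤ C0`. -/
theorem chi_loss : ∃ C0 c0 : ℝ, 0 < c0 ∧ 0 ≤ C0 ∧ ∀ s : ℝ, 1 ≤ s → ∀ δ : ℝ, 0 ≤ δ → ∀ w : ℝ,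
    1 - chi s w ≤ C0 * Real.exp (-c0 * s ^ 2)
      + Real.exp (-δ * s ^ 2 / 2) * (Real.exp (δ * s * w) + Real.exp (-(δ * s * w))) := by
  obtain ⟨C0, c0, hc0, h⟩ := chi_tails
  have hC0 : 0 ≤ C0 := by
    have h1 := (h 1 le_rfl 0).1 (by norm_num)
    rw [(chi_facts 1 one_pos).2.1, sub_self] at h1
    by_contra hneg
    have := mul_neg_of_neg_of_pos (not_le.1 hneg) (Real.exp_pos (-c0 * 1 ^ 2))
    linarith
  refine ⟨C0, c0, hc0, hC0, fun s hs δ hδ w => ?_⟩
  have hs0 : 0 < s := one_pos.trans_le hs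
  by_cases hw : |w| ≤ s / 2
  · have h1 := (h s hs w).1 hw
    have h2 : 0 ≤ Real.exp (-δ * s ^ 2 / 2) * (Real.exp (δ * s * w) + Real.exp (-(δ * s * w))) := by positivity
    linarith
  · rw [not_le] at hw
    have h1 : 1 - chi s w ≤ 1 := by
      have := ((chi_facts s hs0).1 w).1
      linarith
    have h2 : 0 ≤ C0 * Real.exp (-c0 * s ^ 2) := by positivity
    have h3 : (1 : ℝ) ≤ Real.exp (-δ * s ^ 2 / 2) * Real.exp |δ * s * w| := by
      rw [← Real.exp_add]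
      refine Real.one_le_exp ?_
      rw [abs_mul, abs_of_nonneg (mul_nonneg hδ hs0.le)]
      have : δ * s * (s / 2) ≤ δ * s * |w| := mul_le_mul_of_nonneg_left hw.le (mul_nonneg hδ hs0.le)
      nlinarith
    have h4 := mul_le_mul_of_nonneg_left (rd_exp_abs_le (δ * s * w)) (Real.exp_pos (-δ * s ^ 2 / 2)).le
    linarith

/-- L-CUT-A2.  Induction on the finset (`Finset.induction_on`): `1 - a P = (1 - a) + a (1 - P) ≤ (1 - a) + (1 - P)`, `0 ≤ P ≤ 1` (`Finset.prod_nonneg`, `Finset.prod_le_one`). -/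
theorem one_sub_prod_le' {ι : Type} (s : Finset ι) (x : ι → ℝ) (h0 : ∀ i ∈ s, 0 ≤ x i) (h1 : ∀ i ∈ s, x i ≤ 1) :
    1 - ∏ i ∈ s, x i ≤ ∑ i ∈ s, (1 - x i) := by
  classical
  induction s using Finset.induction_on with
  | empty => simp
  | insert a s ha ih =>
    rw [Finset.prod_insert ha, Finset.sum_insert ha]
    have ih' := ih (fun i hi => h0 i (Finset.mem_insert_of_mem hi)) (fun i hi => h1 i (Finset.mem_insert_of_mem hi))
    have hP1 : ∏ i ∈ s, x i ≤ 1 := Finset.prod_le_one (fun i hi => h0 i (Finset.mem_insert_of_mem hi))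
      (fun i hi => h1 i (Finset.mem_insert_of_mem hi))
    have ha0 := h0 a (Finset.mem_insert_self a s)
    have ha1 := h1 a (Finset.mem_insert_self a s)
    nlinarith

namespace Obs

variable {S : LSys} (O : Obs S)

theorem kap_measurable (hs : 0 < O.s) : Measurable O.kap := by
  unfold Obs.kap
  refine Finset.measurable_prod _ fun f _ => ?_
  exact (chi_continuous O.s hs).measurable.comp ((measurable_pi_apply _).sub (measurable_pi_apply _))

theorem kap_nonneg (hs : 0 < O.s) (y : O.I → ℝ) : 0 ≤ O.kap y :=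
  Finset.prod_nonneg fun _ _ => ((chi_facts O.s hs).1 _).1.le

theorem kap_le_one (hs : 0 < O.s) (y : O.I → ℝ) : O.kap y ≤ 1 :=
  Finset.prod_le_one (fun _ _ => ((chi_facts O.s hs).1 _).1.le) fun _ _ => ((chi_facts O.s hs).1 _).2

theorem kap_abs_le (hs : 0 < O.s) (y : O.I → ℝ) : |O.kap y| ≤ 1 := by
  rw [abs_of_nonneg (O.kap_nonneg hs y)]
  exact O.kap_le_one hs y

theorem one_sub_kap_abs_le (hs : 0 < O.s) (y : O.I → ℝ) : |1 - O.kap y| ≤ 1 := by
  rw [abs_le]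
  constructor <;> linarith [O.kap_nonneg hs y, O.kap_le_one hs y]

end Obs

/-- the row `σ l + r (1_z - 1_a)` -/
theorem lin_face {I : Type} [Fintype I] [DecidableEq I] (l y : I → ℝ) (σ r : ℝ) (z a : I) :
    lin (fun i => σ * l i + r * ((if i = z then 1 else 0) - (if i = a then 1 else 0))) y
      = σ * lin l y + r * (y z - y a) := by
  unfold lin
  have h1 : ∀ i, (σ * l i + r * ((if i = z then 1 else 0) - (if i = a then 1 else 0))) * y i
      = σ * (l i * y i) + r * ((if i = z then y i else 0) - (if i = a then y i else 0)) := by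
    intro i
    split_ifs <;> ring
  simp only [h1]
  rw [Finset.sum_add_distrib, ← Finset.mul_sum, ← Finset.mul_sum, Finset.sum_sub_distrib, Finset.sum_ite_eq',
    Finset.sum_ite_eq', if_pos (Finset.mem_univ _), if_pos (Finset.mem_univ _)]

theorem sq_face_le {I : Type} [Fintype I] [DecidableEq I] (l : I → ℝ) {σ : ℝ} (hσ : σ = 1 ∨ σ = -1) (r : ℝ) (z a : I) :
    ∑ i, (σ * l i + r * ((if i = z then 1 else 0) - (if i = a then 1 else 0))) ^ 2 ≤ 2 * ∑ i, l i ^ 2 + 4 * r ^ 2 := by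
  have hσ2 : σ ^ 2 = 1 := by
    rcases hσ with rfl | rfl <;> norm_num
  have h1 : ∀ i, (σ * l i + r * ((if i = z then (1 : ℝ) else 0) - (if i = a then 1 else 0))) ^ 2
      ≤ 2 * l i ^ 2 + 2 * r ^ 2 * ((if i = z then 1 else 0) + (if i = a then 1 else 0)) := by
    intro i
    have h2 : ((if i = z then (1 : ℝ) else 0) - (if i = a then 1 else 0)) ^ 2
        ≤ (if i = z then 1 else 0) + (if i = a then 1 else 0) := by
      split_ifs <;> norm_num
    have h3 : (σ * l i + r * ((if i = z then (1 : ℝ) else 0) - (if i = a then 1 else 0))) ^ 2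
        ≤ 2 * (σ * l i) ^ 2 + 2 * (r * ((if i = z then (1 : ℝ) else 0) - (if i = a then 1 else 0))) ^ 2 := by
      nlinarith [sq_nonneg (σ * l i - r * ((if i = z then (1 : ℝ) else 0) - (if i = a then 1 else 0)))]
    rw [mul_pow, mul_pow, hσ2, one_mul] at h3
    have h4 : r ^ 2 * ((if i = z then (1 : ℝ) else 0) - (if i = a then 1 else 0)) ^ 2
        ≤ r ^ 2 * ((if i = z then 1 else 0) + (if i = a then 1 else 0)) := mul_le_mul_of_nonneg_left h2 (sq_nonneg r)
    linarith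
  refine (Finset.sum_le_sum fun i _ => h1 i).trans (le_of_eq ?_)
  rw [Finset.sum_add_distrib, ← Finset.mul_sum, ← Finset.mul_sum, Finset.sum_add_distrib, Finset.sum_ite_eq',
    Finset.sum_ite_eq', if_pos (Finset.mem_univ _), if_pos (Finset.mem_univ _)]
  ring

/-- the flow `σ q + r Φ` -/
theorem flow_face_le {ι : Type} [Fintype ι] (q Φ : ι → ℝ) {σ r K CΦ s δ : ℝ} (hσ : σ = 1 ∨ σ = -1) (hq : ∑ e, q e ^ 2 ≤ K)
    (hs : 1 ≤ s) (hΦ : ∀ e, |Φ e| ≤ CΦ / s) (hΦ2 : ∑ e, Φ e ^ 2 ≤ CΦ) (hδ1 : δ ≤ 1) (hr : |r| ≤ δ * s) :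
    (∀ e, |σ * q e + r * Φ e| ≤ Real.sqrt K + CΦ) ∧
    ∑ e, (Real.cosh (σ * q e + r * Φ e) - 1) ≤ Real.cosh (Real.sqrt K + CΦ) * (K + r ^ 2 * CΦ) := by
  have hs0 : 0 < s := one_pos.trans_le hs
  have hC : 0 ≤ CΦ := (Finset.sum_nonneg fun _ _ => sq_nonneg _).trans hΦ2
  have hσ2 : σ ^ 2 = 1 := by
    rcases hσ with rfl | rfl <;> norm_num
  have hσa : |σ| = 1 := by
    rcases hσ with rfl | rfl <;> simp
  have hb : ∀ e, |σ * q e + r * Φ e| ≤ Real.sqrt K + CΦ := by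
    intro e
    have h1 : |σ * q e| ≤ Real.sqrt K := by
      rw [abs_mul, hσa, one_mul]
      exact abs_le_sqrt_of_sum_sq q hq e
    have h2 : |r * Φ e| ≤ CΦ := by
      rw [abs_mul]
      calc |r| * |Φ e| ≤ (δ * s) * (CΦ / s) := mul_le_mul hr (hΦ e) (abs_nonneg _) ((abs_nonneg _).trans hr)
        _ = δ * CΦ := by field_simp
        _ ≤ 1 * CΦ := mul_le_mul_of_nonneg_right hδ1 hC
        _ = CΦ := one_mul _
    exact (abs_add_le _ _).trans (add_le_add h1 h2)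
  refine ⟨hb, ?_⟩
  have hc0 : 0 ≤ Real.cosh (Real.sqrt K + CΦ) := (Real.cosh_pos _).le
  have h1 : ∀ e, Real.cosh (σ * q e + r * Φ e) - 1
      ≤ Real.cosh (Real.sqrt K + CΦ) * (q e ^ 2 + r ^ 2 * Φ e ^ 2) := by
    intro e
    have a1 := Free.cosh_sub_one_le (σ * q e + r * Φ e)
    have a2 : Real.cosh (σ * q e + r * Φ e) ≤ Real.cosh (Real.sqrt K + CΦ) := by
      rw [Real.cosh_le_cosh]
      exact (hb e).trans (le_abs_self _)
    have a3 : (σ * q e + r * Φ e) ^ 2 / 2 ≤ q e ^ 2 + r ^ 2 * Φ e ^ 2 := by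
      have : (σ * q e + r * Φ e) ^ 2 ≤ 2 * (σ * q e) ^ 2 + 2 * (r * Φ e) ^ 2 := by
        nlinarith [sq_nonneg (σ * q e - r * Φ e)]
      rw [mul_pow, mul_pow, hσ2, one_mul] at this
      linarith
    calc Real.cosh (σ * q e + r * Φ e) - 1 ≤ (σ * q e + r * Φ e) ^ 2 / 2 * Real.cosh (σ * q e + r * Φ e) := a1
      _ ≤ (q e ^ 2 + r ^ 2 * Φ e ^ 2) * Real.cosh (Real.sqrt K + CΦ) :=
          mul_le_mul a3 a2 (Real.cosh_pos _).le (by positivity)
      _ = _ := mul_comm _ _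
  refine (Finset.sum_le_sum fun e _ => h1 e).trans ?_
  rw [← Finset.mul_sum, Finset.sum_add_distrib, ← Finset.mul_sum]
  refine mul_le_mul_of_nonneg_left (add_le_add hq (mul_le_mul_of_nonneg_left hΦ2 (sq_nonneg r))) hc0

/-- pointwise domination of the loss by exponentials of rows -/
theorem loss_pt {S : LSys} (O : Obs S) (hs0 : 0 < O.s) {A C0 c0 δ : ℝ} {l : O.I → ℝ} {H : (O.I → ℝ) → ℝ} (hH : Adm A l H)
    (hA : 0 ≤ A)
    (hchi : ∀ w : ℝ, 1 - chi O.s w ≤ C0 * Real.exp (-c0 * O.s ^ 2)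
      + Real.exp (-δ * O.s ^ 2 / 2) * (Real.exp (δ * O.s * w) + Real.exp (-(δ * O.s * w))))
    {sg : Bool → ℝ} (hsgt : sg true = 1) (hsgf : sg false = -1) {rr : Option Bool → ℝ} (hrn : rr none = 0)
    (hrs : ∀ b, rr (some b) = sg b * (δ * O.s)) {cc : Option Bool → ℝ}
    (hcn : cc none = A * (C0 * Real.exp (-c0 * O.s ^ 2))) (hcs : ∀ b, cc (some b) = A * Real.exp (-δ * O.s ^ 2 / 2))
    (y : O.I → ℝ) :
    |H y| * (1 - O.kap y) ≤ ∑ k : O.Fc × Bool × Option Bool,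
      cc k.2.2 * Real.exp (sg k.2.1 * lin l y + rr k.2.2 * (y (O.z k.1) - y (O.a k.1))) := by
  have hk : 1 - O.kap y ≤ ∑ f, (1 - chi O.s (y (O.z f) - y (O.a f))) :=
    one_sub_prod_le' Finset.univ _ (fun f _ => ((chi_facts O.s hs0).1 _).1.le) (fun f _ => ((chi_facts O.s hs0).1 _).2)
  have hk0 : 0 ≤ 1 - O.kap y := by
    have := O.kap_le_one hs0 y
    linarith
  have hX : 0 ≤ A * (Real.exp (lin l y) + Real.exp (-lin l y)) := by positivity
  calc |H y| * (1 - O.kap y)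
      ≤ (A * (Real.exp (lin l y) + Real.exp (-lin l y))) * ∑ f, (1 - chi O.s (y (O.z f) - y (O.a f))) :=
        mul_le_mul (hH.2 y) hk hk0 hX
    _ = ∑ f, (A * (Real.exp (lin l y) + Real.exp (-lin l y))) * (1 - chi O.s (y (O.z f) - y (O.a f))) :=
        Finset.mul_sum _ _ _
    _ ≤ ∑ f, (A * (Real.exp (lin l y) + Real.exp (-lin l y))) * (C0 * Real.exp (-c0 * O.s ^ 2)
          + Real.exp (-δ * O.s ^ 2 / 2) * (Real.exp (δ * O.s * (y (O.z f) - y (O.a f)))
            + Real.exp (-(δ * O.s * (y (O.z f) - y (O.a f)))))) :=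
        Finset.sum_le_sum fun f _ => mul_le_mul_of_nonneg_left (hchi _) hX
    _ = _ := by
        rw [Fintype.sum_prod_type]
        refine Finset.sum_congr rfl fun f _ => ?_
        rw [Fintype.sum_prod_type, Fintype.sum_bool, Fintype.sum_option, Fintype.sum_option, Fintype.sum_bool,
          Fintype.sum_bool]
        simp only [hsgt, hsgf, hrn, hrs, hcn, hcs, Real.exp_add, one_mul, zero_mul, Real.exp_zero,
          mul_one, neg_mul]
        ring

/-- the exponential factors of one term of the loss -/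
theorem loss_term {S : LSys} (O : Obs S) {α : S.Amb} (hα : UnitD S α) {K CΦ t t1 δ σ r : ℝ} (l : O.I → ℝ) (q Φ : S.E → ℝ)
    (hl2 : ∑ i, l i ^ 2 ≤ K) (hq2 : ∑ e, q e ^ 2 ≤ K) (hs1 : 1 ≤ O.s) (hΦ2 : ∀ e, |Φ e| ≤ CΦ / O.s)
    (hΦ3 : ∑ e, Φ e ^ 2 ≤ CΦ) (hδ1 : δ ≤ 1) (hσ : σ = 1 ∨ σ = -1) (hr : |r| ≤ δ * O.s) (ht : 0 < t) (ht1 : t ≤ t1)
    [DecidableEq O.I] (z a : O.I) :
    Real.exp ((∑ i, (σ * l i + r * ((if i = z then 1 else 0) - (if i = a then 1 else 0))) ^ 2) / 2) *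
      (Real.exp (-∑ e, (σ * q e + r * Φ e) * ((α.1 e : ℤ) : ℝ))
        * Real.exp (t * ∑ e, (Real.cosh (σ * q e + r * Φ e) - 1)))
      ≤ Real.exp ((K + Real.sqrt K + CΦ + t1 * Real.cosh (Real.sqrt K + CΦ) * K)
          + r ^ 2 * (2 + t1 * Real.cosh (Real.sqrt K + CΦ) * CΦ)) := by
  have hK : 0 ≤ K := (Finset.sum_nonneg fun _ _ => sq_nonneg _).trans hl2
  have hC : 0 ≤ CΦ := (Finset.sum_nonneg fun _ _ => sq_nonneg _).trans hΦ3
  obtain ⟨f1, f2⟩ := flow_face_le q Φ hσ hq2 hs1 hΦ2 hΦ3 hδ1 hr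
  have g1 : ∑ i, (σ * l i + r * ((if i = z then 1 else 0) - (if i = a then 1 else 0))) ^ 2
      ≤ 2 * K + 4 * r ^ 2 := (sq_face_le l hσ r z a).trans (by linarith)
  have hc := (Real.cosh_pos (Real.sqrt K + CΦ)).le
  have g2 := zu_term_le hα _ _ g1 (by positivity) f1 (by positivity) f2 ht ht1
  refine g2.trans (le_of_eq ?_)
  congr 1
  ring

/-- the numerics of one term of the loss -/
theorem loss_num {A C0 c0 c δ G B2 s : ℝ} (hA : 0 ≤ A) (hC0 : 0 ≤ C0) (hδG : δ * G = 1 / 4) (hc1 : c ≤ c0) (hc2 : c ≤ δ / 4)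
    {sg : Bool → ℝ} (hsg : ∀ b, sg b = 1 ∨ sg b = -1) {rr : Option Bool → ℝ} (hrn : rr none = 0)
    (hrs : ∀ b, rr (some b) = sg b * (δ * s)) {cc : Option Bool → ℝ}
    (hcn : cc none = A * (C0 * Real.exp (-c0 * s ^ 2))) (hcs : ∀ b, cc (some b) = A * Real.exp (-δ * s ^ 2 / 2))
    (o : Option Bool) :
    cc o * Real.exp (B2 + rr o ^ 2 * G) ≤ A * Real.exp B2 * Real.exp (-c * s ^ 2) * (o.elim C0 fun _ => 1) := by
  have hs2 : 0 ≤ s ^ 2 := sq_nonneg _
  cases o with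
  | none =>
    show cc none * Real.exp (B2 + rr none ^ 2 * G) ≤ A * Real.exp B2 * Real.exp (-c * s ^ 2) * C0
    rw [hcn, hrn]
    have e1 : Real.exp (-c0 * s ^ 2) ≤ Real.exp (-c * s ^ 2) := by
      refine Real.exp_le_exp.2 ?_
      have := mul_le_mul_of_nonneg_right hc1 hs2
      linarith
    have e2 : B2 + (0 : ℝ) ^ 2 * G = B2 := by ring
    rw [e2]
    calc A * (C0 * Real.exp (-c0 * s ^ 2)) * Real.exp B2 = (A * C0 * Real.exp B2) * Real.exp (-c0 * s ^ 2) := by ring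
      _ ≤ (A * C0 * Real.exp B2) * Real.exp (-c * s ^ 2) := mul_le_mul_of_nonneg_left e1 (by positivity)
      _ = _ := by ring
  | some b =>
    show cc (some b) * Real.exp (B2 + rr (some b) ^ 2 * G) ≤ A * Real.exp B2 * Real.exp (-c * s ^ 2) * 1
    rw [hcs, hrs]
    have hsq : sg b ^ 2 = 1 := by
      rcases hsg b with h | h <;> rw [h] <;> norm_num
    have e2 : (sg b * (δ * s)) ^ 2 * G = δ * s ^ 2 / 4 := by
      calc (sg b * (δ * s)) ^ 2 * G = sg b ^ 2 * (δ * s ^ 2) * (δ * G) := by ring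
        _ = _ := by
          rw [hsq, hδG]
          ring
    rw [e2, mul_assoc, ← Real.exp_add, mul_one, mul_assoc, ← Real.exp_add]
    refine mul_le_mul_of_nonneg_left (Real.exp_le_exp.2 ?_) hA
    have := mul_le_mul_of_nonneg_right hc2 hs2
    linarith

/-- L-CUT-A4.  **The loss.**  Let `C0, c0` be as in `chi_loss`, `cK = cosh (√K + CΦ)`, `δ = min 1 (1 / (4 (2 + t1 cK CΦ)))`.
Pointwise (`one_sub_prod_le'`, `chi_loss`, `Adm`): `|H| (1 - κ) ≤ ∑_f ∑_{σ = ±} [A C0 e^{-c0 s²} e^{σ ℓ} + A e^{-δ s²/2} ∑_{σ' = ±} e^{σ ℓ + σ' δ s w_f}]`, `w_f = y_{z f} - y_{a f} = lin (1_{z f} - 1_{a f}) y`.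
Apply `zu_exps_le` (`κ = Fc × Bool × Option Bool`).  Type 1 (`l_k = σ l`, `ω_k = σ q`): as in `mom_le`.  Type 2: `l_k = σ l + σ' δ s (1_{z f} - 1_{a f})`, `∑ l_k² ≤ 2K + 4 δ² s²`; `ω_k = σ q + σ' δ s Φ_f`,
`|ω_k e| ≤ √K + δ CΦ ≤ √K + CΦ`, `∑ ω_k² ≤ 2K + 2 δ² s² CΦ`, `∑ (cosh ω - 1) ≤ (cK/2) ∑ ω²` (`Free.cosh_sub_one_le`, `Real.cosh_le_cosh`).  Total exponent of a type 2 term:
`[K + √K + CΦ + t1 cK K] + δ² s² (2 + t1 cK CΦ) - δ s²/2 ≤ B2 - δ s²/4`.     `c = min c0 (δ/4)`, `C = A (2 C0 e^{B1} + 4 e^{B2})`.     (WLOG `0 ≤ K, CΦ, A, t1`: otherwise the hypotheses are empty or replace by `|·|`.) -/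
theorem loss_le (t1 K CΦ A : ℝ) : ∃ C c : ℝ, 0 < c ∧ 0 ≤ C ∧ ∀ (S : LSys) (O : Obs S), O.OK CΦ →
    ∀ (l : O.I → ℝ) (H : (O.I → ℝ) → ℝ), O.Row K l → Adm A l H → ∀ t : ℝ, 0 < t → t ≤ t1 → ∀ α : S.Amb, UnitD S α →
      Zu S t α (O.sm fun y => |H y| * (1 - O.kap y))
        ≤ C * (Fintype.card O.Fc : ℝ) * Real.exp (-c * O.s ^ 2) * Zu S t 0 fun _ => 1 := by
  classical
  obtain ⟨C0, c0, hc0, hC0, hchi⟩ := chi_loss
  obtain ⟨cK, hcK⟩ : ∃ cK : ℝ, cK = Real.cosh (Real.sqrt |K| + |CΦ|) := ⟨_, rfl⟩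
  have hcK1 : 1 ≤ cK := hcK ▸ Real.one_le_cosh _
  obtain ⟨G, hG⟩ : ∃ G : ℝ, G = 2 + |t1| * cK * |CΦ| := ⟨_, rfl⟩
  have hG2 : 2 ≤ G := by
    have : 0 ≤ |t1| * cK * |CΦ| := by positivity
    linarith
  obtain ⟨δ, hδ⟩ : ∃ δ : ℝ, δ = 1 / (4 * G) := ⟨_, rfl⟩
  have hδ0 : 0 < δ := by
    rw [hδ]
    positivity
  have hδ1 : δ ≤ 1 := by
    rw [hδ, div_le_one (by positivity)]
    linarith
  have hδG : δ * G = 1 / 4 := by
    rw [hδ]
    field_simp
  obtain ⟨B2, hB2⟩ : ∃ B2 : ℝ, B2 = |K| + Real.sqrt |K| + |CΦ| + |t1| * cK * |K| := ⟨_, rfl⟩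
  obtain ⟨c, hc⟩ : ∃ c : ℝ, c = min c0 (δ / 4) := ⟨_, rfl⟩
  refine ⟨|A| * Real.exp B2 * (2 * C0 + 4), c, hc ▸ lt_min hc0 (by positivity), by positivity,
    fun S O hO l H hl hH t ht ht1 α hα => ?_⟩
  obtain ⟨hl2, q, hq, hq2⟩ := hl
  have hS := hO.ok
  have hs1 := hO.hs
  have hs0 : 0 < O.s := one_pos.trans_le hs1
  have hK : 0 ≤ K := (Finset.sum_nonneg fun _ _ => sq_nonneg _).trans hl2
  have hA : 0 ≤ A := by
    have h1 := (abs_nonneg _).trans (hH.2 0)
    exact nonneg_of_mul_nonneg_left h1 (by positivity)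
  have ht10 : 0 < t1 := ht.trans_le ht1
  have hZ : 0 < Zu S t 0 fun _ => 1 := Zu_one_pos hS t ht 0
  choose Φ hΦ1 hΦ2 hΦ3 using hO.flow
  -- signs, shifts, coefficients
  obtain ⟨sg, hsgt, hsgf⟩ : ∃ sg : Bool → ℝ, sg true = 1 ∧ sg false = -1 := ⟨fun b => if b then 1 else -1, by simp, by simp⟩
  have hsg : ∀ b, sg b = 1 ∨ sg b = -1 := by
    intro b
    cases b
    · exact Or.inr hsgf
    · exact Or.inl hsgt
  obtain ⟨rr, hrn, hrs⟩ : ∃ rr : Option Bool → ℝ, rr none = 0 ∧ ∀ b, rr (some b) = sg b * (δ * O.s) :=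
    ⟨fun o => o.elim 0 fun b => sg b * (δ * O.s), rfl, fun _ => rfl⟩
  obtain ⟨cc, hcn, hcs⟩ : ∃ cc : Option Bool → ℝ, cc none = A * (C0 * Real.exp (-c0 * O.s ^ 2)) ∧
      ∀ b, cc (some b) = A * Real.exp (-δ * O.s ^ 2 / 2) :=
    ⟨fun o => o.elim (A * (C0 * Real.exp (-c0 * O.s ^ 2))) fun _ => A * Real.exp (-δ * O.s ^ 2 / 2), rfl, fun _ => rfl⟩
  have hcc0 : ∀ o, 0 ≤ cc o := by
    intro o
    cases o
    · rw [hcn]
      positivity
    · rw [hcs]
      positivity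
  have hrabs : ∀ o, |rr o| ≤ δ * O.s := by
    intro o
    cases o with
    | none =>
      rw [hrn, abs_zero]
      positivity
    | some b =>
      rw [hrs, abs_mul, abs_of_pos (mul_pos hδ0 hs0)]
      rcases hsg b with h | h <;> rw [h] <;> simp
  have hadm : Adm A l fun y => |H y| * (1 - O.kap y) :=
    hH.abs.mul_bdd (measurable_const.sub (O.kap_measurable hs0)) (O.one_sub_kap_abs_le hs0)
  have h := zu_exps_le O hS hadm (Finset.univ : Finset (O.Fc × Bool × Option Bool)) (fun k => cc k.2.2)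
    (fun k _ => hcc0 _)
    (fun k i => sg k.2.1 * l i + rr k.2.2 * ((if i = O.z k.1 then 1 else 0) - (if i = O.a k.1 then 1 else 0)))
    (fun k e => sg k.2.1 * q e + rr k.2.2 * Φ k.1 e)
    (fun k _ z => by
      rw [lin_face, hq z, hΦ1 k.1 z, Finset.mul_sum, Finset.mul_sum, ← Finset.sum_add_distrib]
      exact Finset.sum_congr rfl fun e _ => by ring)
    (fun y => by
      simp only [lin_face]
      exact loss_pt O hs0 hH hA (hchi O.s hs1 δ hδ0.le) hsgt hsgf hrn hrs hcn hcs y) t ht α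
  refine h.trans (mul_le_mul_of_nonneg_right ?_ hZ.le)
  have hterm : ∀ k : O.Fc × Bool × Option Bool, cc k.2.2 * (Real.exp ((∑ i, (sg k.2.1 * l i + rr k.2.2 *
        ((if i = O.z k.1 then 1 else 0) - (if i = O.a k.1 then 1 else 0))) ^ 2) / 2) *
      (Real.exp (-∑ e, (sg k.2.1 * q e + rr k.2.2 * Φ k.1 e) * ((α.1 e : ℤ) : ℝ))
        * Real.exp (t * ∑ e, (Real.cosh (sg k.2.1 * q e + rr k.2.2 * Φ k.1 e) - 1))))
      ≤ |A| * Real.exp B2 * Real.exp (-c * O.s ^ 2) * (k.2.2.elim C0 fun _ => 1) := by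
    rintro ⟨f, σ, o⟩
    have hC : 0 ≤ CΦ := (Finset.sum_nonneg fun _ _ => sq_nonneg _).trans (hΦ3 f)
    have g2 := loss_term O hα l q (Φ f) hl2 hq2 hs1 (hΦ2 f) (hΦ3 f) hδ1 (hsg σ) (hrabs o) ht ht1 (O.z f) (O.a f)
    have hcK' : Real.cosh (Real.sqrt K + CΦ) = cK := by rw [hcK, abs_of_nonneg hK, abs_of_nonneg hC]
    have hG' : 2 + t1 * cK * CΦ = G := by rw [hG, abs_of_pos ht10, abs_of_nonneg hC]
    have hB2' : K + Real.sqrt K + CΦ + t1 * cK * K = B2 := by
      rw [hB2, abs_of_nonneg hK, abs_of_nonneg hC, abs_of_pos ht10]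
    rw [hcK', hG', hB2'] at g2
    rw [abs_of_nonneg hA]
    exact (mul_le_mul_of_nonneg_left g2 (hcc0 o)).trans
      (loss_num hA hC0 hδG (hc ▸ min_le_left _ _) (hc ▸ min_le_right _ _) hsg hrn hrs hcn hcs o)
  refine (Finset.sum_le_sum fun k _ => hterm k).trans (le_of_eq ?_)
  rw [← Finset.mul_sum, Fintype.sum_prod_type]
  simp only [Fintype.sum_prod_type, Fintype.sum_option, Option.elim_none, Option.elim_some,
    Finset.sum_const, Finset.card_univ, nsmul_eq_mul, Fintype.card_bool]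
  push_cast
  ring

/-! ## 5. Calculus -/

/-- pointwise bounds for `calc_ratio`. -/
theorem calc_ratio_pt {M ε E z a f g z' a' f' g' : ℝ} (hM : 0 ≤ M) (hε : 0 ≤ ε) (hε2 : ε ≤ 1 / 2) (hE : 0 ≤ E) (pos : 0 < z)
    (ba : |a| ≤ M * z) (bf : |f| ≤ ε * z) (bg : |g| ≤ ε * z) (bZ' : |z'| ≤ E * z) (ba' : |a'| ≤ E * (M * z))
    (bf' : |f'| ≤ E * (ε * z)) (bg' : |g'| ≤ E * (ε * z)) :
    z ^ 2 / 2 ≤ z * (z - g) ∧ |a * g - z * f| ≤ (M + 1) * ε * z ^ 2 ∧
    |a' * g + a * g' - (z' * f + z * f')| ≤ 2 * E * (M + 1) * ε * z ^ 2 ∧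
    |z' * (z - g) + z * (z' - g')| ≤ 3 * E * z ^ 2 := by
  have hg : g ≤ z / 2 := by
    have h1 := (le_abs_self g).trans bg
    have h2 : ε * z ≤ 1 / 2 * z := mul_le_mul_of_nonneg_right hε2 pos.le
    linarith
  have hεz : ε * z ≤ z / 2 := by
    have h2 : ε * z ≤ 1 / 2 * z := mul_le_mul_of_nonneg_right hε2 pos.le
    linarith
  have hMz : 0 ≤ M * z := mul_nonneg hM pos.le
  have hεz0 : 0 ≤ ε * z := mul_nonneg hε pos.le
  have hEz : 0 ≤ E * z := mul_nonneg hE pos.le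
  refine ⟨?_, ?_, ?_, ?_⟩
  · have : z * (z / 2) ≤ z * (z - g) := mul_le_mul_of_nonneg_left (by linarith) pos.le
    nlinarith
  · have h1 : |a * g| ≤ (M * z) * (ε * z) := by
      rw [abs_mul]
      exact mul_le_mul ba bg (abs_nonneg _) hMz
    have h2 : |z * f| ≤ z * (ε * z) := by
      rw [abs_mul, abs_of_pos pos]
      exact mul_le_mul_of_nonneg_left bf pos.le
    calc |a * g - z * f| ≤ |a * g| + |z * f| := abs_sub _ _
      _ ≤ (M * z) * (ε * z) + z * (ε * z) := add_le_add h1 h2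
      _ = _ := by ring
  · have h1 : |a' * g| ≤ (E * (M * z)) * (ε * z) := by
      rw [abs_mul]
      exact mul_le_mul ba' bg (abs_nonneg _) (mul_nonneg hE hMz)
    have h2 : |a * g'| ≤ (M * z) * (E * (ε * z)) := by
      rw [abs_mul]
      exact mul_le_mul ba bg' (abs_nonneg _) hMz
    have h3 : |z' * f| ≤ (E * z) * (ε * z) := by
      rw [abs_mul]
      exact mul_le_mul bZ' bf (abs_nonneg _) hEz
    have h4 : |z * f'| ≤ z * (E * (ε * z)) := by
      rw [abs_mul, abs_of_pos pos]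
      exact mul_le_mul_of_nonneg_left bf' pos.le
    calc |a' * g + a * g' - (z' * f + z * f')| ≤ |a' * g + a * g'| + |z' * f + z * f'| := abs_sub _ _
      _ ≤ (|a' * g| + |a * g'|) + (|z' * f| + |z * f'|) := add_le_add (abs_add_le _ _) (abs_add_le _ _)
      _ ≤ ((E * (M * z)) * (ε * z) + (M * z) * (E * (ε * z))) + ((E * z) * (ε * z) + z * (E * (ε * z))) :=
          add_le_add (add_le_add h1 h2) (add_le_add h3 h4)
      _ = _ := by ring
  · have h0 : |z - g| ≤ z + z / 2 := by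
      calc |z - g| ≤ |z| + |g| := abs_sub _ _
        _ ≤ z + z / 2 := by
          rw [abs_of_pos pos]
          linarith
    have h1 : |z' * (z - g)| ≤ (E * z) * (z + z / 2) := by
      rw [abs_mul]
      exact mul_le_mul bZ' h0 (abs_nonneg _) hEz
    have h5 : E * (ε * z) ≤ E * (z / 2) := mul_le_mul_of_nonneg_left hεz hE
    have h2 : |z * (z' - g')| ≤ z * (E * z + E * (z / 2)) := by
      rw [abs_mul, abs_of_pos pos]
      refine mul_le_mul_of_nonneg_left ?_ pos.le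
      calc |z' - g'| ≤ |z'| + |g'| := abs_sub _ _
        _ ≤ _ := by linarith
    calc |z' * (z - g) + z * (z' - g')| ≤ |z' * (z - g)| + |z * (z' - g')| := abs_add_le _ _
      _ ≤ (E * z) * (z + z / 2) + z * (E * z + E * (z / 2)) := add_le_add h1 h2
      _ = _ := by ring

/-- L-CUT-A5.  `φ = (a - f)/(Z - g) - a/Z = N / D`, `N = a g - Z f`, `D = Z (Z - g)`.  `|N| ≤ (M+1) ε Z²`, `D ≥ Z²/2`; `|N'| ≤ 2 E (M+1) ε Z²`, `|D'| ≤ 3 E Z²`; `|φ'| ≤ |N'|/D + |N| |D'|/D² ≤ 16 E (M+1) ε`.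
`HasDerivAt.div`, `.sub`, `.mul`; mean value inequality on the convex set `Icc t0 t1`: `Convex.norm_image_sub_le_of_norm_hasDerivWithin_le` (`HasDerivAt.hasDerivWithinAt`, `convex_Icc`). -/
theorem calc_ratio (t0 t1 M ε E : ℝ) (hM : 0 ≤ M) (hε : 0 ≤ ε) (hε2 : ε ≤ 1 / 2) (hE : 0 ≤ E)
    (Z a f g Z' a' f' g' : ℝ → ℝ)
    (dZ : ∀ t ∈ Set.Icc t0 t1, HasDerivAt Z (Z' t) t) (da : ∀ t ∈ Set.Icc t0 t1, HasDerivAt a (a' t) t)
    (df : ∀ t ∈ Set.Icc t0 t1, HasDerivAt f (f' t) t) (dg : ∀ t ∈ Set.Icc t0 t1, HasDerivAt g (g' t) t)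
    (pos : ∀ t ∈ Set.Icc t0 t1, 0 < Z t)
    (ba : ∀ t ∈ Set.Icc t0 t1, |a t| ≤ M * Z t) (bf : ∀ t ∈ Set.Icc t0 t1, |f t| ≤ ε * Z t)
    (bg : ∀ t ∈ Set.Icc t0 t1, |g t| ≤ ε * Z t)
    (bZ' : ∀ t ∈ Set.Icc t0 t1, |Z' t| ≤ E * Z t) (ba' : ∀ t ∈ Set.Icc t0 t1, |a' t| ≤ E * (M * Z t))
    (bf' : ∀ t ∈ Set.Icc t0 t1, |f' t| ≤ E * (ε * Z t)) (bg' : ∀ t ∈ Set.Icc t0 t1, |g' t| ≤ E * (ε * Z t)) :
    (∀ t ∈ Set.Icc t0 t1, |(a t - f t) / (Z t - g t) - a t / Z t| ≤ 2 * (M + 1) * ε) ∧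
    ∀ t ∈ Set.Icc t0 t1, ∀ t' ∈ Set.Icc t0 t1,
      |((a t - f t) / (Z t - g t) - a t / Z t) - ((a t' - f t') / (Z t' - g t') - a t' / Z t')|
        ≤ |t - t'| * (16 * (M + 1) * E * ε) := by
  have pt := fun t (ht : t ∈ Set.Icc t0 t1) => calc_ratio_pt hM hε hε2 hE (pos t ht) (ba t ht) (bf t ht) (bg t ht)
    (bZ' t ht) (ba' t ht) (bf' t ht) (bg' t ht)
  have hD : ∀ t ∈ Set.Icc t0 t1, 0 < Z t * (Z t - g t) := fun t ht =>
    lt_of_lt_of_le (by have := pos t ht; positivity) (pt t ht).1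
  have heq : ∀ t ∈ Set.Icc t0 t1, (a t - f t) / (Z t - g t) - a t / Z t
      = (a t * g t - Z t * f t) / (Z t * (Z t - g t)) := by
    intro t ht
    have h1 : Z t ≠ 0 := (pos t ht).ne'
    have h2 : Z t - g t ≠ 0 := right_ne_zero_of_mul (hD t ht).ne'
    field_simp
    ring
  have hc : 0 ≤ (M + 1) * ε := by positivity
  constructor
  · intro t ht
    obtain ⟨h1, h2, -, -⟩ := pt t ht
    rw [heq t ht, abs_div, abs_of_pos (hD t ht), div_le_iff₀ (hD t ht)]
    calc |a t * g t - Z t * f t| ≤ (M + 1) * ε * Z t ^ 2 := h2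
      _ = 2 * (M + 1) * ε * (Z t ^ 2 / 2) := by ring
      _ ≤ _ := mul_le_mul_of_nonneg_left h1 (by positivity)
  · have hder : ∀ t ∈ Set.Icc t0 t1, HasDerivWithinAt (fun t => (a t - f t) / (Z t - g t) - a t / Z t)
        (((a' t * g t + a t * g' t - (Z' t * f t + Z t * f' t)) * (Z t * (Z t - g t))
          - (a t * g t - Z t * f t) * (Z' t * (Z t - g t) + Z t * (Z' t - g' t))) / (Z t * (Z t - g t)) ^ 2)
        (Set.Icc t0 t1) t := by
      intro t ht
      have hN := ((da t ht).mul (dg t ht)).sub ((dZ t ht).mul (df t ht))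
      have hDd := (dZ t ht).mul ((dZ t ht).sub (dg t ht))
      exact ((hN.div hDd (hD t ht).ne').hasDerivWithinAt).congr (fun x hx => heq x hx) (heq t ht)
    have hbd : ∀ t ∈ Set.Icc t0 t1, ‖((a' t * g t + a t * g' t - (Z' t * f t + Z t * f' t)) * (Z t * (Z t - g t))
          - (a t * g t - Z t * f t) * (Z' t * (Z t - g t) + Z t * (Z' t - g' t))) / (Z t * (Z t - g t)) ^ 2‖
        ≤ 16 * (M + 1) * E * ε := by
      intro t ht
      obtain ⟨h1, h2, h3, h4⟩ := pt t ht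
      have hDp := hD t ht
      have hz := pos t ht
      rw [Real.norm_eq_abs, abs_div, abs_of_pos (pow_pos hDp 2), div_le_iff₀ (pow_pos hDp 2)]
      have hz2 : Z t ^ 2 ≤ 2 * (Z t * (Z t - g t)) := by linarith
      have k1 : |(a' t * g t + a t * g' t - (Z' t * f t + Z t * f' t)) * (Z t * (Z t - g t))|
          ≤ (2 * E * (M + 1) * ε * (2 * (Z t * (Z t - g t)))) * (Z t * (Z t - g t)) := by
        rw [abs_mul, abs_of_pos hDp]
        refine mul_le_mul_of_nonneg_right (h3.trans ?_) hDp.le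
        exact mul_le_mul_of_nonneg_left hz2 (by positivity)
      have k2 : |(a t * g t - Z t * f t) * (Z' t * (Z t - g t) + Z t * (Z' t - g' t))|
          ≤ ((M + 1) * ε * (2 * (Z t * (Z t - g t)))) * (3 * E * (2 * (Z t * (Z t - g t)))) := by
        rw [abs_mul]
        refine mul_le_mul (h2.trans (mul_le_mul_of_nonneg_left hz2 hc))
          (h4.trans (mul_le_mul_of_nonneg_left hz2 (by positivity))) (abs_nonneg _) (by positivity)
      calc _ ≤ _ := abs_sub _ _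
        _ ≤ _ := add_le_add k1 k2
        _ = _ := by ring
    intro t ht t' ht'
    have := (convex_Icc t0 t1).norm_image_sub_le_of_norm_hasDerivWithin_le hder hbd ht' ht
    rw [Real.norm_eq_abs, Real.norm_eq_abs] at this
    rw [mul_comm]
    exact this

/-! ## 6. The theorem -/

theorem Adm.mono {I : Type} [Fintype I] {A A' : ℝ} {l : I → ℝ} {H : (I → ℝ) → ℝ} (h : Adm A l H) (hA : A ≤ A') :
    Adm A' l H :=
  ⟨h.1, fun y => (h.2 y).trans (mul_le_mul_of_nonneg_right hA (by positivity))⟩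

theorem zu_abs_le {S : LSys} (hS : S.Ok) {F : S.L → ℝ} (hF : Gr S F) (t : ℝ) (ht : 0 < t) (α : S.Amb) :
    |Zu S t α F| ≤ Zu S t α fun z => |F z| := by
  rw [abs_le]
  constructor
  · rw [← Zu_neg]
    exact Zu_mono hS hF.abs.neg hF t ht α fun z => neg_abs_le _
  · exact Zu_mono hS hF hF.abs t ht α fun z => le_abs_self _

theorem zu_sub {S : LSys} (hS : S.Ok) {F G : S.L → ℝ} (hF : Gr S F) (hG : Gr S G) (t : ℝ) (ht : 0 < t) (α : S.Amb) :
    Zu S t α (fun z => F z - G z) = Zu S t α F - Zu S t α G := by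
  have := Zu_add hS hF hG.neg t ht α
  rw [Zu_neg] at this
  simpa [sub_eq_add_neg] using this

/-- a bound for all unit data bounds the temperature derivative -/
theorem dZu_le {S : LSys} (F : S.L → ℝ) (t B : ℝ) (h : ∀ α : S.Amb, UnitD S α → |Zu S t α F| ≤ B) :
    |dZu S t 0 F| ≤ 2 * (Fintype.card S.E : ℝ) * B := by
  unfold dZu
  calc |∑ e, ((Zu S t (0 + dl S e) F + Zu S t (0 - dl S e) F) / 2 - Zu S t 0 F)|
      ≤ ∑ e : S.E, |(Zu S t (0 + dl S e) F + Zu S t (0 - dl S e) F) / 2 - Zu S t 0 F| :=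
        Finset.abs_sum_le_sum_abs _ _
    _ ≤ ∑ _e : S.E, 2 * B := by
        refine Finset.sum_le_sum fun e _ => ?_
        have h0 := h 0 (Or.inl rfl)
        have h1 := h (0 + dl S e) (Or.inr ⟨e, Or.inl (zero_add _)⟩)
        have h2 := h (0 - dl S e) (Or.inr ⟨e, Or.inr (zero_sub _)⟩)
        rw [abs_le] at h0 h1 h2 ⊢
        constructor <;> linarith [h0.1, h0.2, h1.1, h1.2, h2.1, h2.2]
    _ = _ := by simp; ring

/-- the smoothed test is controlled by the smoothed absolute value -/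
theorem zu_sm_abs_le {S : LSys} (O : Obs S) (hS : S.Ok) {A : ℝ} {l : O.I → ℝ} {H : (O.I → ℝ) → ℝ} (h : Adm A l H)
    (t : ℝ) (ht : 0 < t) (α : S.Amb) : |Zu S t α (O.sm H)| ≤ Zu S t α (O.sm fun y => |H y|) :=
  (zu_abs_le hS (sm_gr O hS h) t ht α).trans
    (Zu_mono hS (sm_gr O hS h).abs (sm_gr O hS h.abs) t ht α fun z => O.sm_abs_le H z)

/-- **[E] Lemma 3.4 (cutoff error and its derivative), abstract form.** -/
theorem cut_abs (t0 t1 K CΦ A : ℝ) (h0 : 0 < t0) : ∃ C c : ℝ, 0 < c ∧ 0 ≤ C ∧ ∀ (S : LSys) (O : Obs S), O.OK CΦ →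
    ∀ (l : O.I → ℝ) (H : (O.I → ℝ) → ℝ), O.Row K l → Adm A l H →
      C * (Fintype.card O.Fc : ℝ) * Real.exp (-c * O.s ^ 2) ≤ 1 →
      (∀ t ∈ Set.Icc t0 t1, |O.Ec t H - O.Eu t H| ≤ C * (Fintype.card O.Fc : ℝ) * Real.exp (-c * O.s ^ 2)) ∧
      ∀ t ∈ Set.Icc t0 t1, ∀ t' ∈ Set.Icc t0 t1, |(O.Ec t H - O.Eu t H) - (O.Ec t' H - O.Eu t' H)|
        ≤ |t - t'| * ((Fintype.card S.E : ℝ) * (C * (Fintype.card O.Fc : ℝ) * Real.exp (-c * O.s ^ 2))) := by
  obtain ⟨M, hM, hmom⟩ := mom_le t1 K A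
  obtain ⟨C1, c, hc, hC1, hloss⟩ := loss_le t1 K CΦ (max A 1)
  refine ⟨32 * (M + 1) * C1, c, hc, by positivity, fun S O hO l H hl hH hsmall => ?_⟩
  have hS := hO.ok
  have hs : 0 < O.s := lt_of_lt_of_le one_pos hO.hs
  set ε : ℝ := C1 * (Fintype.card O.Fc : ℝ) * Real.exp (-c * O.s ^ 2) with hε
  have hε0 : 0 ≤ ε := by positivity
  have hsm : 32 * (M + 1) * ε ≤ 1 := by
    have : 32 * (M + 1) * C1 * (Fintype.card O.Fc : ℝ) * Real.exp (-c * O.s ^ 2) = 32 * (M + 1) * ε := by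
      rw [hε]; ring
    rwa [this] at hsmall
  have hε2 : ε ≤ 1 / 2 := by nlinarith
  -- the four tests
  have a1 : Adm (max A 1) l H := hH.mono (le_max_left _ _)
  have a2 : Adm (max A 1) l fun _ => (1 : ℝ) := (adm_one l).mono (le_max_right _ _)
  have mk : Measurable fun y => 1 - O.kap y := measurable_const.sub (O.kap_measurable hs)
  have aHk : Adm A l fun y => H y * O.kap y := hH.mul_bdd (O.kap_measurable hs) (O.kap_abs_le hs)
  have aHl : Adm A l fun y => H y * (1 - O.kap y) := hH.mul_bdd mk (O.one_sub_kap_abs_le hs)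
  have a1l : Adm 1 l fun y => (1 : ℝ) * (1 - O.kap y) := (adm_one l).mul_bdd mk (O.one_sub_kap_abs_le hs)
  have a1k : Adm 1 l fun y => (1 : ℝ) * O.kap y := (adm_one l).mul_bdd (O.kap_measurable hs) (O.kap_abs_le hs)
  -- the bounds for all unit data
  have bH : ∀ t ∈ Set.Icc t0 t1, ∀ α : S.Amb, UnitD S α → |Zu S t α (O.sm H)| ≤ M * Zu S t 0 fun _ => 1 :=
    fun t ht α hα => (zu_sm_abs_le O hS hH t (h0.trans_le ht.1) α).trans
      (hmom S O hS l H hl hH t (h0.trans_le ht.1) ht.2 α hα)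
  have bF : ∀ t ∈ Set.Icc t0 t1, ∀ α : S.Amb, UnitD S α →
      |Zu S t α (O.sm fun y => H y * (1 - O.kap y))| ≤ ε * Zu S t 0 fun _ => 1 := by
    intro t ht α hα
    refine (zu_sm_abs_le O hS aHl t (h0.trans_le ht.1) α).trans ?_
    have := hloss S O hO l H hl a1 t (h0.trans_le ht.1) ht.2 α hα
    have e : (fun y => |H y * (1 - O.kap y)|) = fun y => |H y| * (1 - O.kap y) := by
      funext y
      rw [abs_mul, abs_of_nonneg (by linarith [O.kap_le_one hs y] : 0 ≤ 1 - O.kap y)]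
    rw [e]
    exact this
  have bG : ∀ t ∈ Set.Icc t0 t1, ∀ α : S.Amb, UnitD S α →
      |Zu S t α (O.sm fun y => (1 : ℝ) * (1 - O.kap y))| ≤ ε * Zu S t 0 fun _ => 1 := by
    intro t ht α hα
    refine (zu_sm_abs_le O hS a1l t (h0.trans_le ht.1) α).trans ?_
    have := hloss S O hO l (fun _ => 1) hl a2 t (h0.trans_le ht.1) ht.2 α hα
    have e : (fun y => |(1 : ℝ) * (1 - O.kap y)|) = fun y => |(1 : ℝ)| * (1 - O.kap y) := by
      funext y
      rw [abs_mul, abs_of_nonneg (by linarith [O.kap_le_one hs y] : 0 ≤ 1 - O.kap y)]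
    rw [e]
    exact this
  have bZ : ∀ t ∈ Set.Icc t0 t1, ∀ α : S.Amb, UnitD S α →
      |Zu S t α fun _ => (1 : ℝ)| ≤ Zu S t 0 fun _ => 1 := by
    intro t ht α _
    rw [abs_of_pos (Zu_one_pos hS t (h0.trans_le ht.1) α)]
    exact e2_w_le hS t (h0.trans_le ht.1) α
  have key := calc_ratio t0 t1 M ε (2 * (Fintype.card S.E : ℝ)) hM hε0 hε2 (by positivity)
    (fun t => Zu S t 0 fun _ => 1) (fun t => Zu S t 0 (O.sm H))
    (fun t => Zu S t 0 (O.sm fun y => H y * (1 - O.kap y))) (fun t => Zu S t 0 (O.sm fun y => (1 : ℝ) * (1 - O.kap y)))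
    (fun t => dZu S t 0 fun _ => 1) (fun t => dZu S t 0 (O.sm H))
    (fun t => dZu S t 0 (O.sm fun y => H y * (1 - O.kap y))) (fun t => dZu S t 0 (O.sm fun y => (1 : ℝ) * (1 - O.kap y)))
    (fun t ht => e2_Zu_hasDerivAt' hS (Gr.const 1) 0 t (h0.trans_le ht.1))
    (fun t ht => e2_Zu_hasDerivAt' hS (sm_gr O hS hH) 0 t (h0.trans_le ht.1))
    (fun t ht => e2_Zu_hasDerivAt' hS (sm_gr O hS aHl) 0 t (h0.trans_le ht.1))
    (fun t ht => e2_Zu_hasDerivAt' hS (sm_gr O hS a1l) 0 t (h0.trans_le ht.1))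
    (fun t ht => Zu_one_pos hS t (h0.trans_le ht.1) 0)
    (fun t ht => bH t ht 0 (Or.inl rfl)) (fun t ht => bF t ht 0 (Or.inl rfl)) (fun t ht => bG t ht 0 (Or.inl rfl))
    (fun t ht => dZu_le _ t _ (bZ t ht)) (fun t ht => dZu_le _ t _ (bH t ht))
    (fun t ht => dZu_le _ t _ (bF t ht)) (fun t ht => dZu_le _ t _ (bG t ht))
  -- identification of `Ec - Eu`
  have id : ∀ t ∈ Set.Icc t0 t1, O.Ec t H - O.Eu t H
      = (Zu S t 0 (O.sm H) - Zu S t 0 (O.sm fun y => H y * (1 - O.kap y)))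
          / ((Zu S t 0 fun _ => 1) - Zu S t 0 (O.sm fun y => (1 : ℝ) * (1 - O.kap y)))
        - Zu S t 0 (O.sm H) / Zu S t 0 fun _ => 1 := by
    intro t ht
    have ht0 := h0.trans_le ht.1
    unfold Obs.Ec Obs.Eu
    congr 2
    · rw [← zu_sub hS (sm_gr O hS hH) (sm_gr O hS aHl) t ht0 0]
      refine Zu_congr t 0 fun z => ?_
      rw [← O.sm_sub hH aHl z]
      congr 1
      funext y
      ring
    · have e1 : (fun _ : S.L => (1 : ℝ)) = O.sm fun _ => 1 := by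
        funext z
        rw [O.sm_const]
      rw [e1, ← zu_sub hS (sm_gr O hS (adm_one l)) (sm_gr O hS a1l) t ht0 0]
      refine Zu_congr t 0 fun z => ?_
      rw [← O.sm_sub (adm_one l) a1l z]
      congr 1
      funext y
      ring
  have hfin : 32 * (M + 1) * C1 * (Fintype.card O.Fc : ℝ) * Real.exp (-c * O.s ^ 2) = 32 * (M + 1) * ε := by
    rw [hε]; ring
  rw [hfin]
  constructor
  · intro t ht
    rw [id t ht]
    refine (key.1 t ht).trans ?_
    nlinarith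
  · intro t ht t' ht'
    rw [id t ht, id t' ht']
    refine (key.2 t ht t' ht').trans (le_of_eq ?_)
    ring

/-- Stores the on-demand equation lemmas of the definitions above in THIS module (rule 6 hygiene). -/
theorem cut_abs_forced : True := by
  have := @UnitD.eq_1
  trivial

end

end Claimed.Agent.R285.Cut
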