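import Claimed.Agent.R285.F4a.Defs
import Claimed.Agent.R285.E2.Real

/-!
# ROW 285, post BP-E3-CUTGRID (architect helper167), file 1: DEFINITIONS.   Nothing is sorried here.

## A. the normalised cutoff observables `gV`, `gP`, `gM` of a periodic geometry `G` (side `n = G.M`) observed on whole cells `c` of side `s = c.m`  ([E] (eq:physical-cosine), L3.4, L3.5; [F] (trj:mixed-diagnostic))
Vocabulary of `F4a/Defs.lean`.  These are the definitions `Rdo.cVof`, `Rdo.cPof`, `Rdo.cMof` of READOUT (helper16, `Rdo/Defs.lean`), copied so that this package does not import `Read/B8b.lean`; the two agree by `rfl`.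
* `Eh b c F = Phat b c i0 0 F / Phat b c i0 0 1` (normalised cutoff expectation of a function of the OBSERVATIONS `y`), `i0` = the cell of the origin;
* `obsX c y = ∑_Q fX c Q · y_Q`, `fX c Q = (s/n)² β⁻¹ (B_s q_n)(Q)` `(= (s/n)² cos (2π x_Q / n)`, `x_Q` = arithmetic centre`)`;   `obsM c y` = uniform mean of the observations;
* `beta n s = sin (π s/n) / (s sin (π/n))`, `nf2 c = ∑ fX²` (noise variance of `obsX`), `(s/n)²` = noise variance of `obsM`;
* `gV = (Êh X² - (Êh X)² - nf2) / β²`,   `gP = e^{(s/n)²/2} Êh cos ȳ`,   `gM v w = e^{(s/n)²/2} (Êh [cos ȳ e^{w X}] - e^{v w²/2} Êh cos ȳ)`.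

## B. the abstract layer: a lattice system `S : LSys` observed through additive rows with independent standard noises
`Obs S`: index type `I` of the observations, additive map `m : S.L →+ (I → ℝ)` (noise-free observations), faces `Fc` with end cells `a f`, `z f`, cutoff side `s`.
* `sm O H z = ∫ H (m z + e) dγ(e)`  (`γ = nz I` product of standard Gaussians): the noise is integrated FIRST, so that the temperature only sits in the lattice sum `E2.Zu`;
* `kap O y = ∏_f χ_s (y_{z f} - y_{a f})`;   `Eu O t H = Zu (sm H) / Zu 1` (uncut),   `Ec O t H = Zu (sm (H κ)) / Zu (sm κ)` (normalised cutoff expectation).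
-/

set_option autoImplicit false

namespace Claimed.Agent.R285.Cut

open scoped BigOperators
open MeasureTheory ProbabilityTheory
open Claimed.Agent.R285 Claimed.Agent.R285.RG Claimed.Agent.R285.F4a Claimed.Agent.R285.E2

noncomputable section

/-! ## A. concrete observables (the definitions of `Rdo/Defs.lean` s1-2, helper16, VERBATIM up to names: `Rdo.cVof b c = gV b c` etc. hold by `rfl`) -/

section concrete

variable {G : Geom}

/-- the first cosine `q_n` (`= B8.cos1`) -/
def cs (G : Geom) (v : G.V) : ℝ := Real.cos (2 * Real.pi * (v.1 : ℕ) / G.M)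

/-- the origin (`= Map.org`) -/
def og (G : Geom) : G.V := (⟨0, G.hM⟩, ⟨0, G.hM⟩)

/-- `β_{n,s} = sin (π s/n) / (s sin (π/n))`: `B_s q_n = β_{n,s} cos (2π x_Q/n)` -/
def beta (n s : ℕ) : ℝ := Real.sin (Real.pi * s / n) / (s * Real.sin (Real.pi / n))

/-- `s/n` -/
def snr (c : Grid G) : ℝ := (c.m : ℝ) / G.M

/-- `f_{n,s} (Q) = (s/n)² cos (2π x_Q/n)`, written as `(s/n)² β⁻¹ (B_s q_n)(Q)` -/
def fX (c : Grid G) (Q : c.I) : ℝ := snr c ^ 2 / beta G.M c.m * avg c (cs G) Q

/-- `X_{n,s}` as a function of the observations -/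
def obsX (c : Grid G) (y : c.I → ℝ) : ℝ := ∑ Q, fX c Q * y Q

/-- the uniform mean of the observations -/
def obsM (c : Grid G) (y : c.I → ℝ) : ℝ := (∑ Q, y Q) / (Fintype.card c.I : ℝ)

/-- the observation-noise variance of `X_{n,s}` -/
def nf2 (c : Grid G) : ℝ := ∑ Q, fX c Q ^ 2

/-- the normalised cutoff expectation, centred sector -/
def Eh (b : ℝ) (c : Grid G) (F : (c.I → ℝ) → ℝ) : ℝ :=
  Phat b c (c.blk (og G)) 0 F / Phat b c (c.blk (og G)) 0 fun _ => 1

/-- **normalised cutoff variance** `(\hat Var X_{n,s} - ‖f‖²)/β²` -/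
def gV (b : ℝ) (c : Grid G) : ℝ :=
  ((Eh b c fun y => obsX c y ^ 2) - (Eh b c (obsX c)) ^ 2 - nf2 c) / beta G.M c.m ^ 2

/-- **normalised cutoff phase** `e^{(s/n)²/2} \hat E cos \bar y` -/
def gP (b : ℝ) (c : Grid G) : ℝ := Real.exp (snr c ^ 2 / 2) * Eh b c fun y => Real.cos (obsM c y)

/-- **normalised cutoff mixed diagnostic** `e^{(s/n)²/2} (\hat E [cos \bar y e^{w X}] - e^{v w²/2} \hat E cos \bar y)`; `w` = real source, `v` = reference variance of `X_{n,s}` (`Rdo.v0raw a c`), a PARAMETER here -/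
def gM (v w b : ℝ) (c : Grid G) : ℝ :=
  Real.exp (snr c ^ 2 / 2) * ((Eh b c fun y => Real.cos (obsM c y) * Real.exp (w * obsX c y))
    - Real.exp (v * w ^ 2 / 2) * Eh b c fun y => Real.cos (obsM c y))

end concrete

/-! ## B. the abstract layer -/

/-- independent standard noises -/
def nz (I : Type) [Fintype I] : Measure (I → ℝ) := Measure.pi fun _ => gaussianReal 0 1

/-- the linear form with coefficients `l` -/
def lin {I : Type} [Fintype I] (l y : I → ℝ) : ℝ := ∑ i, l i * y i

/-- a lattice system observed through additive rows, with faces -/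
structure Obs (S : LSys) where
  I : Type
  [fI : Fintype I]
  /-- noise-free observations -/
  m : S.L →+ (I → ℝ)
  Fc : Type
  [fF : Fintype Fc]
  /-- source cell of a face -/
  a : Fc → I
  /-- target cell of a face -/
  z : Fc → I
  /-- cutoff side -/
  s : ℝ

attribute [instance] Obs.fI Obs.fF

namespace Obs

variable {S : LSys} (O : Obs S)

/-- the noise is integrated first -/
def sm (H : (O.I → ℝ) → ℝ) (z : S.L) : ℝ := ∫ e, H (fun i => O.m z i + e i) ∂(nz O.I)

/-- the product of the face cutoffs -/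
def kap (y : O.I → ℝ) : ℝ := ∏ f, chi O.s (y (O.z f) - y (O.a f))

/-- the uncut expectation of a function of the observations at the uniform temperature `t` -/
def Eu (t : ℝ) (H : (O.I → ℝ) → ℝ) : ℝ := Zu S t 0 (O.sm H) / Zu S t 0 fun _ => 1

/-- the normalised cutoff expectation -/
def Ec (t : ℝ) (H : (O.I → ℝ) → ℝ) : ℝ := Zu S t 0 (O.sm fun y => H y * O.kap y) / Zu S t 0 (O.sm O.kap)

/-- the noise-free linear statistic `z ↦ ∑ l_i (m z)_i` -/
def row (l : O.I → ℝ) : S.L →+ ℝ where
  toFun z := lin l (O.m z)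
  map_zero' := by simp [lin]
  map_add' z z' := by simp [lin, mul_add, Finset.sum_add_distrib]

/-- the standing hypotheses: proper system, `s ≥ 1`, cell flows (ent:cell-flow) (the factor `2π` is inside `Φ`) -/
structure OK (CΦ : ℝ) : Prop where
  ok : S.Ok
  hs : 1 ≤ O.s
  flow : ∀ f : O.Fc, ∃ Φ : S.E → ℝ,
    (∀ z : S.L, O.m z (O.z f) - O.m z (O.a f) = ∑ e, Φ e * (((z : S.Amb).1 e : ℤ) : ℝ)) ∧
    (∀ e, |Φ e| ≤ CΦ / O.s) ∧ ∑ e, Φ e ^ 2 ≤ CΦ

/-- a row of bounded noise variance and bounded reference cost -/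
def Row (K : ℝ) (l : O.I → ℝ) : Prop :=
  ∑ i, l i ^ 2 ≤ K ∧ ∃ q : S.E → ℝ, (∀ z : S.L, lin l (O.m z) = ∑ e, q e * (((z : S.Amb).1 e : ℤ) : ℝ)) ∧ ∑ e, q e ^ 2 ≤ K

end Obs

/-- admissible tests: measurable, dominated by `A (e^ℓ + e^{-ℓ})` -/
def Adm {I : Type} [Fintype I] (A : ℝ) (l : I → ℝ) (H : (I → ℝ) → ℝ) : Prop :=
  Measurable H ∧ ∀ y, |H y| ≤ A * (Real.exp (lin l y) + Real.exp (-lin l y))

/-- Stores the on-demand equation lemmas of the definitions above in THIS module (rule 6 hygiene). -/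
theorem cut_defs_forced : True := by
  have := @cs.eq_1
  have := @og.eq_1
  have := @beta.eq_1
  have := @snr.eq_1
  have := @fX.eq_1
  have := @obsX.eq_1
  have := @obsM.eq_1
  have := @nf2.eq_1
  have := @Eh.eq_1
  have := @gV.eq_1
  have := @gP.eq_1
  have := @gM.eq_1
  have := @nz.eq_1
  have := @lin.eq_1
  have := @Obs.sm.eq_1
  have := @Obs.kap.eq_1
  have := @Obs.Eu.eq_1
  have := @Obs.Ec.eq_1
  have := @Obs.row.eq_1
  have := @Obs.Row.eq_1
  have := @Adm.eq_1
  trivial

end

end Claimed.Agent.R285.Cut
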