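import Claimed.Agent.R285.Cut.Phys

/-!
# ROW 285, post BP-E3-CUTGRID (chief helper167), file 6 (helper267): THE NUMERICAL LINK to `Asm.cutgrid_top`.   Paper-free, no `sorry`.

`Five b0 b1 w V Cg ε c` = the five inequalities of CUTGRID on ONE periodic torus `G` with whole cells `c`, temperatures in `[b0, b1]`, cutoff error `ε`.
`MainStmt b0 b1 w V` = the exit of file 5 (`Cut/Main.lean`): constants `Cg, C, c0`; `Five` with `ε = C n⁴ e^{-c0 s²}` as soon as `ε ≤ 1`, `4 s ≤ n`.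
`LinkOK bc w CK Cκ cκ v c` = the five fields of `Asm.CutOK` on one torus in plain numbers: `CK = K.κ.C`, `Cκ = κe.C`, `cκ = κe.c`, `bc = xyCritical`, `v = Rdo.v0raw a c`, `n = G.M = K.n h`, `s = c.m`.
`cut_link : MainStmt (bc/2) (3 bc/2) w (1/π + Cv) → ∃ Cc Ce ce, ... LinkOK`.     No entry parameter occurs: all three constants depend on `(bc, w, Cv)` only.
-/

set_option autoImplicit false

namespace Claimed.Agent.R285.Cut

open scoped BigOperators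
open Claimed.Agent.R285 Claimed.Agent.R285.RG Claimed.Agent.R285.F4a Claimed.Agent.R285.E2

noncomputable section

/-- the five inequalities of CUTGRID on one torus -/
structure Five (b0 b1 w V Cg ε : ℝ) {G : Geom} (c : Grid G) : Prop where
  cmpV : ∀ b ∈ Set.Icc b0 b1, |torVar b G.M - gV b c| ≤ Cg * snr c ^ 4 + ε
  cmpP : ∀ b ∈ Set.Icc b0 b1, |torPhase b G.M - gP b c| ≤ ε
  cmpM : ∀ b ∈ Set.Icc b0 b1, ∀ v : ℝ, |v| ≤ V →
    |tMix b G.M w - gM v w b c| ≤ Cg * (snr c + |v - 1 / Real.pi|) + ε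
  lipV : ∀ b ∈ Set.Icc b0 b1, ∀ b' ∈ Set.Icc b0 b1,
    |(torVar b G.M - gV b c) - (torVar b' G.M - gV b' c)| ≤ |b - b'| * (Cg * (G.M : ℝ) ^ 2 * snr c ^ 4 + ε)
  lipP : ∀ b ∈ Set.Icc b0 b1, ∀ b' ∈ Set.Icc b0 b1,
    |(torPhase b G.M - gP b c) - (torPhase b' G.M - gP b' c)| ≤ |b - b'| * ε

/-- the exit of file 5 -/
def MainStmt (b0 b1 w V : ℝ) : Prop :=
  ∃ Cg C c0 : ℝ, 0 < c0 ∧ 0 ≤ C ∧ 0 ≤ Cg ∧ ∀ (G : Geom) (c : Grid G), G.bc = BC.per → Whole c → c.m * 4 ≤ G.M →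
    C * (G.M : ℝ) ^ 4 * Real.exp (-c0 * (c.m : ℝ) ^ 2) ≤ 1 →
      Five b0 b1 w V Cg (C * (G.M : ℝ) ^ 4 * Real.exp (-c0 * (c.m : ℝ) ^ 2)) c

/-- the five fields of `Asm.CutOK` on one torus, in plain numbers -/
structure LinkOK (bc w CK Cκ cκ v : ℝ) {G : Geom} (c : Grid G) : Prop where
  cmpV : ∀ b : ℝ, |b - bc| < cκ / (c.m : ℝ) ^ 2 →
    |torVar b G.M - gV b c| ≤ CK * ((c.m : ℝ) / G.M) ^ 4 + Cκ * (G.M : ℝ) ^ Cκ * Real.exp (-cκ * (c.m : ℝ) ^ 2)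
  cmpP : ∀ b : ℝ, |b - bc| < cκ / (c.m : ℝ) ^ 2 →
    |torPhase b G.M - gP b c| ≤ Cκ * (G.M : ℝ) ^ Cκ * Real.exp (-cκ * (c.m : ℝ) ^ 2)
  cmpM : ∀ b : ℝ, |b - bc| < cκ / (c.m : ℝ) ^ 2 →
    |tMix b G.M w - gM v w b c| ≤ CK * ((c.m : ℝ) / G.M) + Cκ * (G.M : ℝ) ^ Cκ * Real.exp (-cκ * (c.m : ℝ) ^ 2)
  lipV : ∀ b b' : ℝ, |b - bc| < cκ / (c.m : ℝ) ^ 2 → |b' - bc| < cκ / (c.m : ℝ) ^ 2 →
    |(torVar b G.M - gV b c) - (torVar b' G.M - gV b' c)|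
      ≤ |b - b'| * (Cκ * (G.M : ℝ) ^ 2 * ((c.m : ℝ) / G.M) ^ 4 + Cκ * (G.M : ℝ) ^ Cκ * Real.exp (-cκ * (c.m : ℝ) ^ 2))
  lipP : ∀ b b' : ℝ, |b - bc| < cκ / (c.m : ℝ) ^ 2 → |b' - bc| < cκ / (c.m : ℝ) ^ 2 →
    |(torPhase b G.M - gP b c) - (torPhase b' G.M - gP b' c)|
      ≤ |b - b'| * (Cκ * (G.M : ℝ) ^ Cκ * Real.exp (-cκ * (c.m : ℝ) ^ 2))

/-- the cutoff error of file 5 is below the cutoff error of the protocol -/
theorem link_eps {C c0 Cκ cκ n s : ℝ} (hC : 0 ≤ C) (hCκ : C ≤ Cκ) (h4 : 4 ≤ Cκ) (hc : cκ ≤ c0) (hn : 1 ≤ n) :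
    C * n ^ 4 * Real.exp (-c0 * s ^ 2) ≤ Cκ * n ^ Cκ * Real.exp (-cκ * s ^ 2) := by
  have h1 : n ^ 4 ≤ n ^ Cκ := by
    have := Real.rpow_le_rpow_of_exponent_le hn h4
    have e : n ^ (4 : ℝ) = n ^ 4 := by
      rw [show (4 : ℝ) = ((4 : ℕ) : ℝ) by norm_num, Real.rpow_natCast]
    rwa [e] at this
  have h2 : Real.exp (-c0 * s ^ 2) ≤ Real.exp (-cκ * s ^ 2) := by
    apply Real.exp_le_exp.2
    nlinarith [sq_nonneg s]
  have h3 : 0 ≤ n ^ 4 := by positivity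
  have h4' : 0 ≤ n ^ Cκ := Real.rpow_nonneg (by linarith) _
  calc C * n ^ 4 * Real.exp (-c0 * s ^ 2) ≤ Cκ * n ^ Cκ * Real.exp (-c0 * s ^ 2) :=
        mul_le_mul_of_nonneg_right (mul_le_mul hCκ h1 h3 (by linarith)) (Real.exp_pos _).le
    _ ≤ Cκ * n ^ Cκ * Real.exp (-cκ * s ^ 2) :=
        mul_le_mul_of_nonneg_left h2 (mul_nonneg (by linarith) h4')

/-- real parameters of the disk lie in `[bc/2, 3bc/2]` -/
theorem link_icc {bc cκ s b : ℝ} (hs : 1 ≤ s) (h0 : 0 < cκ) (hc : cκ ≤ bc / 2) (hb : |b - bc| < cκ / s ^ 2) :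
    b ∈ Set.Icc (bc / 2) (3 * bc / 2) := by
  have h1 : cκ / s ^ 2 ≤ cκ := div_le_self h0.le (by nlinarith)
  have h2 := abs_lt.1 (lt_of_lt_of_le hb h1)
  constructor <;> linarith [h2.1, h2.2]

/-- **the numerical link** -/
theorem cut_link (bc w Cv : ℝ) (hbc : 0 < bc) (hCv : 0 ≤ Cv) (hmain : MainStmt (bc / 2) (3 * bc / 2) w (1 / Real.pi + Cv)) :
    ∃ Cc Ce ce : ℝ, 0 < ce ∧ ∀ CK Cκ cκ : ℝ, Cc ≤ CK → Ce ≤ Cκ → 0 < cκ → cκ ≤ ce →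
      ∀ (G : Geom) (c : Grid G), G.bc = BC.per → Whole c → c.m * 4 ≤ G.M →
        Cκ * (G.M : ℝ) ^ Cκ * Real.exp (-cκ * (c.m : ℝ) ^ 2) ≤ 1 →
        ∀ v : ℝ, |v - 1 / Real.pi| ≤ Cv * (snr c + 1 / (G.M : ℝ) ^ 2) → LinkOK bc w CK Cκ cκ v c := by
  obtain ⟨Cg, C, c0, hc0, hC, hCg, H⟩ := hmain
  refine ⟨Cg * (1 + 2 * Cv), max (max C 4) Cg, min c0 (bc / 2), lt_min hc0 (by linarith), ?_⟩
  intro CK Cκ cκ hCK hCκ hcκ0 hcκ G c hG hc h4 hval v hv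
  have hCκ1 : C ≤ Cκ := le_trans (le_trans (le_max_left _ _) (le_max_left _ _)) hCκ
  have hCκ2 : 4 ≤ Cκ := le_trans (le_trans (le_max_right _ _) (le_max_left _ _)) hCκ
  have hCκ3 : Cg ≤ Cκ := le_trans (le_max_right _ _) hCκ
  have hcκ1 : cκ ≤ c0 := le_trans hcκ (min_le_left _ _)
  have hcκ2 : cκ ≤ bc / 2 := le_trans hcκ (min_le_right _ _)
  have hsN : 1 ≤ c.m := hc.pos
  have hs : (1 : ℝ) ≤ c.m := by exact_mod_cast hsN
  have hnN : 4 ≤ G.M := by omega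
  have hn4 : (4 : ℝ) ≤ G.M := by exact_mod_cast hnN
  have hn : (1 : ℝ) ≤ G.M := by linarith
  have hn0 : (0 : ℝ) < G.M := by linarith
  have h4R : (c.m : ℝ) * 4 ≤ G.M := by exact_mod_cast h4
  have hε := link_eps (s := (c.m : ℝ)) hC hCκ1 hCκ2 hcκ1 hn
  have F := H G c hG hc h4 (hε.trans hval)
  have hsnr : snr c = (c.m : ℝ) / G.M := rfl
  have hsnr0 : 0 ≤ snr c := by rw [hsnr]; positivity
  have hsnr1 : snr c ≤ 1 / 4 := by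
    rw [hsnr, div_le_iff₀ hn0]; linarith
  have hinv : 1 / (G.M : ℝ) ^ 2 ≤ snr c := by
    rw [hsnr, div_le_div_iff₀ (by positivity) hn0]
    nlinarith
  have hI : ∀ b : ℝ, |b - bc| < cκ / (c.m : ℝ) ^ 2 → b ∈ Set.Icc (bc / 2) (3 * bc / 2) :=
    fun b hb => link_icc hs hcκ0 hcκ2 hb
  have hCgK : Cg ≤ CK := by
    refine le_trans ?_ hCK
    nlinarith
  have hv1 : |v - 1 / Real.pi| ≤ 2 * Cv * snr c := by
    refine hv.trans ?_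
    nlinarith
  have hvV : |v| ≤ 1 / Real.pi + Cv := by
    have h1 : |v| ≤ |v - 1 / Real.pi| + |1 / Real.pi| := by
      have := abs_add_le (v - 1 / Real.pi) (1 / Real.pi)
      simpa using this
    have h2 : |1 / Real.pi| = 1 / Real.pi := abs_of_nonneg (by positivity)
    rw [h2] at h1
    nlinarith
  refine ⟨fun b hb => ?_, fun b hb => ?_, fun b hb => ?_, fun b b' hb hb' => ?_, fun b b' hb hb' => ?_⟩
  · refine (F.cmpV b (hI b hb)).trans (add_le_add ?_ hε)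
    rw [← hsnr]
    exact mul_le_mul_of_nonneg_right hCgK (by positivity)
  · exact (F.cmpP b (hI b hb)).trans hε
  · refine (F.cmpM b (hI b hb) v hvV).trans (add_le_add ?_ hε)
    rw [← hsnr]
    calc Cg * (snr c + |v - 1 / Real.pi|) ≤ Cg * (snr c + 2 * Cv * snr c) :=
          mul_le_mul_of_nonneg_left (by linarith) hCg
      _ = Cg * (1 + 2 * Cv) * snr c := by ring
      _ ≤ CK * snr c := mul_le_mul_of_nonneg_right hCK hsnr0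
  · refine (F.lipV b (hI b hb) b' (hI b' hb')).trans (mul_le_mul_of_nonneg_left (add_le_add ?_ hε) (abs_nonneg _))
    rw [← hsnr]
    have : 0 ≤ (G.M : ℝ) ^ 2 * snr c ^ 4 := by positivity
    calc Cg * (G.M : ℝ) ^ 2 * snr c ^ 4 = Cg * ((G.M : ℝ) ^ 2 * snr c ^ 4) := by ring
      _ ≤ Cκ * ((G.M : ℝ) ^ 2 * snr c ^ 4) := mul_le_mul_of_nonneg_right hCκ3 this
      _ = _ := by ring
  · exact (F.lipP b (hI b hb) b' (hI b' hb')).trans (mul_le_mul_of_nonneg_left hε (abs_nonneg _))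

end

end Claimed.Agent.R285.Cut
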