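import Claimed.Agent.R285.Cut.Link
import Claimed.Agent.R285.Rdo.Ker

/-!
# ROW 285, post BP-E3-CUTGRID (chief helper167), file 7 (helper267): the reference variance `v⁰ = Rdo.v0raw (8π) c` is `1/π + O (s/n + n⁻²)`.   No own `sorry` (rests on `Rdo.rdo_hvar`, `Rdo.rdo_cosCost`).

`v⁰ = ‖f‖² + a ⟨B^*f, A⁺ B^*f⟩ = (s/n)²/2 + β² (π/(n² sin² (π/n)) + 8π δ)`, `0 ≤ δ ≤ C (s/n)²` (`rdo_hvar`), `0 ≤ π/(n² sin²) - 1/π ≤ 2/n²` (`rdo_cosCost`), `1/2 ≤ β ≤ 1`, `1 - β ≤ (π²/4) (s/n)²` (`beta_bounds`).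
-/

set_option autoImplicit false

namespace Claimed.Agent.R285.Cut

open scoped BigOperators
open Claimed.Agent.R285 Claimed.Agent.R285.RG Claimed.Agent.R285.F4a

noncomputable section

/-- the numerical core -/
theorem link_num {x β e1 δ A m2 p : ℝ} (hp : 0 < p) (hx0 : 0 ≤ x) (hx1 : x ≤ 1 / 4) (hβ0 : 1 / 2 ≤ β) (hβ1 : β ≤ 1)
    (hβ2 : 1 - β ≤ p ^ 2 / 4 * x ^ 2) (he0 : 0 ≤ e1) (he1 : e1 ≤ 2 * m2) (hd0 : 0 ≤ δ) (hd1 : δ ≤ A * x ^ 2) (hA : 0 ≤ A)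
    (hm : 0 ≤ m2) :
    |x ^ 2 / 2 - (1 - β ^ 2) / p + β ^ 2 * (e1 + 8 * p * δ)| ≤ (1 / 2 + p + 2 + 8 * p * A) * (x + m2) := by
  have hsq : x ^ 2 ≤ x := by nlinarith
  have hsq0 : 0 ≤ x ^ 2 := sq_nonneg x
  have hb2 : 0 ≤ 1 - β ^ 2 := by nlinarith
  have hb3 : 1 - β ^ 2 ≤ p ^ 2 / 2 * x ^ 2 := by
    have : 1 - β ^ 2 = (1 - β) * (1 + β) := by ring
    rw [this]
    have h1 : 0 ≤ 1 - β := by linarith
    have h2 : (1 - β) * (1 + β) ≤ (1 - β) * 2 := mul_le_mul_of_nonneg_left (by linarith) h1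
    linarith
  have hb4 : (1 - β ^ 2) / p ≤ p / 2 * x ^ 2 := by
    rw [div_le_iff₀ hp]
    calc 1 - β ^ 2 ≤ p ^ 2 / 2 * x ^ 2 := hb3
      _ = p / 2 * x ^ 2 * p := by ring
  have hb5 : 0 ≤ (1 - β ^ 2) / p := div_nonneg hb2 hp.le
  have hT0 : 0 ≤ e1 + 8 * p * δ := by positivity
  have hβsq : β ^ 2 ≤ 1 := by nlinarith
  have hT1 : β ^ 2 * (e1 + 8 * p * δ) ≤ e1 + 8 * p * δ := by
    calc β ^ 2 * (e1 + 8 * p * δ) ≤ 1 * (e1 + 8 * p * δ) := mul_le_mul_of_nonneg_right hβsq hT0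
      _ = _ := one_mul _
  have hT2 : 0 ≤ β ^ 2 * (e1 + 8 * p * δ) := by positivity
  have hpA : 0 ≤ 8 * p * A := by positivity
  have hT3 : 8 * p * δ ≤ 8 * p * A * x := by
    calc 8 * p * δ ≤ 8 * p * (A * x ^ 2) := mul_le_mul_of_nonneg_left hd1 (by positivity)
      _ = 8 * p * A * x ^ 2 := by ring
      _ ≤ 8 * p * A * x := mul_le_mul_of_nonneg_left hsq hpA
  have hB : p / 2 * x ^ 2 ≤ p * x := by
    calc p / 2 * x ^ 2 ≤ p / 2 * x := mul_le_mul_of_nonneg_left hsq (by positivity)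
      _ ≤ p * x := by nlinarith
  have hE : (1 / 2 + p + 2 + 8 * p * A) * (x + m2)
      = (1 / 2) * x + p * x + 2 * x + 8 * p * A * x + (1 / 2 + p + 8 * p * A) * m2 + 2 * m2 := by ring
  have hF : 0 ≤ (1 / 2 + p + 8 * p * A) * m2 := by positivity
  rw [hE, abs_le]
  constructor <;> linarith

theorem link_v0raw : ∃ Cv : ℝ, 0 ≤ Cv ∧ ∀ G : Geom, G.bc = BC.per → ∀ c : Grid G, Whole c → c.m * 4 ≤ G.M →
    |Rdo.v0raw (8 * Real.pi) c - 1 / Real.pi| ≤ Cv * (snr c + 1 / (G.M : ℝ) ^ 2) := by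
  obtain ⟨C, hC⟩ := Rdo.rdo_hvar
  refine ⟨1 / 2 + Real.pi + 2 + 8 * Real.pi * |C|, by positivity, fun G hG c hc h4 => ?_⟩
  have hsN : 1 ≤ c.m := hc.pos
  have hM : G.M = c.n * c.m := whole_card hc
  have hN : 3 ≤ c.n := by
    by_contra hlt
    have h1 : c.n ≤ 2 := by omega
    have h2 : c.n * c.m ≤ 2 * c.m := Nat.mul_le_mul_right _ h1
    omega
  have hnN : 3 ≤ G.M := by omega
  obtain ⟨hf, hd0, hd1⟩ := hC G hG c hc hN
  obtain ⟨he0, he1⟩ := Rdo.rdo_cosCost G.M hnN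
  obtain ⟨hβ0, hβ1, hβ2⟩ := beta_bounds G.M c.m hsN h4
  have eβ : Rdo.beta G.M c.m = beta G.M c.m := rfl
  have es : Rdo.snr c = snr c := rfl
  rw [eβ] at hd0 hd1
  rw [es] at hf hd1
  have hsnr : snr c = (c.m : ℝ) / G.M := rfl
  rw [← hsnr] at hβ2
  have hn0 : (0 : ℝ) < G.M := by exact_mod_cast G.hM
  have h4R : (c.m : ℝ) * 4 ≤ G.M := by exact_mod_cast h4
  have hsnr0 : 0 ≤ snr c := by rw [hsnr]; positivity
  have hsnr1 : snr c ≤ 1 / 4 := by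
    rw [hsnr, div_le_iff₀ hn0]; linarith
  have hsq : snr c ^ 2 ≤ snr c := by nlinarith
  set β := beta G.M c.m with hβ
  set δ := Rdo.hvar c / β ^ 2 - 1 / (8 * (G.M : ℝ) ^ 2 * Real.sin (Real.pi / G.M) ^ 2) with hδ
  set e1 := Real.pi / ((G.M : ℝ) ^ 2 * Real.sin (Real.pi / G.M) ^ 2) - 1 / Real.pi with he
  have hβp : 0 < β := by linarith
  have hpi := Real.pi_pos
  have hsin : Real.sin (Real.pi / G.M) ≠ 0 := by
    have h1 : 0 < Real.pi / G.M := by positivity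
    have h2 : Real.pi / G.M < Real.pi := by
      rw [div_lt_iff₀ hn0]
      have : (3 : ℝ) ≤ G.M := by exact_mod_cast hnN
      nlinarith
    exact (Real.sin_pos_of_pos_of_lt_pi h1 h2).ne'
  have key : Rdo.v0raw (8 * Real.pi) c - 1 / Real.pi
      = snr c ^ 2 / 2 - (1 - β ^ 2) / Real.pi + β ^ 2 * (e1 + 8 * Real.pi * δ) := by
    unfold Rdo.v0raw
    rw [hf, hδ, he]
    field_simp
    ring
  have hδC : δ ≤ |C| * snr c ^ 2 := hd1.trans (mul_le_mul_of_nonneg_right (le_abs_self C) (sq_nonneg _))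
  have e2 : 2 / (G.M : ℝ) ^ 2 = 2 * (1 / (G.M : ℝ) ^ 2) := by ring
  rw [e2] at he1
  rw [key]
  exact link_num hpi hsnr0 hsnr1 hβ0 hβ1 hβ2 he0 he1 hd0 hδC (abs_nonneg C) (by positivity)

end

end Claimed.Agent.R285.Cut
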