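import Claimed.Agent.R285.Cut.Tor

/-!
# ROW 285, post BP-E3-CUTGRID (architect helper167), file 4: THE PHYSICAL TORUS  ([E] L3.5 = lem:grid-comparison; [F] end of the proof of L5.4).

`n = G.M`, `s = c.m`, `S = tS n`, `tSb n b = S.atb b`.  Tests: `Hn n = physT (n⁻² cos (2π v₁/n))` (`torVar b n = V0 (Hn n)`), `Mn n = physT (n⁻²)` (`torPhase b n = phi (Mn n)`).
**`alias_split`**: `row (fX c) = β Hn + flowS tR`, `∑ tR² ≤ Ca (s/n)⁴`, `Cov_b (Hn, flowS tR) = 0` for all `b > 0`.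
REPAIR of the paper's proof: no Fourier analysis of `A⁺`.  `B^* f = n⁻² β⁻¹ Π q` (`Π` = cell average, `q` = first cosine) `= β n⁻² q + [(β⁻¹ - β) n⁻² q + n⁻² β⁻¹ (Π q - q)]`.
 * `Π q - q` has zero sum on every cell and is `O(s/n)`: its partial sums along a row are a flow of size `O(s²/n)` (`alias_flow`);   * `(β⁻¹ - β) = O((s/n)²)` and `n⁻² q` has the flow `E2.torω` of bounded cost;
 * orthogonality: the covariance is invariant under the unit translation (`tinv`, a relabelling `Free.SIso`), `P = (2/n) ∑_m cos (2π m/n) T^m` fixes `q` and kills everything orthogonal to the first cosine and sine (`proj_alg`).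

## Leaves (every `sorry`; the name is in the docstring; several leaves share this file: edit only your own theorems, helpers directly above them, splice on a fresh pull)
-/

set_option autoImplicit false

namespace Claimed.Agent.R285.Cut

open scoped BigOperators
open Claimed.Agent.R285 Claimed.Agent.R285.RG Claimed.Agent.R285.F4a Claimed.Agent.R285.E2 Claimed.Agent.R285.C2
open Claimed.Agent.R285.Free

noncomputable section

/-! ## 1. Tests on the torus -/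

/-- the torus system at the temperature `b` -/
abbrev tSb (n : ℕ) [NeZero n] (b : ℝ) : LSys := (tS n).atb fun _ => b

theorem tSb_ok (n : ℕ) [NeZero n] (b : ℝ) (hb : 0 < b) : (tSb n b).Ok :=
  e2_ok_atb _ (sysP_ok _ _) b hb

/-- vertex tests -/
abbrev pT (n : ℕ) [NeZero n] (f : (torus n).V → ℝ) : (tS n).L →+ ℝ := physT (e2_torus_proper n) f

theorem pT_apply (n : ℕ) [NeZero n] (f : (torus n).V → ℝ) (z : (tS n).L) :
    pT n f z = ∑ v, f v * (2 * Real.pi * (hInt n z v : ℝ)) := rfl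

theorem pT_add (n : ℕ) [NeZero n] (f g : (torus n).V → ℝ) : pT n (fun v => f v + g v) = pT n f + pT n g := by
  ext z
  simp only [pT_apply, AddMonoidHom.add_apply, add_mul, Finset.sum_add_distrib]

theorem pT_smul (n : ℕ) [NeZero n] (a : ℝ) (f : (torus n).V → ℝ) : pT n (fun v => a * f v) = a • pT n f := by
  ext z
  simp only [pT_apply, AddMonoidHom.smul_apply, smul_eq_mul, Finset.mul_sum, mul_assoc]

/-- the coefficients of `H_n` -/
def qv (n : ℕ) [NeZero n] (v : (torus n).V) : ℝ := (n : ℝ)⁻¹ ^ 2 * cs1 n v.1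

/-- `H_n` -/
def Hn (n : ℕ) [NeZero n] : (tS n).L →+ ℝ := pT n (qv n)

/-- the mean height -/
def Mn (n : ℕ) [NeZero n] : (tS n).L →+ ℝ := pT n fun _ => (n : ℝ)⁻¹ ^ 2

/-- the mixed physical diagnostic (`= Flow.torMix`, by `rfl`; copied so that this package does not import `Base/Flow.lean`) -/
def tMix (b : ℝ) (n : ℕ) (w : ℝ) : ℝ :=
  if hn : n = 0 then 0 else
    haveI : NeZero n := ⟨hn⟩
    (torus n).Ex b {((0 : ZMod n), (0 : ZMod n))} (fun h =>
      Real.cos ((n : ℝ)⁻¹ ^ 2 * ∑ v : ZMod n × ZMod n, h v) *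
        Real.exp (w * ((n : ℝ)⁻¹ ^ 2 * ∑ v : ZMod n × ZMod n, h v * Real.cos (2 * Real.pi * (v.1.val : ℝ) / n))))
      - torPhase b n * Real.exp (w ^ 2 / (2 * Real.pi))

theorem torVar_eq (n : ℕ) [NeZero n] (b : ℝ) : torVar b n = (tSb n b).V0 (Hn n) := by
  rw [e2_torVar_eq, e2_Vr_eq (e2_torus_proper n)]
  rfl

theorem torPhase_eq (n : ℕ) [NeZero n] (b : ℝ) : torPhase b n = (tSb n b).phi (Mn n) := by
  rw [e2_torPhase_eq, e2_Ex_cos_eq (e2_torus_proper n)]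
  rfl

theorem zs_eq2 {G : HGraph} {P : Set G.V} (hP : (HLaw.plain G P).Proper) (f g : G.V → ℝ) (Φ : ℝ → ℝ → ℝ) (b : ℝ) :
    G.Zs b P 0 0 (fun h => Φ (∑ v, f v * h v) (∑ v, g v * h v))
      = Zu (sysP G P) b 0 fun z => Φ (physT hP f z) (physT hP g z) := by
  rw [hgraph_Zs_eq]
  have h := Rsd.hlaw_Z_eq_Zf (HLaw.plain G P) hP b ⟨0, 0, fun o => o.elim⟩
    (fun h => Φ (∑ v, f v * h v) (∑ v, g v * h v))
    (fun z => Φ (physT hP f z) (physT hP g z)) (fun h => by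
      have h1 := physT_apply hP f h
      have h2 := physT_apply hP g h
      simp only [Pi.zero_apply, add_zero]
      exact congrArg₂ Φ h1.symm h2.symm)
  rw [h]
  have e0 : HLaw.Aff.amb (H := HLaw.plain G P) ⟨0, 0, fun o => o.elim⟩ b = 0 := by
    refine Prod.ext ?_ (funext fun o => (o : Empty).elim)
    funext e
    show ((HLaw.plain G P).coord 0).1 e + 0 = 0
    rw [map_zero]
    rfl
  rw [e0]
  rfl

/-- L-CUT-P0.  Copy the proof of `E2.e2_Zs_eq` (`hgraph_Zs_eq`, `hlaw_Z_eq_Zf` with a GENERAL function of the height) to get `G.Zs b P 0 0 F = Zu (sysP G P) b 0 fun z => F (fun v => 2π h_z v)`; then `HGraph.Ex`, `rd_E0_eq` (`E0 = Zf 0 / w 0`, `Zu = Zf` by `rfl`);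
`dif_neg (NeZero.ne n)`; rearrange the sums (`Finset.mul_sum`, `mul_comm`) into `pT_apply`. -/
theorem tMix_eq (n : ℕ) [NeZero n] (b w : ℝ) :
    tMix b n w = (tSb n b).E0 (fun z => Real.cos (Mn n z) * Real.exp (w * Hn n z))
      - torPhase b n * Real.exp (w ^ 2 / (2 * Real.pi)) := by
  rw [tMix, dif_neg (NeZero.ne n)]
  congr 1
  have e1 : (fun h : (torus n).V → ℝ => Real.cos ((n : ℝ)⁻¹ ^ 2 * ∑ v : ZMod n × ZMod n, h v) *
        Real.exp (w * ((n : ℝ)⁻¹ ^ 2 * ∑ v : ZMod n × ZMod n, h v * Real.cos (2 * Real.pi * (v.1.val : ℝ) / n))))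
      = fun h => (fun x y => Real.cos x * Real.exp (w * y)) (∑ v : (torus n).V, ((n : ℝ)⁻¹ ^ 2) * h v)
          (∑ v : (torus n).V, qv n v * h v) := by
    funext h
    show _ = Real.cos (∑ v : (torus n).V, ((n : ℝ)⁻¹ ^ 2) * h v) * Real.exp (w * ∑ v : (torus n).V, qv n v * h v)
    congr 3
    · exact Finset.mul_sum (Finset.univ : Finset (torus n).V) (fun v => h v) ((n : ℝ)⁻¹ ^ 2)
    · rw [Finset.mul_sum]
      refine Finset.sum_congr rfl fun v _ => ?_
      unfold qv cs1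
      ring
  unfold HGraph.Ex
  rw [e1]
  have a1 := zs_eq2 (e2_torus_proper n) (fun _ => (n : ℝ)⁻¹ ^ 2) (qv n) (fun x y => Real.cos x * Real.exp (w * y)) b
  have a2 := e2_Zs_one (e2_torus_proper n) b
  refine (congrArg₂ (· / ·) a1 a2).trans ?_
  exact (rd_E0_eq (S := tSb n b) fun z => Real.cos (Mn n z) * Real.exp (w * Hn n z)).symm

/-- the flow of `H_n` -/
theorem Hn_flow (n : ℕ) [NeZero n] (hn : 2 ≤ n) : Hn n = flowS (tS n) (torω n) := by
  ext z
  exact e2_physT_flow (e2_torus_proper n) (qv n) (torω n) (fun h _ => e2_tor_flow n hn h) z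

theorem torω_cost (n : ℕ) [NeZero n] (hn : 3 ≤ n) : ∑ e, torω n e ^ 2 ≤ Real.pi ^ 2 / 8 := by
  rw [e2_tor_cost n hn]
  have := e2_cost_le n (by omega)
  nlinarith [Real.pi_pos, sq_nonneg Real.pi]

/-! ## 2. The numbers `β`, `s/n`, `N_c` -/

theorem bb_sin_nat_mul_le (t : ℕ) (θ : ℝ) : |Real.sin (t * θ)| ≤ t * |Real.sin θ| := by
  induction t with
  | zero => simp
  | succ t ih =>
    have e : ((t + 1 : ℕ) : ℝ) * θ = (t : ℝ) * θ + θ := by push_cast; ring
    rw [e, Real.sin_add]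
    have h1 := abs_add_le (Real.sin (t * θ) * Real.cos θ) (Real.cos (t * θ) * Real.sin θ)
    rw [abs_mul, abs_mul] at h1
    have h2 : |Real.sin (t * θ)| * |Real.cos θ| ≤ |Real.sin (t * θ)| :=
      mul_le_of_le_one_right (abs_nonneg _) (Real.abs_cos_le_one _)
    have h3 : |Real.cos (t * θ)| * |Real.sin θ| ≤ |Real.sin θ| :=
      mul_le_of_le_one_left (abs_nonneg _) (Real.abs_cos_le_one _)
    push_cast
    linarith

/-- L-CUT-B1.  `φ = π/n`, `x = s φ = π s/n ≤ π/4 < 1`.  Upper bound: `sin (s φ) ≤ s sin φ` (induction on `s`: `sin ((k+1) φ) = sin (kφ) cos φ + cos (kφ) sin φ ≤ |sin (kφ)| + sin φ`; or `Ker.ker_sin_nat_mul_le` in `R285/Ker/Qb.lean`), `sin φ > 0`.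
Lower bound: `x - x³/4 < sin x` (`Real.sin_gt_sub_cube`, `0 < x ≤ 1`), `s sin φ ≤ s φ = x` (`Real.sin_le`), so `β ≥ 1 - x²/4`, `x² = π² (s/n)²`; `π²/64 ≤ 1/2` (`Real.pi_lt_four`). -/
theorem beta_bounds (n s : ℕ) (hs : 1 ≤ s) (h : s * 4 ≤ n) :
    1 / 2 ≤ beta n s ∧ beta n s ≤ 1 ∧ 1 - beta n s ≤ Real.pi ^ 2 / 4 * ((s : ℝ) / n) ^ 2 := by
  have hs0 : (0 : ℝ) < (s : ℝ) := by exact_mod_cast hs
  have hn0 : (0 : ℝ) < (n : ℝ) := by exact_mod_cast (by omega : 0 < n)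
  have h4 : (s : ℝ) * 4 ≤ (n : ℝ) := by exact_mod_cast h
  have hn4 : (4 : ℝ) ≤ (n : ℝ) := by
    have : (1 : ℝ) ≤ (s : ℝ) := by exact_mod_cast hs
    linarith
  have hpi := Real.pi_pos
  have hpi4 := Real.pi_lt_four
  set φ : ℝ := Real.pi / n with hφ
  have hφ0 : 0 < φ := by positivity
  have hr : (s : ℝ) / n ≤ 1 / 4 := by
    rw [div_le_iff₀ hn0]
    linarith
  have hr0 : 0 < (s : ℝ) / n := by positivity
  have hx : Real.pi * s / n = (s : ℝ) * φ := by
    rw [hφ]; ring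
  have hx' : (s : ℝ) * φ = Real.pi * ((s : ℝ) / n) := by
    rw [hφ]; ring
  have hx0 : 0 < (s : ℝ) * φ := by positivity
  have hx1 : (s : ℝ) * φ ≤ 1 := by
    rw [hx']
    nlinarith
  have hφpi : φ < Real.pi := by
    rw [hφ, div_lt_iff₀ hn0]
    nlinarith
  have hsφ : 0 < Real.sin φ := Real.sin_pos_of_pos_of_lt_pi hφ0 hφpi
  have hden : 0 < (s : ℝ) * Real.sin φ := by positivity
  have hup : Real.sin ((s : ℝ) * φ) ≤ (s : ℝ) * Real.sin φ := by
    have := bb_sin_nat_mul_le s φ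
    rw [abs_of_pos hsφ] at this
    exact (le_abs_self _).trans this
  have hlow : (s : ℝ) * φ - ((s : ℝ) * φ) ^ 3 / 4 < Real.sin ((s : ℝ) * φ) := by
    have := Real.sin_gt_sub_cube hx0
    have h3 : 0 < ((s : ℝ) * φ) ^ 3 := by positivity
    linarith
  have hle : (s : ℝ) * Real.sin φ ≤ (s : ℝ) * φ := mul_le_mul_of_nonneg_left (Real.sin_le hφ0.le) hs0.le
  have hβ : beta n s = Real.sin ((s : ℝ) * φ) / ((s : ℝ) * Real.sin φ) := by
    unfold beta
    rw [hx]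
  have h3 : 1 - beta n s ≤ Real.pi ^ 2 / 4 * ((s : ℝ) / n) ^ 2 := by
    have e : Real.pi ^ 2 / 4 * ((s : ℝ) / n) ^ 2 = ((s : ℝ) * φ) ^ 2 / 4 := by
      rw [hx']; ring
    rw [e, hβ, sub_le_comm, le_div_iff₀ hden]
    have hq : 0 ≤ 1 - ((s : ℝ) * φ) ^ 2 / 4 := by nlinarith
    calc (1 - ((s : ℝ) * φ) ^ 2 / 4) * ((s : ℝ) * Real.sin φ) ≤ (1 - ((s : ℝ) * φ) ^ 2 / 4) * ((s : ℝ) * φ) :=
          mul_le_mul_of_nonneg_left hle hq
      _ = (s : ℝ) * φ - ((s : ℝ) * φ) ^ 3 / 4 := by ring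
      _ ≤ _ := hlow.le
  refine ⟨?_, ?_, h3⟩
  · have : Real.pi ^ 2 / 4 * ((s : ℝ) / n) ^ 2 ≤ 1 / 2 := by
      have a1 : ((s : ℝ) / n) ^ 2 ≤ 1 / 16 := by nlinarith
      have a2 : Real.pi ^ 2 ≤ 16 := by nlinarith
      nlinarith [sq_nonneg ((s : ℝ) / n), sq_nonneg Real.pi]
    linarith
  · rw [hβ, div_le_one hden]
    exact hup

variable {G : Geom}

/-- L-CUT-B2.  `Fintype.card (Fin c.n × Fin c.n) = c.n²`, `whole_card : G.M = c.n * c.m`; `field_simp`. -/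
theorem card_I {c : Grid G} (hc : Whole c) : (1 : ℝ) / (Fintype.card c.I : ℝ) = snr c ^ 2 := by
  have h1 : Fintype.card c.I = c.n * c.n := by
    show Fintype.card (Fin c.n × Fin c.n) = _
    rw [Fintype.card_prod, Fintype.card_fin]
  have hm : (0 : ℝ) < (c.m : ℝ) := by exact_mod_cast hc.pos
  have hn : (0 : ℝ) < (c.n : ℝ) := by
    have := hc.two
    exact_mod_cast (by omega : 0 < c.n)
  unfold snr
  rw [h1, whole_card hc]
  push_cast
  field_simp

/-- L-CUT-B2.  `card (Face c) = 2 c.n² ≤ 2 M²` (`whole_card`, `hc.pos`). -/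
theorem card_faces {c : Grid G} (hc : Whole c) : (Fintype.card (Face c) : ℝ) ≤ 2 * (G.M : ℝ) ^ 2 := by
  have h1 : Fintype.card (Face c) = c.n * c.n * 2 := by
    show Fintype.card ((Fin c.n × Fin c.n) × Bool) = _
    rw [Fintype.card_prod, Fintype.card_prod, Fintype.card_fin, Fintype.card_bool]
  have h2 : c.n ≤ G.M := by
    rw [whole_card hc]
    exact Nat.le_mul_of_pos_right _ hc.pos
  have h3 : (c.n : ℝ) ≤ (G.M : ℝ) := by exact_mod_cast h2
  rw [h1]
  push_cast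
  nlinarith [(Nat.cast_nonneg c.n : (0 : ℝ) ≤ (c.n : ℝ))]

/-- the cell average of the first cosine, as a function on the vertices of `torus n` -/
def aC (c : Grid G) (v : (torus G.M).V) : ℝ := avg c (cs G) (c.blk (vE G v))

/-- L-CUT-B2.  Unfold `Bst`, `fX`, `snr`; `whole_sites_card : card = s²`; `(s/n)² / s² = n⁻²` (`hc.pos`, `field_simp`). -/
theorem Bst_fX {c : Grid G} (hc : Whole c) (v : (torus G.M).V) :
    Bst c (fX c) v = (G.M : ℝ)⁻¹ ^ 2 / beta G.M c.m * aC c v := by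
  have hm : (0 : ℝ) < (c.m : ℝ) := by exact_mod_cast hc.pos
  have hM : (0 : ℝ) < (G.M : ℝ) := by exact_mod_cast G.hM
  unfold Bst fX snr aC
  rw [whole_sites_card hc]
  push_cast
  by_cases hb : beta G.M c.m = 0
  · rw [hb]
    simp
  · field_simp

/-- L-CUT-B2.  `Bst c (1/N_c) v = (1/N_c)/s² = n⁻²` (`card_I`, `whole_sites_card`, `snr`). -/
theorem Bst_mean {c : Grid G} (hc : Whole c) (v : (torus G.M).V) :
    Bst c (fun _ => 1 / (Fintype.card c.I : ℝ)) v = (G.M : ℝ)⁻¹ ^ 2 := by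
  have hm : (0 : ℝ) < (c.m : ℝ) := by exact_mod_cast hc.pos
  have hM : (0 : ℝ) < (G.M : ℝ) := by exact_mod_cast G.hM
  unfold Bst
  rw [whole_sites_card hc, card_I hc]
  unfold snr
  push_cast
  field_simp

theorem avg_cs_abs_le {c : Grid G} (hc : Whole c) (Q : c.I) : |avg c (cs G) Q| ≤ 1 := by
  have hm : (0 : ℝ) < (c.m : ℝ) := by exact_mod_cast hc.pos
  show |(∑ v ∈ c.sites {Q}, cs G v) / ((c.sites {Q}).card : ℝ)| ≤ 1
  have hcard : (0 : ℝ) < ((c.sites {Q}).card : ℝ) := by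
    rw [whole_sites_card hc]
    push_cast
    positivity
  rw [abs_div, abs_of_pos hcard, div_le_one hcard]
  calc |∑ v ∈ c.sites {Q}, cs G v| ≤ ∑ v ∈ c.sites {Q}, |cs G v| := Finset.abs_sum_le_sum_abs _ _
    _ ≤ ∑ v ∈ c.sites {Q}, (1 : ℝ) := Finset.sum_le_sum fun v _ => Real.abs_cos_le_one _
    _ = _ := by rw [Finset.sum_const, nsmul_eq_mul, mul_one]

/-- L-CUT-B3.  `|avg c (cs G) Q| ≤ 1` (average of cosines over `s² > 0` sites: `Finset.abs_sum_le_sum_abs`, `whole_sites_card`), `β ≥ 1/2`: `fX² ≤ 4 (s/n)⁴`; `card c.I = (n/s)²` (`card_I`). -/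
theorem nf2_le {c : Grid G} (hc : Whole c) (h : c.m * 4 ≤ G.M) : nf2 c ≤ 4 * snr c ^ 2 := by
  obtain ⟨hβ, -, -⟩ := beta_bounds G.M c.m hc.pos h
  have hβp : 0 < beta G.M c.m := by linarith
  have hcI := card_I hc
  have hn : 0 < c.n := by have := hc.two; omega
  have hcard : (0 : ℝ) < (Fintype.card c.I : ℝ) := by
    have : Fintype.card c.I = c.n * c.n := by
      show Fintype.card (Fin c.n × Fin c.n) = _
      rw [Fintype.card_prod, Fintype.card_fin]
    rw [this]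
    exact_mod_cast Nat.mul_pos hn hn
  have h1 : ∀ Q, fX c Q ^ 2 ≤ 4 * snr c ^ 4 := by
    intro Q
    have ha := avg_cs_abs_le hc Q
    have ha2 : avg c (cs G) Q ^ 2 ≤ 1 := by
      rw [← sq_abs]
      exact pow_le_one₀ (abs_nonneg _) ha
    have hinv : (beta G.M c.m)⁻¹ ≤ 2 := by
      rw [inv_le_comm₀ hβp (by norm_num)]
      linarith
    have hinv2 : (beta G.M c.m)⁻¹ ^ 2 ≤ 4 := by nlinarith [inv_pos.2 hβp]
    have e : fX c Q ^ 2 = snr c ^ 4 * ((beta G.M c.m)⁻¹ ^ 2 * avg c (cs G) Q ^ 2) := by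
      unfold fX
      rw [div_eq_mul_inv]
      ring
    rw [e]
    have : (beta G.M c.m)⁻¹ ^ 2 * avg c (cs G) Q ^ 2 ≤ 4 * 1 :=
      mul_le_mul hinv2 ha2 (sq_nonneg _) (by norm_num)
    nlinarith [pow_nonneg (sq_nonneg (snr c)) 2, sq_nonneg (snr c ^ 2)]
  unfold nf2
  calc ∑ Q, fX c Q ^ 2 ≤ ∑ _Q : c.I, 4 * snr c ^ 4 := Finset.sum_le_sum fun Q _ => h1 Q
    _ = (Fintype.card c.I : ℝ) * (4 * snr c ^ 4) := by rw [Finset.sum_const, Finset.card_univ, nsmul_eq_mul]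
    _ = 4 * snr c ^ 2 * ((Fintype.card c.I : ℝ) * snr c ^ 2) := by ring
    _ = 4 * snr c ^ 2 := by
        rw [← hcI]
        field_simp

theorem sum_avg {c : Grid G} (hc : Whole c) (φ : G.V → ℝ) : ∑ Q, avg c φ Q = (∑ x, φ x) / (c.m : ℝ) ^ 2 := by
  rw [← Finset.sum_fiberwise Finset.univ c.blk, Finset.sum_div]
  refine Finset.sum_congr rfl fun Q _ => ?_
  show (∑ v ∈ c.sites {Q}, φ v) / ((c.sites {Q}).card : ℝ) = _
  rw [whole_sites_card hc, sites_single]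
  push_cast
  rfl

theorem cs1_sum_zero (n : ℕ) [NeZero n] (hn : 2 ≤ n) : ∑ x, cs1 n x = 0 := by
  have h := e2_cs1_parts n fun _ => 1
  simp only [sub_self, mul_zero, Finset.sum_const_zero, mul_one] at h
  rcases mul_eq_zero.1 h.symm with h1 | h1
  · exact absurd h1 (e2_lam_pos n hn).ne'
  · exact h1

theorem sum_cs (G : Geom) (hM : 2 ≤ G.M) : ∑ x, cs G x = 0 := by
  have e : ∑ x : G.V, cs G x = ∑ y : Fin G.M, ∑ x : Fin G.M, cs G (x, y) := Fintype.sum_prod_type_right (f := cs G)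
  rw [e]
  refine Finset.sum_eq_zero fun y _ => ?_
  rw [← cs1_sum_zero G.M hM, ← Equiv.sum_comp (zf G.M)]
  rfl

/-- L-CUT-B3.  `∑_Q avg c φ Q = s⁻² ∑_x φ x` (fibres of `blk`, as in `row_eq`), `∑_{x : G.V} cos (2π x₁/n) = n ∑_{k < n} cos (2π k/n) = 0` for `n ≥ 2`
(e.g. from `E2.e2_cs1_parts n (fun _ => 1)`: `0 = λ ∑ cs1`, `E2.e2_lam_pos`; reindex `Fin n ≃ ZMod n` by `zf`). -/
theorem sum_fX {c : Grid G} (hc : Whole c) : ∑ Q, fX c Q = 0 := by
  have hM : 2 ≤ G.M := by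
    rw [whole_card hc]
    have h1 := hc.two
    have h2 := hc.pos
    nlinarith
  unfold fX
  rw [← Finset.mul_sum, sum_avg hc, sum_cs G hM]
  simp

/-! ## 3. The alias flow -/

/-- partial sums of a sequence with vanishing block sums vanish at the block ends -/
theorem alf_block_zero (s : ℕ) (r : ℕ → ℝ) (h0 : ∀ Q, ∑ i ∈ Finset.range s, r (s * Q + i) = 0) (Q : ℕ) :
    ∑ j ∈ Finset.range (s * Q), r j = 0 := by
  induction Q with
  | zero => simp
  | succ Q ih =>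
    rw [Nat.mul_succ, Finset.sum_range_add, ih, h0, add_zero]

theorem alf_partial_le (s : ℕ) (r : ℕ → ℝ) (B : ℝ) (hB : 0 ≤ B)
    (h0 : ∀ Q, ∑ i ∈ Finset.range s, r (s * Q + i) = 0) (h1 : ∀ j, |r j| ≤ B) (hs : 0 < s) (k : ℕ) :
    |∑ j ∈ Finset.range k, r j| ≤ s * B := by
  have e : k = s * (k / s) + k % s := (Nat.div_add_mod k s).symm
  rw [e, Finset.sum_range_add, alf_block_zero s r h0, zero_add]
  calc |∑ i ∈ Finset.range (k % s), r (s * (k / s) + i)| ≤ ∑ i ∈ Finset.range (k % s), |r (s * (k / s) + i)| :=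
        Finset.abs_sum_le_sum_abs _ _
    _ ≤ ∑ _i ∈ Finset.range (k % s), B := Finset.sum_le_sum fun i _ => h1 _
    _ = (k % s : ℕ) * B := by rw [Finset.sum_const, Finset.card_range, nsmul_eq_mul]
    _ ≤ s * B := by
        refine mul_le_mul_of_nonneg_right ?_ hB
        exact_mod_cast (Nat.mod_lt k hs).le

/-- cyclic summation by parts -/
theorem alf_parts (n : ℕ) [NeZero n] (r : ℕ → ℝ) (hn : ∑ j ∈ Finset.range n, r j = 0) (h : ZMod n → ℝ) :
    ∑ x : ZMod n, (∑ j ∈ Finset.range (x.val + 1), r j) * (h (x + 1) - h x) = -∑ x : ZMod n, r x.val * h x := by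
  have key : ∀ x : ZMod n, ∑ j ∈ Finset.range (x.val + 1), r j = ∑ j ∈ Finset.range (x + 1).val, r j := by
    intro x
    have hv : (x + 1).val = (x.val + 1) % n := by
      rw [ZMod.val_add, ZMod.val_one_eq_one_mod, Nat.add_mod_mod]
    have hlt := ZMod.val_lt x
    rcases Nat.lt_or_ge (x.val + 1) n with h1 | h1
    · rw [hv, Nat.mod_eq_of_lt h1]
    · have h2 : x.val + 1 = n := by omega
      rw [hv, h2, Nat.mod_self, hn]
      simp
  have e1 : ∑ x : ZMod n, (∑ j ∈ Finset.range (x + 1).val, r j) * h (x + 1)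
      = ∑ x : ZMod n, (∑ j ∈ Finset.range x.val, r j) * h x :=
    Equiv.sum_comp (Equiv.addRight (1 : ZMod n)) fun x => (∑ j ∈ Finset.range x.val, r j) * h x
  calc ∑ x : ZMod n, (∑ j ∈ Finset.range (x.val + 1), r j) * (h (x + 1) - h x)
      = ∑ x : ZMod n, (∑ j ∈ Finset.range (x + 1).val, r j) * h (x + 1)
          - ∑ x : ZMod n, (∑ j ∈ Finset.range (x.val + 1), r j) * h x := by
        rw [← Finset.sum_sub_distrib]
        refine Finset.sum_congr rfl fun x _ => ?_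
        rw [← key x]
        ring
    _ = -∑ x : ZMod n, r x.val * h x := by
        rw [e1, ← Finset.sum_sub_distrib, ← Finset.sum_neg_distrib]
        refine Finset.sum_congr rfl fun x _ => ?_
        rw [Finset.sum_range_succ]
        ring

/-- the interval average of the first cosine -/
def alA (n s Q : ℕ) : ℝ := (s : ℝ)⁻¹ * ∑ i ∈ Finset.range s, Real.cos (2 * Real.pi * ((s * Q + i : ℕ) : ℝ) / n)

/-- (interval average) - (first cosine) -/
def alR (n s j : ℕ) : ℝ := alA n s (j / s) - Real.cos (2 * Real.pi * (j : ℝ) / n)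

theorem alR_block (n s : ℕ) (hs : 0 < s) (Q : ℕ) : ∑ i ∈ Finset.range s, alR n s (s * Q + i) = 0 := by
  have hs' : (s : ℝ) ≠ 0 := by exact_mod_cast hs.ne'
  have e : ∀ i ∈ Finset.range s, alR n s (s * Q + i) = alA n s Q - Real.cos (2 * Real.pi * ((s * Q + i : ℕ) : ℝ) / n) := by
    intro i hi
    have hi' := Finset.mem_range.1 hi
    unfold alR
    rw [Nat.mul_add_div hs, Nat.div_eq_of_lt hi', add_zero]
  rw [Finset.sum_congr rfl e, Finset.sum_sub_distrib, Finset.sum_const, Finset.card_range, nsmul_eq_mul]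
  unfold alA
  rw [← mul_assoc, mul_inv_cancel₀ hs', one_mul, sub_self]

theorem alR_abs_le (n s : ℕ) (hs : 0 < s) (hn : 0 < n) (j : ℕ) : |alR n s j| ≤ 2 * Real.pi * s / n := by
  have hs0 : (0 : ℝ) < (s : ℝ) := by exact_mod_cast hs
  have hn0 : (0 : ℝ) < (n : ℝ) := by exact_mod_cast hn
  have e : alR n s j = (s : ℝ)⁻¹ * ∑ i ∈ Finset.range s,
      (Real.cos (2 * Real.pi * ((s * (j / s) + i : ℕ) : ℝ) / n) - Real.cos (2 * Real.pi * (j : ℝ) / n)) := by
    unfold alR alA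
    rw [Finset.sum_sub_distrib, Finset.sum_const, Finset.card_range, nsmul_eq_mul, mul_sub, ← mul_assoc,
      inv_mul_cancel₀ hs0.ne', one_mul]
  rw [e, abs_mul, abs_of_pos (inv_pos.2 hs0)]
  have h1 : ∀ i ∈ Finset.range s,
      |Real.cos (2 * Real.pi * ((s * (j / s) + i : ℕ) : ℝ) / n) - Real.cos (2 * Real.pi * (j : ℝ) / n)|
        ≤ 2 * Real.pi * s / n := by
    intro i hi
    have hi' := Finset.mem_range.1 hi
    refine (Real.abs_cos_sub_cos_le _ _).trans ?_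
    have e2 : 2 * Real.pi * ((s * (j / s) + i : ℕ) : ℝ) / n - 2 * Real.pi * (j : ℝ) / n
        = 2 * Real.pi / n * (((s * (j / s) + i : ℕ) : ℝ) - (j : ℝ)) := by ring
    rw [e2, abs_mul, abs_of_pos (by positivity : (0 : ℝ) < 2 * Real.pi / n)]
    have h3 : |((s * (j / s) + i : ℕ) : ℝ) - (j : ℝ)| ≤ (s : ℝ) := by
      have hj : j = s * (j / s) + j % s := (Nat.div_add_mod j s).symm
      have hm := Nat.mod_lt j hs
      have a1 : ((s * (j / s) + i : ℕ) : ℝ) ≤ (j : ℝ) + s := by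
        exact_mod_cast (by omega : s * (j / s) + i ≤ j + s)
      have a2 : (j : ℝ) ≤ ((s * (j / s) + i : ℕ) : ℝ) + s := by
        exact_mod_cast (by omega : j ≤ s * (j / s) + i + s)
      rw [abs_le]
      constructor <;> linarith
    calc 2 * Real.pi / n * |((s * (j / s) + i : ℕ) : ℝ) - (j : ℝ)| ≤ 2 * Real.pi / n * s :=
          mul_le_mul_of_nonneg_left h3 (by positivity)
      _ = _ := by ring
  calc (s : ℝ)⁻¹ * |∑ i ∈ Finset.range s,
      (Real.cos (2 * Real.pi * ((s * (j / s) + i : ℕ) : ℝ) / n) - Real.cos (2 * Real.pi * (j : ℝ) / n))|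
      ≤ (s : ℝ)⁻¹ * ∑ _i ∈ Finset.range s, (2 * Real.pi * s / n) :=
        mul_le_mul_of_nonneg_left ((Finset.abs_sum_le_sum_abs _ _).trans (Finset.sum_le_sum h1)) (inv_pos.2 hs0).le
    _ = 2 * Real.pi * s / n := by
        rw [Finset.sum_const, Finset.card_range, nsmul_eq_mul, ← mul_assoc, inv_mul_cancel₀ hs0.ne', one_mul]

theorem whole_row_sum {c : Grid G} (hc : Whole c) (Q : Fin c.n) (g : ℕ → ℝ) :
    ∑ i ∈ Finset.univ.filter (fun i : Fin G.M => c.blk1 i = Q), g i = ∑ i ∈ Finset.range c.m, g (c.m * Q + i) := by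
  have hs := hc.pos
  rw [Finset.sum_filter]
  have h1 : ∀ i : Fin G.M, (if c.blk1 i = Q then g i else 0) = (fun k : ℕ => if k / c.m = Q then g k else 0) i := by
    intro i
    refine if_congr ?_ rfl rfl
    rw [Fin.ext_iff, whole_blk1 hc i]
  rw [Finset.sum_congr rfl fun i _ => h1 i, Fin.sum_univ_eq_sum_range (fun k : ℕ => if k / c.m = Q then g k else 0) G.M,
    ← Finset.sum_filter]
  have h2 : (Finset.range G.M).filter (fun k => k / c.m = Q) = Finset.Ico (c.m * Q) (c.m * Q + c.m) := by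
    ext k
    rw [Finset.mem_filter, Finset.mem_range, Finset.mem_Ico, Nat.div_eq_iff hs]
    have hM : G.M = c.n * c.m := whole_card hc
    have hQ : c.m * ((Q : ℕ) + 1) ≤ G.M := by
      rw [hM, mul_comm]
      exact Nat.mul_le_mul_right _ Q.2
    rw [Nat.mul_succ] at hQ
    rw [mul_comm (Q : ℕ) c.m]
    generalize c.m * (Q : ℕ) = p at *
    omega
  rw [h2, Finset.sum_Ico_eq_sum_range, Nat.add_sub_cancel_left]

theorem aC_row {c : Grid G} (hc : Whole c) (v : (torus G.M).V) : aC c v = alA G.M c.m (v.1.val / c.m) := by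
  have hs0 : (0 : ℝ) < (c.m : ℝ) := by exact_mod_cast hc.pos
  obtain ⟨x, y⟩ := v
  show (∑ u ∈ c.sites {c.blk (vE G (x, y))}, cs G u) / ((c.sites {c.blk (vE G (x, y))}).card : ℝ) = _
  rw [whole_sites_card hc, sites_single]
  have hfil : (Finset.univ.filter fun u : G.V => c.blk u = c.blk (vE G (x, y)))
      = (Finset.univ.filter fun i : Fin G.M => c.blk1 i = c.blk1 (zf G.M x)) ×ˢ
        (Finset.univ.filter fun j : Fin G.M => c.blk1 j = c.blk1 (zf G.M y)) := by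
    ext u
    simp only [Finset.mem_filter, Finset.mem_univ, true_and, Finset.mem_product]
    exact Prod.ext_iff
  rw [hfil, Finset.sum_product]
  have h1 : ∀ i : Fin G.M, ∑ j ∈ Finset.univ.filter (fun j : Fin G.M => c.blk1 j = c.blk1 (zf G.M y)), cs G (i, j)
      = (c.m : ℝ) * (fun k : ℕ => Real.cos (2 * Real.pi * (k : ℝ) / G.M)) i := by
    intro i
    have : ∀ j : Fin G.M, cs G (i, j) = Real.cos (2 * Real.pi * ((i : ℕ) : ℝ) / G.M) := fun j => rfl
    simp only [this]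
    rw [Finset.sum_const, hc.size, nsmul_eq_mul]
  rw [Finset.sum_congr rfl fun i _ => h1 i, ← Finset.mul_sum,
    whole_row_sum hc (c.blk1 (zf G.M x)) (fun k : ℕ => Real.cos (2 * Real.pi * (k : ℝ) / G.M)), whole_blk1 hc]
  unfold alA
  show _ = (c.m : ℝ)⁻¹ * ∑ i ∈ Finset.range c.m, Real.cos (2 * Real.pi * ((c.m * (x.val / c.m) + i : ℕ) : ℝ) / G.M)
  have : ((zf G.M x : Fin G.M) : ℕ) = x.val := rfl
  rw [this]
  push_cast
  field_simp

theorem cut_phys_forced_al : True := by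
  have := @alA.eq_1
  have := @alR.eq_1
  trivial

/-- L-CUT-AL1.  **The flow of `Π q - q`.**  Only horizontal bonds: `t ((x, y), true) = -2π P (x.val + 1)`, `t (_, false) = 0`, `P k = ∑_{j < k} ρ j`, `ρ j = a_{j / s} - cos (2π j/n)`, `a_Q = s⁻¹ ∑_{i < s} cos (2π (s Q + i)/n)`
(`aC c v = a_{v.1.val / s}`: `whole_blk1`, the average over the square cell of a function of the first coordinate is the average over the interval).
(1) every block has zero sum, so `P (s Q + i) = ∑_{j < i} ρ (s Q + j)` (induction on `Q`), `P n = 0`;   (2) `|ρ j| ≤ 2π s/n` (`|cos a - cos b| ≤ |a - b|`), so `|P k| ≤ 2π s²/n` for `k ≤ n`;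
(3) cyclic summation by parts in every row (`Equiv.sum_comp (Equiv.addRight 1)`, as in `E2.e2_cs1_parts`): `∑_x P (x.val + 1) (h (x+1) - h x) = -∑_x ρ (x.val) h x` (at `x = n - 1`: `P n = 0 = P 0`);
(4) `z.1 e = h (tgt e) - h (src e)` (as in `E2.e2_physT_flow`; use it with `ω = t`);   (5) `∑_e t² ≤ n² (2π · 2π s²/n)² = 16 π⁴ s⁴`. -/
theorem alias_flow (hG : G.bc = BC.per) {c : Grid G} (hc : Whole c) : ∃ t : (tS G.M).E → ℝ,
    pT G.M (fun v => aC c v - cs1 G.M v.1) = flowS (tS G.M) t ∧ ∑ e, t e ^ 2 ≤ 16 * Real.pi ^ 4 * (c.m : ℝ) ^ 4 := by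
  have hs := hc.pos
  have hs0 : (0 : ℝ) < (c.m : ℝ) := by exact_mod_cast hs
  have hn0 : (0 : ℝ) < (G.M : ℝ) := by exact_mod_cast G.hM
  have hM : G.M = c.m * c.n := by rw [whole_card hc, mul_comm]
  set r : ℕ → ℝ := alR G.M c.m with hr
  have hb0 : ∀ Q, ∑ i ∈ Finset.range c.m, r (c.m * Q + i) = 0 := alR_block G.M c.m hs
  have hb1 : ∀ j, |r j| ≤ 2 * Real.pi * c.m / G.M := alR_abs_le G.M c.m hs G.hM
  have hPn : ∑ j ∈ Finset.range G.M, r j = 0 := by
    have := alf_block_zero c.m r hb0 c.n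
    rwa [← hM] at this
  have hP : ∀ k, |∑ j ∈ Finset.range k, r j| ≤ c.m * (2 * Real.pi * c.m / G.M) :=
    alf_partial_le c.m r _ (by positivity) hb0 hb1 hs
  have hf : ∀ v : (torus G.M).V, aC c v - cs1 G.M v.1 = r v.1.val := by
    intro v
    rw [aC_row hc]
    rfl
  let t : (ZMod G.M × ZMod G.M) × Bool → ℝ := fun e =>
    if e.2 then -(2 * Real.pi * ∑ j ∈ Finset.range (e.1.1.val + 1), r j) else 0
  refine ⟨t, ?_, ?_⟩
  · ext z
    refine e2_physT_flow (e2_torus_proper G.M) _ t (fun h _ => ?_) z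
    have hR : ∑ e : (torus G.M).E, t e * ((h ((torus G.M).tgt e) - h ((torus G.M).src e) : ℤ) : ℝ) =
        ∑ e : (ZMod G.M × ZMod G.M) × Bool,
          t e * ((h ((torus G.M).tgt e) : ℝ) - (h ((torus G.M).src e) : ℝ)) := by
      refine Finset.sum_congr rfl fun e _ => ?_
      push_cast
      rfl
    have hLs : ∑ v : (torus G.M).V, (aC c v - cs1 G.M v.1) * (2 * Real.pi * (h v : ℝ)) =
        ∑ v : ZMod G.M × ZMod G.M, r v.1.val * (2 * Real.pi * (h v : ℝ)) :=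
      Finset.sum_congr rfl fun v _ => by rw [hf v]
    rw [hR, hLs]
    symm
    rw [Fintype.sum_prod_type]
    have hF : ∀ v : ZMod G.M × ZMod G.M, t (v, false) = 0 := fun v => rfl
    have hT : ∀ v : ZMod G.M × ZMod G.M, t (v, true) *
        ((h ((torus G.M).tgt (v, true)) : ℝ) - (h ((torus G.M).src (v, true)) : ℝ)) =
        -(2 * Real.pi) * ((∑ j ∈ Finset.range (v.1.val + 1), r j) * ((h (v.1 + 1, v.2) : ℝ) - (h (v.1, v.2) : ℝ))) := by
      intro v
      show -(2 * Real.pi * ∑ j ∈ Finset.range (v.1.val + 1), r j) * ((h (v.1 + 1, v.2) : ℝ) - (h (v.1, v.2) : ℝ)) = _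
      ring
    simp only [Fintype.sum_bool, hF, zero_mul, add_zero]
    rw [Finset.sum_congr rfl fun v _ => hT v, ← Finset.mul_sum, Fintype.sum_prod_type_right,
      Finset.sum_congr rfl fun y _ => alf_parts G.M r hPn (fun x => (h (x, y) : ℝ)),
      Fintype.sum_prod_type_right (f := fun v : ZMod G.M × ZMod G.M => r v.1.val * (2 * Real.pi * (h v : ℝ))),
      Finset.mul_sum]
    refine Finset.sum_congr rfl fun y _ => ?_
    rw [mul_neg, neg_mul, neg_neg, Finset.mul_sum]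
    refine Finset.sum_congr rfl fun x _ => ?_
    ring
  · have hR : ∑ e : (tS G.M).E, t e ^ 2 = ∑ e : (ZMod G.M × ZMod G.M) × Bool, t e ^ 2 := rfl
    rw [hR]
    have h1 : ∀ e : (ZMod G.M × ZMod G.M) × Bool, t e ^ 2
        ≤ if e.2 then (2 * Real.pi * (c.m * (2 * Real.pi * c.m / G.M))) ^ 2 else 0 := by
      rintro ⟨v, d⟩
      cases d
      · show (0 : ℝ) ^ 2 ≤ 0
        norm_num
      · show (-(2 * Real.pi * ∑ j ∈ Finset.range (v.1.val + 1), r j)) ^ 2 ≤ (2 * Real.pi * (c.m * (2 * Real.pi * c.m / G.M))) ^ 2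
        rw [neg_sq, ← sq_abs (2 * Real.pi * ∑ j ∈ Finset.range (v.1.val + 1), r j)]
        refine pow_le_pow_left₀ (abs_nonneg _) ?_ 2
        rw [abs_mul, abs_of_pos (by positivity : (0 : ℝ) < 2 * Real.pi)]
        exact mul_le_mul_of_nonneg_left (hP _) (by positivity)
    refine (Finset.sum_le_sum fun e _ => h1 e).trans ?_
    rw [Fintype.sum_prod_type]
    simp only [Fintype.sum_bool, if_true, Bool.false_eq_true, if_false, add_zero]
    rw [Finset.sum_const, Finset.card_univ, Fintype.card_prod, ZMod.card, nsmul_eq_mul]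
    push_cast
    apply le_of_eq
    field_simp
    ring

/-! ## 4. Orthogonality -/

/-- the first sine on `ZMod n` -/
def sn1 (n : ℕ) (x : ZMod n) : ℝ := Real.sin (2 * Real.pi * (x.val : ℝ) / n)

/-- the unit translation -/
def tau (n : ℕ) [NeZero n] (v : (torus n).V) : (torus n).V := (v.1 + 1, v.2)

/-- the covariance of two vertex tests -/
def cvB (n : ℕ) [NeZero n] (b : ℝ) (f g : (torus n).V → ℝ) : ℝ := (tSb n b).E0 fun z => pT n f z * pT n g z

/-- the translated height, re-pinned -/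
def ctiH (n : ℕ) [NeZero n] (a : ZMod n) (h : (torus n).V → ℤ) : (torus n).V → ℤ :=
  fun v => h (v.1 + a, v.2) - h (0 + a, 0)

theorem cti_pinned (n : ℕ) [NeZero n] (a : ZMod n) (h : (torus n).V → ℤ) :
    ctiH n a h ∈ (HLaw.plain (torus n) {((0 : ZMod n), (0 : ZMod n))}).Λ := by
  intro v hv
  have hv' : v = ((0 : ZMod n), (0 : ZMod n)) := hv
  subst hv'
  exact sub_self _

theorem cti_coord (n : ℕ) [NeZero n] (a : ZMod n) (h : (torus n).V → ℤ) (e : (torus n).E) :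
    ((HLaw.plain (torus n) {((0 : ZMod n), (0 : ZMod n))}).coord (ctiH n a h)).1 e
      = ((HLaw.plain (torus n) {((0 : ZMod n), (0 : ZMod n))}).coord h).1 ((e.1.1 + a, e.1.2), e.2) := by
  obtain ⟨⟨x, y⟩, d⟩ := e
  show ctiH n a h ((torus n).tgt ((x, y), d)) - ctiH n a h ((torus n).src ((x, y), d))
    = h ((torus n).tgt ((x + a, y), d)) - h ((torus n).src ((x + a, y), d))
  cases d
  · show (h (x + a, y + 1) - h (0 + a, 0)) - (h (x + a, y) - h (0 + a, 0)) = h (x + a, y + 1) - h (x + a, y)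
    ring
  · show (h (x + 1 + a, y) - h (0 + a, 0)) - (h (x + a, y) - h (0 + a, 0)) = h (x + a + 1, y) - h (x + a, y)
    rw [add_right_comm x 1 a]
    ring

theorem cti_shift_mem (n : ℕ) [NeZero n] (a : ZMod n) (z : (tS n).Amb) (hz : z ∈ (tS n).L) :
    ((fun e => z.1 ((e.1.1 + a, e.1.2), e.2), z.2) : (tS n).Amb) ∈ (tS n).L := by
  obtain ⟨h, _, rfl⟩ := AddSubgroup.mem_map.1 hz
  refine AddSubgroup.mem_map.2 ⟨ctiH n a h, cti_pinned n a h, ?_⟩
  refine Prod.ext (funext fun e => cti_coord n a h e) (funext fun o => (o : Empty).elim)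

/-- the translation of the bonds -/
def ctiE (n : ℕ) [NeZero n] : (torus n).E ≃ (torus n).E where
  toFun e := ((e.1.1 + 1, e.1.2), e.2)
  invFun e := ((e.1.1 + (-1), e.1.2), e.2)
  left_inv e := by
    obtain ⟨⟨x, y⟩, d⟩ := e
    show ((x + 1 + (-1), y), d) = ((x, y), d)
    rw [add_neg_cancel_right]
  right_inv e := by
    obtain ⟨⟨x, y⟩, d⟩ := e
    show ((x + (-1) + 1, y), d) = ((x, y), d)
    rw [neg_add_cancel_right]

/-- the translation of the vertices -/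
def ctiV (n : ℕ) [NeZero n] : (torus n).V ≃ (torus n).V where
  toFun v := (v.1 + 1, v.2)
  invFun v := (v.1 + (-1), v.2)
  left_inv v := by
    obtain ⟨x, y⟩ := v
    show (x + 1 + (-1), y) = (x, y)
    rw [add_neg_cancel_right]
  right_inv v := by
    obtain ⟨x, y⟩ := v
    show (x + (-1) + 1, y) = (x, y)
    rw [neg_add_cancel_right]

/-- the unit translation as a relabelling of the torus system -/
def ctiIso (n : ℕ) [NeZero n] (b : ℝ) : SIso (tSb n b) (tSb n b) where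
  eE := ctiE n
  eO := Equiv.refl _
  sE := fun _ => 1
  sO := fun _ => 1
  hsE := fun _ => Or.inl rfl
  hsO := fun _ => Or.inl rfl
  hb := fun _ => rfl
  mem := fun z => by
    constructor
    · intro hz
      have h := cti_shift_mem n (-1) z hz
      have e : ((fun e' => (1 : ℤ) * z.1 ((ctiE n).symm e'),
          fun o' => (1 : ℝ) * z.2 ((Equiv.refl _).symm o')) : (tS n).Amb)
          = (fun e => z.1 ((e.1.1 + (-1), e.1.2), e.2), z.2) :=
        Prod.ext (funext fun e => one_mul _) (funext fun o => (o : Empty).elim)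
      exact e ▸ h
    · intro hz
      have h := cti_shift_mem n 1 _ hz
      have e : ((fun e => (1 : ℤ) * z.1 ((ctiE n).symm ((e.1.1 + 1, e.1.2), e.2)),
          fun o' => (1 : ℝ) * z.2 ((Equiv.refl _).symm o')) : (tS n).Amb) = z :=
        Prod.ext (funext fun e => (one_mul _).trans (congrArg z.1 ((ctiE n).symm_apply_apply e)))
          (funext fun o => (o : Empty).elim)
      exact e ▸ h

theorem cti_hInt (n : ℕ) [NeZero n] (b : ℝ) (z : (tS n).L) :
    hInt n ((ctiIso n b).mapL z) = ctiH n (-1) (hInt n z) := by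
  obtain ⟨h, rfl⟩ := (eL (e2_torus_proper n)).surjective z
  have e1 : hInt n (eL (e2_torus_proper n) h) = (h : (torus n).V → ℤ) := by
    unfold hInt
    rw [AddEquiv.symm_apply_apply]
  have e2 : (ctiIso n b).mapL (eL (e2_torus_proper n) h)
      = eL (e2_torus_proper n) ⟨ctiH n (-1) h, cti_pinned n (-1) h⟩ := by
    refine Subtype.ext (Prod.ext (funext fun e => ?_) (funext fun o => (o : Empty).elim))
    refine Eq.trans ?_ (cti_coord n (-1) h e).symm
    exact one_mul _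
  rw [e1]
  have e3 : hInt n (eL (e2_torus_proper n) ⟨ctiH n (-1) h, cti_pinned n (-1) h⟩) = ctiH n (-1) h := by
    unfold hInt
    rw [AddEquiv.symm_apply_apply]
  exact (congrArg (hInt n) e2).trans e3

theorem cti_pT (n : ℕ) [NeZero n] (b : ℝ) (f : (torus n).V → ℝ) (hf : ∑ v, f v = 0) (z : (tS n).L) :
    pT n f ((ctiIso n b).mapL z) = pT n (fun v => f (tau n v)) z := by
  refine (pT_apply n f _).trans (Eq.trans ?_ (pT_apply n _ z).symm)
  rw [cti_hInt]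
  have e1 : ∀ v : (torus n).V, f v * (2 * Real.pi * ((ctiH n (-1) (hInt n z) v : ℤ) : ℝ))
      = f v * (2 * Real.pi * ((hInt n z ((ctiV n).symm v) : ℤ) : ℝ))
        - (2 * Real.pi * ((hInt n z (0 + (-1), 0) : ℤ) : ℝ)) * f v := by
    intro v
    have : ctiH n (-1) (hInt n z) v = hInt n z ((ctiV n).symm v) - hInt n z (0 + (-1), 0) := rfl
    rw [this]
    push_cast
    ring
  rw [Finset.sum_congr rfl fun v _ => e1 v, Finset.sum_sub_distrib, ← Finset.mul_sum, hf, mul_zero, sub_zero]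
  refine (Equiv.sum_comp (ctiV n) _).symm.trans ?_
  refine Finset.sum_congr rfl fun v _ => ?_
  rw [Equiv.symm_apply_apply]
  rfl

/-- L-CUT-O1.  **Translation invariance.**  `Free.SIso (tSb n b) (tSb n b)` with `eE e = ((e.1.1 + 1, e.1.2), e.2)` (`Equiv.addRight`), `eO = refl`, all signs `1`; `mem`: `z = ∇h ∈ L ↔ z ∘ eE.symm = ∇(h ∘ tau⁻¹ - const) ∈ L`
(`L = (pinned {0}).map coord`; subtracting the constant `h (tau⁻¹ 0)` restores the pin and does not change `∇`).  `Free.siso_E0`.  For `∑ f = 0`: `pT n f (mapL z) = pT n (f ∘ tau) z` (the constant drops out; `Equiv.sum_comp`). -/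
theorem tinv (n : ℕ) [NeZero n] (b : ℝ) (f g : (torus n).V → ℝ) (hf : ∑ v, f v = 0) (hg : ∑ v, g v = 0) :
    cvB n b (fun v => f (tau n v)) (fun v => g (tau n v)) = cvB n b f g := by
  unfold cvB
  rw [siso_E0 (ctiIso n b) fun z => pT n f z * pT n g z]
  congr 1
  funext z
  exact (congrArg₂ (· * ·) (cti_pT n b f hf z) (cti_pT n b g hg z)).symm

/-- on-demand equation lemmas of the `cti` definitions (rule 6 hygiene) -/
theorem cut_phys_forced_cti : True := by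
  have := @ctiH.eq_1
  have := @ctiE.eq_1
  have := @ctiV.eq_1
  have := @ctiIso.eq_1
  trivial

/-- L-CUT-O2.  Bilinearity: `pT_add`, `pT_smul` (proved above), `rd_E0_add`, `rd_E0_smul`, `rd_dom_test`, `rd_dom_mul`; induction on the finset. -/
theorem cvB_sum_left (n : ℕ) [NeZero n] (b : ℝ) (hb : 0 < b) {ι : Type} (s : Finset ι) (a : ι → ℝ)
    (f : ι → (torus n).V → ℝ) (g : (torus n).V → ℝ) :
    cvB n b (fun v => ∑ i ∈ s, a i * f i v) g = ∑ i ∈ s, a i * cvB n b (f i) g := by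
  classical
  have hS := tSb_ok n b hb
  induction s using Finset.induction_on with
  | empty =>
    simp only [Finset.sum_empty]
    unfold cvB
    have e0 : ∀ z : (tS n).L, pT n (fun _ => (0 : ℝ)) z * pT n g z = 0 := by
      intro z
      rw [pT_apply]
      simp
    have e : (fun z : (tSb n b).L => pT n (fun _ => (0 : ℝ)) z * pT n g z) = fun _ => 0 := funext fun z => e0 z
    refine (congrArg (tSb n b).E0 e).trans ?_
    exact rd_E0_const hS 0
  | insert i s hi ih =>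
    simp only [Finset.sum_insert hi]
    rw [← ih]
    unfold cvB
    have e0 : ∀ z : (tS n).L, pT n (fun v => a i * f i v + ∑ j ∈ s, a j * f j v) z * pT n g z
       = a i * (pT n (f i) z * pT n g z) + pT n (fun v => ∑ j ∈ s, a j * f j v) z * pT n g z := by
      intro z
      rw [pT_add n (fun v => a i * f i v) (fun v => ∑ j ∈ s, a j * f j v), pT_smul]
      simp only [AddMonoidHom.add_apply, AddMonoidHom.smul_apply, smul_eq_mul]
      ring
    have e : (fun z : (tSb n b).L => pT n (fun v => a i * f i v + ∑ j ∈ s, a j * f j v) z * pT n g z)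
       = fun z => a i * (pT n (f i) z * pT n g z) + pT n (fun v => ∑ j ∈ s, a j * f j v) z * pT n g z := funext fun z => e0 z
    refine (congrArg (tSb n b).E0 e).trans ?_
    have d1 : (tSb n b).Dom fun z => pT n (f i) z * pT n g z :=
      rd_dom_mul (rd_dom_test (S := tSb n b) (pT n (f i))) (rd_dom_test (S := tSb n b) (pT n g))
    have d2 : (tSb n b).Dom fun z => pT n (fun v => ∑ j ∈ s, a j * f j v) z * pT n g z :=
      rd_dom_mul (rd_dom_test (S := tSb n b) (pT n _)) (rd_dom_test (S := tSb n b) (pT n g))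
    refine (rd_E0_add hS (rd_dom_smul (a i) d1) d2).trans ?_
    congr 1
    exact rd_E0_smul (S := tSb n b) _ _

theorem cvB_comm (n : ℕ) [NeZero n] (b : ℝ) (f g : (torus n).V → ℝ) : cvB n b f g = cvB n b g f := by
  unfold cvB
  congr 1
  funext z
  ring

/-- Dirichlet kernel, cosine -/
theorem cph_sum_cos (α θ : ℝ) (s : ℕ) :
    Real.sin (θ / 2) * ∑ i ∈ Finset.range s, Real.cos (α + θ * i) =
      Real.sin (s * θ / 2) * Real.cos (α + θ * ((s : ℝ) - 1) / 2) := by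
  have key : ∀ k : ℕ, Real.sin (θ / 2) * Real.cos (α + θ * k) =
      Real.sin (α + θ * ((k + 1 : ℕ) : ℝ) - θ / 2) / 2 - Real.sin (α + θ * (k : ℝ) - θ / 2) / 2 := by
    intro k
    have e1 : α + θ * ((k + 1 : ℕ) : ℝ) - θ / 2 = (α + θ * k) + θ / 2 := by push_cast; ring
    rw [e1, Real.sin_add, Real.sin_sub]
    ring
  rw [Finset.mul_sum, Finset.sum_congr rfl fun k _ => key k,
      Finset.sum_range_sub (fun k : ℕ => Real.sin (α + θ * (k : ℝ) - θ / 2) / 2)]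
  have e2 : α + θ * (s : ℝ) - θ / 2 = (α + θ * ((s : ℝ) - 1) / 2) + s * θ / 2 := by ring
  have e3 : α + θ * ((0 : ℕ) : ℝ) - θ / 2 = (α + θ * ((s : ℝ) - 1) / 2) - s * θ / 2 := by push_cast; ring
  rw [e2, e3, Real.sin_add, Real.sin_sub]
  ring

/-- Dirichlet kernel, sine -/
theorem cph_sum_sin (α θ : ℝ) (s : ℕ) :
    Real.sin (θ / 2) * ∑ i ∈ Finset.range s, Real.sin (α + θ * i) =
      Real.sin (s * θ / 2) * Real.sin (α + θ * ((s : ℝ) - 1) / 2) := by
  have h := cph_sum_cos (α - Real.pi / 2) θ s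
  have e1 : ∀ i : ℕ, Real.cos (α - Real.pi / 2 + θ * i) = Real.sin (α + θ * i) := by
    intro i
    rw [← Real.cos_sub_pi_div_two]
    congr 1
    ring
  have e2 : Real.cos (α - Real.pi / 2 + θ * ((s : ℝ) - 1) / 2) = Real.sin (α + θ * ((s : ℝ) - 1) / 2) := by
    rw [← Real.cos_sub_pi_div_two]
    congr 1
    ring
  rw [Finset.sum_congr rfl fun i _ => e1 i, e2] at h
  exact h

theorem cph_sin_ne (N k : ℕ) (hk : 0 < k) (hkN : k < N) : Real.sin (Real.pi * k / N) ≠ 0 := by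
  have hk' : (0 : ℝ) < k := by exact_mod_cast hk
  have hN' : (k : ℝ) < N := by exact_mod_cast hkN
  have hN0 : (0 : ℝ) < N := by linarith
  refine (Real.sin_pos_of_pos_of_lt_pi (by positivity) ?_).ne'
  rw [div_lt_iff₀ hN0]
  exact mul_lt_mul_of_pos_left hN' Real.pi_pos

/-- sums over the `N`-th roots of unity -/
theorem cph_root_sums (N k : ℕ) (hk : 0 < k) (hkN : k < N) (α : ℝ) :
    ∑ i ∈ Finset.range N, Real.cos (α + (2 * Real.pi * k / N) * i) = 0 ∧
      ∑ i ∈ Finset.range N, Real.sin (α + (2 * Real.pi * k / N) * i) = 0 := by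
  have hN0 : (N : ℝ) ≠ 0 := Nat.cast_ne_zero.2 (by omega)
  have h1 : Real.sin ((2 * Real.pi * k / N) / 2) ≠ 0 := by
    have e : (2 * Real.pi * k / N) / 2 = Real.pi * k / N := by ring
    rw [e]
    exact cph_sin_ne N k hk hkN
  have h2 : Real.sin (N * (2 * Real.pi * k / N) / 2) = 0 := by
    have e : (N : ℝ) * (2 * Real.pi * k / N) / 2 = k * Real.pi := by field_simp
    rw [e, Real.sin_nat_mul_pi]
  constructor
  · have h := cph_sum_cos α (2 * Real.pi * k / N) N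
    rw [h2, zero_mul] at h
    exact (mul_eq_zero.1 h).resolve_left h1
  · have h := cph_sum_sin α (2 * Real.pi * k / N) N
    rw [h2, zero_mul] at h
    exact (mul_eq_zero.1 h).resolve_left h1

theorem cph_sn1_natCast (n : ℕ) [NeZero n] (m : ℕ) :
    sn1 n (m : ZMod n) = Real.sin (2 * Real.pi * (m : ℝ) / n) := by
  have hn : (n : ℝ) ≠ 0 := Nat.cast_ne_zero.2 (NeZero.ne n)
  unfold sn1
  rw [ZMod.val_natCast]
  have h2 : (m : ℝ) = ((m % n : ℕ) : ℝ) + (n : ℝ) * ((m / n : ℕ) : ℝ) := by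
    have := Nat.mod_add_div m n
    exact_mod_cast this.symm
  obtain ⟨u, hu⟩ : ∃ u : ℝ, u = ((m % n : ℕ) : ℝ) := ⟨_, rfl⟩
  have h4 : 2 * Real.pi * (m : ℝ) / n = 2 * Real.pi * u / n + ((m / n : ℕ) : ℝ) * (2 * Real.pi) := by
    obtain ⟨v, hv⟩ : ∃ v : ℝ, v = ((m / n : ℕ) : ℝ) := ⟨_, rfl⟩
    rw [← hu, ← hv] at h2
    rw [← hv, h2]
    field_simp
  rw [← hu, h4, Real.sin_add_nat_mul_two_pi]

theorem cph_cs1_add (n : ℕ) [NeZero n] (x m : ZMod n) :
    cs1 n (x + m) = cs1 n x * cs1 n m - sn1 n x * sn1 n m := by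
  have h := e2_cs1_natCast n (x.val + m.val)
  push_cast at h
  rw [ZMod.natCast_zmod_val, ZMod.natCast_zmod_val] at h
  rw [h]
  have e : 2 * Real.pi * ((x.val : ℝ) + (m.val : ℝ)) / n = 2 * Real.pi * (x.val : ℝ) / n + 2 * Real.pi * (m.val : ℝ) / n := by
    ring
  rw [e, Real.cos_add]
  rfl

theorem cph_sn1_add (n : ℕ) [NeZero n] (x m : ZMod n) :
    sn1 n (x + m) = sn1 n x * cs1 n m + cs1 n x * sn1 n m := by
  have h := cph_sn1_natCast n (x.val + m.val)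
  push_cast at h
  rw [ZMod.natCast_zmod_val, ZMod.natCast_zmod_val] at h
  rw [h]
  have e : 2 * Real.pi * ((x.val : ℝ) + (m.val : ℝ)) / n = 2 * Real.pi * (x.val : ℝ) / n + 2 * Real.pi * (m.val : ℝ) / n := by
    ring
  rw [e, Real.sin_add]
  rfl

theorem cph_cs1_sub (n : ℕ) [NeZero n] (x k : ZMod n) :
    cs1 n (x - k) = cs1 n x * cs1 n k + sn1 n x * sn1 n k := by
  have h1 := cph_cs1_add n (x - k) k
  have h2 := cph_sn1_add n (x - k) k
  rw [sub_add_cancel] at h1 h2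
  have h3 : cs1 n k ^ 2 + sn1 n k ^ 2 = 1 := Real.cos_sq_add_sin_sq _
  rw [h1, h2]
  linear_combination (-cs1 n (x - k)) * h3

theorem cph_sums (n : ℕ) [NeZero n] (hn : 3 ≤ n) : ∑ x, cs1 n x * sn1 n x = 0 ∧ ∑ x, cs1 n x = 0 := by
  constructor
  · rw [e2t_sum_zmod n (fun x => cs1 n x * sn1 n x)]
    have h := (cph_root_sums n 2 (by norm_num) (by omega) 0).2
    have e : ∀ k : ℕ, cs1 n (k : ZMod n) * sn1 n (k : ZMod n) =
        (1 / 2) * Real.sin (0 + (2 * Real.pi * (2 : ℕ) / n) * k) := by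
      intro k
      rw [e2_cs1_natCast, cph_sn1_natCast]
      have e1 : 0 + (2 * Real.pi * (2 : ℕ) / n) * (k : ℝ) = 2 * (2 * Real.pi * (k : ℝ) / n) := by
        push_cast; ring
      rw [e1, Real.sin_two_mul]
      ring
    rw [Finset.sum_congr rfl fun k _ => e k, ← Finset.mul_sum, h, mul_zero]
  · rw [e2t_sum_zmod n (fun x => cs1 n x)]
    have h := (cph_root_sums n 1 (by norm_num) (by omega) 0).1
    have e : ∀ k : ℕ, cs1 n (k : ZMod n) = Real.cos (0 + (2 * Real.pi * (1 : ℕ) / n) * k) := by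
      intro k
      rw [e2_cs1_natCast]
      congr 1
      push_cast; ring
    rw [Finset.sum_congr rfl fun k _ => e k, h]


/-- translates have the same sum -/
theorem cph_sum_shift (n : ℕ) [NeZero n] (m : ZMod n) (f : (torus n).V → ℝ) :
    ∑ v : (torus n).V, f (v.1 + m, v.2) = ∑ v, f v :=
  Equiv.sum_comp ((Equiv.addRight m).prodCongr (Equiv.refl (ZMod n))) f

/-- translation invariance, `m` steps -/
theorem cph_tinv_nat (n : ℕ) [NeZero n] (b : ℝ) (m : ℕ) : ∀ (f g : (torus n).V → ℝ), ∑ v, f v = 0 → ∑ v, g v = 0 →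
    cvB n b (fun v => f (v.1 + (m : ZMod n), v.2)) (fun v => g (v.1 + (m : ZMod n), v.2)) = cvB n b f g := by
  induction m with
  | zero =>
    intro f g _ _
    simp only [Nat.cast_zero, add_zero]
    rfl
  | succ m ih =>
    intro f g hf hg
    have h1 := tinv n b (fun v => f (v.1 + (m : ZMod n), v.2)) (fun v => g (v.1 + (m : ZMod n), v.2))
      ((cph_sum_shift n m f).trans hf) ((cph_sum_shift n m g).trans hg)
    rw [ih f g hf hg] at h1
    rw [← h1]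
    have e : ∀ x : ZMod n, x + ((m + 1 : ℕ) : ZMod n) = x + 1 + (m : ZMod n) := by
      intro x
      push_cast
      ring
    simp only [tau, e]

theorem cph_tinv (n : ℕ) [NeZero n] (b : ℝ) (m : ZMod n) (f g : (torus n).V → ℝ) (hf : ∑ v, f v = 0) (hg : ∑ v, g v = 0) :
    cvB n b (fun v => f (v.1 + m, v.2)) (fun v => g (v.1 + m, v.2)) = cvB n b f g := by
  have h := cph_tinv_nat n b m.val f g hf hg
  rw [ZMod.natCast_zmod_val] at h
  exact h

/-- the projection fixes the first cosine -/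
theorem cph_proj_cs1 (n : ℕ) [NeZero n] (hn : 3 ≤ n) (x : ZMod n) :
    cs1 n x = ∑ m : ZMod n, (2 / (n : ℝ) * cs1 n m) * cs1 n (x + m) := by
  have hn0 : (n : ℝ) ≠ 0 := Nat.cast_ne_zero.2 (NeZero.ne n)
  have e : ∀ m : ZMod n, (2 / (n : ℝ) * cs1 n m) * cs1 n (x + m) =
      2 / (n : ℝ) * cs1 n x * cs1 n m ^ 2 - 2 / (n : ℝ) * sn1 n x * (cs1 n m * sn1 n m) := by
    intro m
    rw [cph_cs1_add]
    ring
  rw [Finset.sum_congr rfl fun m _ => e m, Finset.sum_sub_distrib, ← Finset.mul_sum, ← Finset.mul_sum,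
    e2_cs1_sq_sum n hn, (cph_sums n hn).1]
  field_simp
  ring

/-- the adjoint projection kills `ρ` -/
theorem cph_proj_kill (n : ℕ) [NeZero n] (ρ : (torus n).V → ℝ)
    (hc : ∀ y, ∑ x, ρ (x, y) * cs1 n x = 0) (hs : ∀ y, ∑ x, ρ (x, y) * sn1 n x = 0) (x y : ZMod n) :
    ∑ m : ZMod n, (2 / (n : ℝ) * cs1 n m) * ρ (x + -m, y) = 0 := by
  have h1 : ∑ m : ZMod n, (2 / (n : ℝ) * cs1 n m) * ρ (x + -m, y) =
      ∑ k : ZMod n, (2 / (n : ℝ) * cs1 n (x - k)) * ρ (k, y) := by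
    rw [← Equiv.sum_comp (Equiv.subLeft x) (fun k => (2 / (n : ℝ) * cs1 n (x - k)) * ρ (k, y))]
    refine Finset.sum_congr rfl fun m _ => ?_
    simp only [Equiv.subLeft_apply]
    rw [sub_sub_cancel, sub_eq_add_neg]
  rw [h1]
  have e : ∀ k : ZMod n, (2 / (n : ℝ) * cs1 n (x - k)) * ρ (k, y) =
      2 / (n : ℝ) * cs1 n x * (ρ (k, y) * cs1 n k) + 2 / (n : ℝ) * sn1 n x * (ρ (k, y) * sn1 n k) := by
    intro k
    rw [cph_cs1_sub]
    ring
  rw [Finset.sum_congr rfl fun k _ => e k, Finset.sum_add_distrib, ← Finset.mul_sum, ← Finset.mul_sum, hc y, hs y]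
  ring

/-- L-CUT-O3.  **The projection argument.**  `K = cvB n b`, `T^m f = f ∘ tau^m`, `(T^m f)(v) = f (v.1 + m, v.2)`.  By `tinv` (induction on `m`; translates of zero-sum functions have zero sum): `K (T^m f) (T^m g) = K f g`.
(a) `cs1 n (x + m) = cs1 x cs1 m - sn1 x sn1 m` (write `x, m` as casts of `val`, `E2.e2_cs1_natCast` and its sine analogue; `Real.cos_add`);   (b) `∑ cs1² = n/2` (`E2.e2_cs1_sq_sum`), `∑ cs1 sn1 = 0` (`sin 2a = 2 sin a cos a`, the sine analogue of `E2.e2t_sum_cos_even`);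
so `q = (2/n) ∑_{m} cs1 m · T^m q`, `q v = cs1 n v.1`.   (c) `K q ρ = (2/n) ∑_m cs1 m K (T^m q) ρ = (2/n) ∑_m cs1 m K q (T^{-m} ρ) = K q ((2/n) ∑_m cs1 m T^{-m} ρ)` (`cvB_sum_left`, `cvB_comm`),
and `∑_m cs1 m ρ (x - m, y) = ∑_k cs1 (x - k) ρ (k, y) = cs1 x ∑_k cs1 k ρ (k,y) + sn1 x ∑_k sn1 k ρ (k,y) = 0`;   `K q 0 = 0`. -/
theorem proj_alg (n : ℕ) [NeZero n] (hn : 3 ≤ n) (b : ℝ) (hb : 0 < b) (ρ : (torus n).V → ℝ) (h0 : ∑ v, ρ v = 0)
    (hc : ∀ y, ∑ x, ρ (x, y) * cs1 n x = 0) (hs : ∀ y, ∑ x, ρ (x, y) * sn1 n x = 0) :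
    cvB n b (fun v => cs1 n v.1) ρ = 0 := by
  have hq0 : ∑ v : (torus n).V, (fun v : (torus n).V => cs1 n v.1) v = 0 := by
    refine (Fintype.sum_prod_type_right (f := fun v : ZMod n × ZMod n => cs1 n v.1)).trans ?_
    simp only [(cph_sums n hn).2, Finset.sum_const_zero]
  have e1 : (fun v : (torus n).V => cs1 n v.1) =
      fun v => ∑ m : ZMod n, (2 / (n : ℝ) * cs1 n m) * (fun (m : ZMod n) (v : (torus n).V) => cs1 n (v.1 + m)) m v := by
    funext v
    exact cph_proj_cs1 n hn v.1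
  have e2 : ∀ m : ZMod n, cvB n b (fun v : (torus n).V => cs1 n (v.1 + m)) ρ =
      cvB n b (fun v : (torus n).V => ρ (v.1 + -m, v.2)) (fun v => cs1 n v.1) := by
    intro m
    have h := cph_tinv n b m (fun v : (torus n).V => cs1 n v.1) (fun v : (torus n).V => ρ (v.1 + -m, v.2)) hq0
      ((cph_sum_shift n (-m) ρ).trans h0)
    have e3 : (fun v : (torus n).V => ρ (v.1 + m + -m, v.2)) = ρ := by
      funext v
      rw [add_neg_cancel_right]
      rfl
    have h' : cvB n b (fun v : (torus n).V => cs1 n (v.1 + m)) (fun v : (torus n).V => ρ (v.1 + m + -m, v.2)) =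
        cvB n b (fun v : (torus n).V => cs1 n v.1) (fun v : (torus n).V => ρ (v.1 + -m, v.2)) := h
    rw [e3] at h'
    rw [h', cvB_comm]
  calc cvB n b (fun v => cs1 n v.1) ρ
      = ∑ m : ZMod n, (2 / (n : ℝ) * cs1 n m) * cvB n b (fun v : (torus n).V => cs1 n (v.1 + m)) ρ := by
        rw [e1]
        exact cvB_sum_left n b hb Finset.univ _ _ ρ
    _ = ∑ m : ZMod n, (2 / (n : ℝ) * cs1 n m) *
          cvB n b ((fun (m : ZMod n) (v : (torus n).V) => ρ (v.1 + -m, v.2)) m) (fun v => cs1 n v.1) :=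
        Finset.sum_congr rfl fun m _ => by rw [e2 m]
    _ = cvB n b (fun v => ∑ m : ZMod n, (2 / (n : ℝ) * cs1 n m) *
          (fun (m : ZMod n) (v : (torus n).V) => ρ (v.1 + -m, v.2)) m v) (fun v => cs1 n v.1) :=
        (cvB_sum_left n b hb Finset.univ _ _ _).symm
    _ = cvB n b (fun v => ∑ m ∈ (∅ : Finset (ZMod n)), (2 / (n : ℝ) * cs1 n m) *
          (fun (m : ZMod n) (v : (torus n).V) => ρ (v.1 + -m, v.2)) m v) (fun v => cs1 n v.1) := by
        congr 1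
        funext v
        rw [Finset.sum_empty]
        exact cph_proj_kill n ρ hc hs v.1 v.2
    _ = 0 := by
        rw [cvB_sum_left n b hb ∅ _ _ _, Finset.sum_empty]

/-- the sum over one interval of the grid -/
theorem cph_cell_sum {c : Grid G} (hc : Whole c) (b : Fin c.n) (F : ℕ → ℝ) :
    ∑ a ∈ Finset.univ.filter (fun a => c.blk1 a = b), F (a : ℕ) = ∑ i ∈ Finset.range c.m, F (c.m * b + i) := by
  have h1 : ∑ a ∈ Finset.univ.filter (fun a => c.blk1 a = b), F (a : ℕ) =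
      ∑ a : Fin G.M, if (a : ℕ) / c.m = b then F a else 0 := by
    rw [Finset.sum_filter]
    refine Finset.sum_congr rfl fun a _ => ?_
    have : (c.blk1 a = b) ↔ (a : ℕ) / c.m = b := by
      rw [← whole_blk1 hc a, Fin.ext_iff]
    simp only [this]
  rw [h1, Fin.sum_univ_eq_sum_range (fun k => if k / c.m = b then F k else 0) G.M, ← Finset.sum_filter]
  have hM : c.m * b + c.m ≤ G.M := by
    rw [whole_card hc]
    have : (b : ℕ) + 1 ≤ c.n := b.2
    calc c.m * b + c.m = ((b : ℕ) + 1) * c.m := by ring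
      _ ≤ c.n * c.m := Nat.mul_le_mul_right _ this
  have h2 : (Finset.range G.M).filter (fun k => k / c.m = b) = Finset.Ico (c.m * b) (c.m * b + c.m) := by
    ext k
    simp only [Finset.mem_filter, Finset.mem_range, Finset.mem_Ico]
    constructor
    · rintro ⟨_, h⟩
      rw [← h]
      exact ⟨Nat.mul_div_le k c.m, Nat.lt_mul_div_succ k hc.pos⟩
    · rintro ⟨h3, h4⟩
      refine ⟨by omega, ?_⟩
      apply Nat.div_eq_of_lt_le
      · rw [Nat.mul_comm]; exact h3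
      · rw [Nat.mul_comm, Nat.mul_succ]; exact h4
  rw [h2, Finset.sum_Ico_eq_sum_range]
  simp

/-- the cell average of the first cosine is an average over an interval -/
theorem cph_aC_sum {c : Grid G} (hc : Whole c) (v : (torus G.M).V) :
    aC c v = (∑ i ∈ Finset.range c.m,
      Real.cos (2 * Real.pi * ((c.m * (v.1.val / c.m) + i : ℕ) : ℝ) / G.M)) / c.m := by
  have hm : (c.m : ℝ) ≠ 0 := Nat.cast_ne_zero.2 hc.pos.ne'
  have hs : ∀ i : c.I, c.sites {i} =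
      (Finset.univ.filter fun a => c.blk1 a = i.1) ×ˢ (Finset.univ.filter fun a => c.blk1 a = i.2) := by
    intro i
    ext w
    simp only [Grid.sites, Grid.blk, Finset.mem_filter, Finset.mem_univ, true_and, Finset.mem_singleton, Finset.mem_product]
    exact Prod.ext_iff
  unfold aC avg cellAvg
  rw [whole_sites_card hc, hs, Finset.sum_product]
  have h1 : ∀ a : Fin G.M, ∑ b ∈ Finset.univ.filter (fun a => c.blk1 a = (c.blk (vE G v)).2), cs G (a, b) =
      (c.m : ℝ) * Real.cos (2 * Real.pi * ((a : ℕ) : ℝ) / G.M) := by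
    intro a
    simp only [cs, Finset.sum_const, hc.size, nsmul_eq_mul]
  rw [Finset.sum_congr rfl fun a _ => h1 a, ← Finset.mul_sum,
    cph_cell_sum hc _ (fun k => Real.cos (2 * Real.pi * (k : ℝ) / G.M))]
  have h2 : (((c.blk (vE G v)).1 : Fin c.n) : ℕ) = v.1.val / c.m := by
    have := whole_blk1 hc (vE G v).1
    exact this
  rw [h2]
  push_cast
  field_simp

/-- the Dirichlet kernel on one interval -/
theorem cph_blk_cos {c : Grid G} (hc : Whole c) (Q : ℕ) :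
    ∑ i ∈ Finset.range c.m, Real.cos (2 * Real.pi * ((c.m * Q + i : ℕ) : ℝ) / G.M) =
      (c.m : ℝ) * (beta G.M c.m * Real.cos (2 * Real.pi * ((c.m : ℝ) * (Q : ℝ) + ((c.m : ℝ) - 1) / 2) / G.M)) := by
  have hm : (c.m : ℝ) ≠ 0 := Nat.cast_ne_zero.2 hc.pos.ne'
  have hM2 : 1 < G.M := by
    rw [whole_card hc]
    have := hc.two
    have := hc.pos
    nlinarith
  have hs := cph_sin_ne G.M 1 one_pos hM2
  rw [Nat.cast_one, mul_one] at hs
  have h := cph_sum_cos (2 * Real.pi / G.M * ((c.m : ℝ) * Q)) (2 * Real.pi / G.M) c.m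
  have e0 : 2 * Real.pi / (G.M : ℝ) / 2 = Real.pi / G.M := by ring
  have e1 : (c.m : ℝ) * (2 * Real.pi / G.M) / 2 = Real.pi * c.m / G.M := by ring
  have e2 : 2 * Real.pi / G.M * ((c.m : ℝ) * Q) + 2 * Real.pi / G.M * ((c.m : ℝ) - 1) / 2 =
      2 * Real.pi * ((c.m : ℝ) * (Q : ℝ) + ((c.m : ℝ) - 1) / 2) / G.M := by ring
  have e3 : ∀ i : ℕ, Real.cos (2 * Real.pi * ((c.m * Q + i : ℕ) : ℝ) / G.M) =
      Real.cos (2 * Real.pi / G.M * ((c.m : ℝ) * Q) + 2 * Real.pi / G.M * i) := by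
    intro i
    congr 1
    push_cast
    ring
  rw [e0, e1, e2] at h
  rw [Finset.sum_congr rfl fun i _ => e3 i]
  unfold beta
  have h5 : ∀ S s1 s2 C m : ℝ, m ≠ 0 → s1 ≠ 0 → s1 * S = s2 * C → S = m * (s2 / (m * s1) * C) := by
    intro S s1 s2 C m hm hs h
    field_simp
    linear_combination h
  exact h5 _ _ _ _ _ hm hs h

theorem cph_blk_sin {c : Grid G} (hc : Whole c) (Q : ℕ) :
    ∑ i ∈ Finset.range c.m, Real.sin (2 * Real.pi * ((c.m * Q + i : ℕ) : ℝ) / G.M) =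
      (c.m : ℝ) * (beta G.M c.m * Real.sin (2 * Real.pi * ((c.m : ℝ) * (Q : ℝ) + ((c.m : ℝ) - 1) / 2) / G.M)) := by
  have hm : (c.m : ℝ) ≠ 0 := Nat.cast_ne_zero.2 hc.pos.ne'
  have hM2 : 1 < G.M := by
    rw [whole_card hc]
    have := hc.two
    have := hc.pos
    nlinarith
  have hs := cph_sin_ne G.M 1 one_pos hM2
  rw [Nat.cast_one, mul_one] at hs
  have h := cph_sum_sin (2 * Real.pi / G.M * ((c.m : ℝ) * Q)) (2 * Real.pi / G.M) c.m
  have e0 : 2 * Real.pi / (G.M : ℝ) / 2 = Real.pi / G.M := by ring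
  have e1 : (c.m : ℝ) * (2 * Real.pi / G.M) / 2 = Real.pi * c.m / G.M := by ring
  have e2 : 2 * Real.pi / G.M * ((c.m : ℝ) * Q) + 2 * Real.pi / G.M * ((c.m : ℝ) - 1) / 2 =
      2 * Real.pi * ((c.m : ℝ) * (Q : ℝ) + ((c.m : ℝ) - 1) / 2) / G.M := by ring
  have e3 : ∀ i : ℕ, Real.sin (2 * Real.pi * ((c.m * Q + i : ℕ) : ℝ) / G.M) =
      Real.sin (2 * Real.pi / G.M * ((c.m : ℝ) * Q) + 2 * Real.pi / G.M * i) := by
    intro i
    congr 1
    push_cast
    ring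
  rw [e0, e1, e2] at h
  rw [Finset.sum_congr rfl fun i _ => e3 i]
  unfold beta
  have h5 : ∀ S s1 s2 C m : ℝ, m ≠ 0 → s1 ≠ 0 → s1 * S = s2 * C → S = m * (s2 / (m * s1) * C) := by
    intro S s1 s2 C m hm hs h
    field_simp
    linear_combination h
  exact h5 _ _ _ _ _ hm hs h

/-- L-CUT-O4.  **The cell average of the first cosine** (Dirichlet kernel).  `aC c v = s⁻¹ ∑_{i<s} cos (θ (s Q + i))`, `Q = v.1.val / s`, `θ = 2π/n` (`whole_blk1`, `whole_sites_card`; see `alias_flow`);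
`2 sin (θ/2) cos (θ (a + i)) = sin (θ (a + i + 1/2)) - sin (θ (a + i - 1/2))` telescopes (`Finset.sum_range_succ`, induction) to `sin (θ (a + s - 1/2)) - sin (θ (a - 1/2)) = 2 sin (s θ/2) cos (θ (a + (s-1)/2))`. -/
theorem aC_eq (hG : G.bc = BC.per) {c : Grid G} (hc : Whole c) (v : (torus G.M).V) :
    aC c v = beta G.M c.m *
      Real.cos (2 * Real.pi * ((c.m : ℝ) * ((v.1.val / c.m : ℕ) : ℝ) + ((c.m : ℝ) - 1) / 2) / G.M) := by
  have hm : (c.m : ℝ) ≠ 0 := Nat.cast_ne_zero.2 hc.pos.ne'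
  rw [cph_aC_sum hc v, cph_blk_cos hc]
  field_simp

/-- a sum over `[0, n m)` as a sum over blocks -/
theorem cph_sum_blocks (n m : ℕ) (F : ℕ → ℝ) :
    ∑ k ∈ Finset.range (n * m), F k = ∑ Q ∈ Finset.range n, ∑ i ∈ Finset.range m, F (m * Q + i) := by
  induction n with
  | zero => simp
  | succ n ih =>
    rw [Finset.sum_range_succ, ← ih, Nat.succ_mul, Finset.sum_range_add, Nat.mul_comm m n]

/-- pairing the cell average with a function on `ZMod n` -/
theorem cph_aC_pair (hG : G.bc = BC.per) {c : Grid G} (hc : Whole c) (y : ZMod G.M) (w : ZMod G.M → ℝ) (W : ℕ → ℝ)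
    (hw : ∀ k : ℕ, w (k : ZMod G.M) = W k) :
    ∑ x, aC c (x, y) * w x = ∑ Q ∈ Finset.range c.n,
      beta G.M c.m * Real.cos (2 * Real.pi * ((c.m : ℝ) * (Q : ℝ) + ((c.m : ℝ) - 1) / 2) / G.M) *
        ∑ i ∈ Finset.range c.m, W (c.m * Q + i) := by
  rw [e2t_sum_zmod G.M (fun x => aC c (x, y) * w x), congrArg Finset.range (whole_card hc), cph_sum_blocks]
  refine Finset.sum_congr rfl fun Q hQ => ?_
  rw [Finset.mul_sum]
  refine Finset.sum_congr rfl fun i hi => ?_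
  have hi' := Finset.mem_range.1 hi
  have hQ' : Q + 1 ≤ c.n := Finset.mem_range.1 hQ
  have hlt : c.m * Q + i < G.M := by
    rw [whole_card hc]
    calc c.m * Q + i < c.m * Q + c.m := by omega
      _ = (Q + 1) * c.m := by ring
      _ ≤ c.n * c.m := Nat.mul_le_mul_right _ hQ'
  have hdiv : (c.m * Q + i) / c.m = Q := by
    rw [Nat.mul_add_div hc.pos, Nat.div_eq_of_lt hi', add_zero]
  have hv : (((c.m * Q + i : ℕ) : ZMod G.M)).val = c.m * Q + i := ZMod.val_natCast_of_lt hlt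
  have h1 : aC c (((c.m * Q + i : ℕ) : ZMod G.M), y) = beta G.M c.m *
      Real.cos (2 * Real.pi * ((c.m : ℝ) * (((((c.m * Q + i : ℕ) : ZMod G.M)).val / c.m : ℕ) : ℝ) + ((c.m : ℝ) - 1) / 2) / G.M) :=
    aC_eq hG hc _
  rw [hv, hdiv] at h1
  rw [hw, h1]

/-- the angle of the centre of the cell `Q` -/
theorem cph_angle {c : Grid G} (hc : Whole c) (Q : ℕ) (k : ℕ) :
    (k : ℝ) * (2 * Real.pi * ((c.m : ℝ) * (Q : ℝ) + ((c.m : ℝ) - 1) / 2) / G.M) =
      (k : ℝ) * (2 * Real.pi * (((c.m : ℝ) - 1) / 2) / G.M) + (2 * Real.pi * k / c.n) * Q := by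
  have hm : (c.m : ℝ) ≠ 0 := Nat.cast_ne_zero.2 hc.pos.ne'
  have hn : (c.n : ℝ) ≠ 0 := Nat.cast_ne_zero.2 (by have := hc.two; omega)
  have hM : (G.M : ℝ) = (c.n : ℝ) * c.m := by exact_mod_cast whole_card hc
  rw [hM]
  field_simp
  ring

/-- L-CUT-O5.  **Orthogonality to the first cosine and sine.**  Split `∑_x` into cells (`x = s Q + i`); `∑_{x ∈ Q} cs1 x = s β cos (θ x_Q)`, `∑_{x ∈ Q} sn1 x = s β sin (θ x_Q)` (as in `aC_eq`), `aC = β cos (θ x_Q)` (`aC_eq`), `θ x_Q = 2π Q/N + γ`, `N = c.n ≥ 3`: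
`∑_{Q<N} cos² (2π Q/N + γ) = N/2`, `∑_{Q<N} cos sin (2π Q/N + γ) = 0` (double angle; `∑_{Q<N} cos (4π Q/N + 2γ) = 0 = ∑ sin (..)`: as in `E2.e2t_sum_cos_even`).  Hence `∑_x aC cs1 = s β² N/2 = β² n/2`, `∑_x aC sn1 = 0`.  Third claim: `∑_x aC = ∑_Q s a_Q = ∑_x cs1 x = 0` (`cs1_sums`). -/
theorem aC_ortho (hG : G.bc = BC.per) {c : Grid G} (hc : Whole c) (hN : 3 ≤ c.n) (y : ZMod G.M) :
    ∑ x, aC c (x, y) * cs1 G.M x = beta G.M c.m ^ 2 * ((G.M : ℝ) / 2) ∧ ∑ x, aC c (x, y) * sn1 G.M x = 0 ∧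
      ∑ x, aC c (x, y) = 0 := by
  have hM : (G.M : ℝ) = (c.n : ℝ) * c.m := by exact_mod_cast whole_card hc
  obtain ⟨β, hβ⟩ : ∃ β : ℝ, β = beta G.M c.m := ⟨_, rfl⟩
  obtain ⟨A, hA⟩ : ∃ A : ℕ → ℝ, A = fun Q : ℕ => 2 * Real.pi * ((c.m : ℝ) * (Q : ℝ) + ((c.m : ℝ) - 1) / 2) / G.M :=
    ⟨_, rfl⟩
  have hA1 : ∀ Q : ℕ, 2 * Real.pi * ((c.m : ℝ) * (Q : ℝ) + ((c.m : ℝ) - 1) / 2) / G.M = A Q := by
    intro Q; rw [hA]
  have r1 : ∑ Q ∈ Finset.range c.n, Real.cos (A Q) = 0 := by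
    have h := (cph_root_sums c.n 1 one_pos (by omega) (((1 : ℕ) : ℝ) * (2 * Real.pi * (((c.m : ℝ) - 1) / 2) / G.M))).1
    rw [← h]
    refine Finset.sum_congr rfl fun Q _ => ?_
    rw [← cph_angle hc Q 1, hA1, Nat.cast_one, one_mul]
  have r2 : ∑ Q ∈ Finset.range c.n, Real.cos (2 * A Q) = 0 := by
    have h := (cph_root_sums c.n 2 two_pos (by omega) (((2 : ℕ) : ℝ) * (2 * Real.pi * (((c.m : ℝ) - 1) / 2) / G.M))).1
    rw [← h]
    refine Finset.sum_congr rfl fun Q _ => ?_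
    rw [← cph_angle hc Q 2, hA1, Nat.cast_two]
  have r3 : ∑ Q ∈ Finset.range c.n, Real.sin (2 * A Q) = 0 := by
    have h := (cph_root_sums c.n 2 two_pos (by omega) (((2 : ℕ) : ℝ) * (2 * Real.pi * (((c.m : ℝ) - 1) / 2) / G.M))).2
    rw [← h]
    refine Finset.sum_congr rfl fun Q _ => ?_
    rw [← cph_angle hc Q 2, hA1, Nat.cast_two]
  refine ⟨?_, ?_, ?_⟩
  · rw [cph_aC_pair hG hc y (cs1 G.M) (fun k => Real.cos (2 * Real.pi * (k : ℝ) / G.M)) (e2_cs1_natCast G.M)]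
    have e : ∀ Q : ℕ, beta G.M c.m * Real.cos (2 * Real.pi * ((c.m : ℝ) * (Q : ℝ) + ((c.m : ℝ) - 1) / 2) / G.M) *
        ∑ i ∈ Finset.range c.m, Real.cos (2 * Real.pi * ((c.m * Q + i : ℕ) : ℝ) / G.M) =
        β ^ 2 * c.m / 2 + β ^ 2 * c.m / 2 * Real.cos (2 * A Q) := by
      intro Q
      rw [cph_blk_cos hc, hA1, ← hβ, Real.cos_two_mul]
      ring
    rw [Finset.sum_congr rfl fun Q _ => e Q, Finset.sum_add_distrib, ← Finset.mul_sum, r2, Finset.sum_const,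
      Finset.card_range, nsmul_eq_mul, ← hβ, hM]
    ring
  · rw [cph_aC_pair hG hc y (sn1 G.M) (fun k => Real.sin (2 * Real.pi * (k : ℝ) / G.M)) (cph_sn1_natCast G.M)]
    have e : ∀ Q : ℕ, beta G.M c.m * Real.cos (2 * Real.pi * ((c.m : ℝ) * (Q : ℝ) + ((c.m : ℝ) - 1) / 2) / G.M) *
        ∑ i ∈ Finset.range c.m, Real.sin (2 * Real.pi * ((c.m * Q + i : ℕ) : ℝ) / G.M) =
        β ^ 2 * c.m / 2 * Real.sin (2 * A Q) := by
      intro Q
      rw [cph_blk_sin hc, hA1, ← hβ, Real.sin_two_mul]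
      ring
    rw [Finset.sum_congr rfl fun Q _ => e Q, ← Finset.mul_sum, r3, mul_zero]
  · have h := cph_aC_pair hG hc y (fun _ => 1) (fun _ => 1) (fun _ => rfl)
    simp only [mul_one] at h
    rw [h]
    have e : ∀ Q : ℕ, beta G.M c.m * Real.cos (2 * Real.pi * ((c.m : ℝ) * (Q : ℝ) + ((c.m : ℝ) - 1) / 2) / G.M) *
        ∑ i ∈ Finset.range c.m, (1 : ℝ) = β * c.m * Real.cos (A Q) := by
      intro Q
      rw [hA1, ← hβ, Finset.sum_const, Finset.card_range, nsmul_eq_mul]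
      ring
    rw [Finset.sum_congr rfl fun Q _ => e Q, ← Finset.mul_sum, r1, mul_zero]

/-- L-CUT-O5.  `∑ cs1 sn1 = 0` (`n ≥ 3`), `∑ cs1 = 0` (`n ≥ 2`): see `proj_alg` (b), `sum_fX`. -/
theorem cs1_sums (n : ℕ) [NeZero n] (hn : 3 ≤ n) : ∑ x, cs1 n x * sn1 n x = 0 ∧ ∑ x, cs1 n x = 0 :=
  cph_sums n hn

theorem sum_torus (n : ℕ) [NeZero n] (F : (torus n).V → ℝ) :
    ∑ v, F v = ∑ y : ZMod n, ∑ x : ZMod n, F (x, y) :=
  Fintype.sum_prod_type_right (f := F)

/-- the remainder `B^* f - β n⁻² q` is uncorrelated with `H_n` -/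
theorem ortho (hG : G.bc = BC.per) {c : Grid G} (hc : Whole c) (h4 : c.m * 4 ≤ G.M) (b : ℝ) (hb : 0 < b) :
    (tSb G.M b).Cv 0 0 (Hn G.M) (pT G.M fun v => Bst c (fX c) v - beta G.M c.m * qv G.M v) = 0 := by
  have hs : 1 ≤ c.m := hc.pos
  have hM : G.M = c.n * c.m := whole_card hc
  have hN : 3 ≤ c.n := by
    by_contra hlt
    have : c.n ≤ 2 := by omega
    have : c.n * c.m ≤ 2 * c.m := Nat.mul_le_mul_right _ this
    omega
  have hn : 3 ≤ G.M := by omega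
  obtain ⟨hβ, -, -⟩ := beta_bounds G.M c.m hs h4
  have hβ0 : beta G.M c.m ≠ 0 := by linarith
  have hsq := e2_cs1_sq_sum G.M hn
  obtain ⟨hcs, hc0⟩ := cs1_sums G.M hn
  have hρ : ∀ (x y : ZMod G.M), Bst c (fX c) (x, y) - beta G.M c.m * qv G.M (x, y)
      = (G.M : ℝ)⁻¹ ^ 2 * ((beta G.M c.m)⁻¹ * aC c (x, y) - beta G.M c.m * cs1 G.M x) := by
    intro x y
    rw [Bst_fX hc (x, y)]
    show _ - beta G.M c.m * ((G.M : ℝ)⁻¹ ^ 2 * cs1 G.M x) = _
    field_simp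
  have key := proj_alg G.M hn b hb (fun v => Bst c (fX c) v - beta G.M c.m * qv G.M v) ?_ ?_ ?_
  · refine (rd_Cv0_eq (S := tSb G.M b) _ _).trans ?_
    have e : Hn G.M = (G.M : ℝ)⁻¹ ^ 2 • pT G.M fun v => cs1 G.M v.1 := pT_smul G.M _ _
    have e2 : (fun z : (tSb G.M b).L => Hn G.M z * pT G.M (fun v => Bst c (fX c) v - beta G.M c.m * qv G.M v) z)
        = fun z => (G.M : ℝ)⁻¹ ^ 2 * (pT G.M (fun v => cs1 G.M v.1) z
          * pT G.M (fun v => Bst c (fX c) v - beta G.M c.m * qv G.M v) z) := by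
      funext z
      rw [e]
      exact mul_assoc _ _ _
    refine (congrArg (tSb G.M b).E0 e2).trans ?_
    refine (rd_E0_smul (S := tSb G.M b) _ _).trans ?_
    exact mul_eq_zero_of_right _ key
  · rw [sum_torus]
    refine Finset.sum_eq_zero fun y _ => ?_
    calc ∑ x : ZMod G.M, (Bst c (fX c) (x, y) - beta G.M c.m * qv G.M (x, y))
        = ∑ x : ZMod G.M, ((G.M : ℝ)⁻¹ ^ 2 * (beta G.M c.m)⁻¹ * aC c (x, y)
            - (G.M : ℝ)⁻¹ ^ 2 * beta G.M c.m * cs1 G.M x) :=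
          Finset.sum_congr rfl fun x _ => by rw [hρ]; ring
      _ = 0 := by
          rw [Finset.sum_sub_distrib, ← Finset.mul_sum, ← Finset.mul_sum, (aC_ortho hG hc hN y).2.2, hc0]
          ring
  · intro y
    calc ∑ x : ZMod G.M, (Bst c (fX c) (x, y) - beta G.M c.m * qv G.M (x, y)) * cs1 G.M x
        = ∑ x : ZMod G.M, ((G.M : ℝ)⁻¹ ^ 2 * (beta G.M c.m)⁻¹ * (aC c (x, y) * cs1 G.M x)
            - (G.M : ℝ)⁻¹ ^ 2 * beta G.M c.m * cs1 G.M x ^ 2) :=
          Finset.sum_congr rfl fun x _ => by rw [hρ]; ring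
      _ = 0 := by
          rw [Finset.sum_sub_distrib, ← Finset.mul_sum, ← Finset.mul_sum, (aC_ortho hG hc hN y).1, hsq]
          field_simp
          ring
  · intro y
    calc ∑ x : ZMod G.M, (Bst c (fX c) (x, y) - beta G.M c.m * qv G.M (x, y)) * sn1 G.M x
        = ∑ x : ZMod G.M, ((G.M : ℝ)⁻¹ ^ 2 * (beta G.M c.m)⁻¹ * (aC c (x, y) * sn1 G.M x)
            - (G.M : ℝ)⁻¹ ^ 2 * beta G.M c.m * (cs1 G.M x * sn1 G.M x)) :=
          Finset.sum_congr rfl fun x _ => by rw [hρ]; ring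
      _ = 0 := by
          rw [Finset.sum_sub_distrib, ← Finset.mul_sum, ← Finset.mul_sum, (aC_ortho hG hc hN y).2.1, hcs]
          ring

/-! ## 5. The alias decomposition -/

theorem flowS_lin (S : LSys) (a a' : ℝ) (t t' : S.E → ℝ) :
    flowS S (fun e => a * t e + a' * t' e) = a • flowS S t + a' • flowS S t' := by
  ext z
  simp only [frs_flowS_apply, AddMonoidHom.add_apply, AddMonoidHom.smul_apply, smul_eq_mul, Finset.mul_sum,
    ← Finset.sum_add_distrib]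
  refine Finset.sum_congr rfl fun e _ => ?_
  ring

theorem sum_lin_sq_le {ι : Type} [Fintype ι] (a a' : ℝ) (t t' : ι → ℝ) :
    ∑ e, (a * t e + a' * t' e) ^ 2 ≤ 2 * a ^ 2 * ∑ e, t e ^ 2 + 2 * a' ^ 2 * ∑ e, t' e ^ 2 := by
  rw [Finset.mul_sum, Finset.mul_sum, ← Finset.sum_add_distrib]
  refine Finset.sum_le_sum fun e _ => ?_
  nlinarith [sq_nonneg (a * t e - a' * t' e)]

/-- the constant of the alias cost -/
def Ca : ℝ := Real.pi ^ 6 / 4 + 128 * Real.pi ^ 4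

theorem Ca_nonneg : 0 ≤ Ca := by unfold Ca; positivity

/-- **[E] Lemma 3.5, the alias decomposition.** -/
theorem alias_split (hG : G.bc = BC.per) {c : Grid G} (hc : Whole c) (h4 : c.m * 4 ≤ G.M) :
    ∃ tR : (tS G.M).E → ℝ,
      (tobs c).row (fX c) = beta G.M c.m • Hn G.M + flowS (tS G.M) tR ∧ ∑ e, tR e ^ 2 ≤ Ca * snr c ^ 4 ∧
      ∀ b : ℝ, 0 < b → (tSb G.M b).Cv 0 0 (Hn G.M) (flowS (tS G.M) tR) = 0 := by
  have hs : 1 ≤ c.m := hc.pos
  have hn : 3 ≤ G.M := by omega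
  obtain ⟨hβ, hβ1, hβ2⟩ := beta_bounds G.M c.m hs h4
  set β := beta G.M c.m with hβdef
  have hβ0 : β ≠ 0 := by linarith
  have hβp : 0 < β := by linarith
  obtain ⟨t, ht, htc⟩ := alias_flow hG hc
  have hMpos : (0 : ℝ) < G.M := by exact_mod_cast G.hM
  have eFl : flowS (tS G.M) (fun e => (β⁻¹ - β) * torω G.M e + ((G.M : ℝ)⁻¹ ^ 2 / β) * t e)
      = (β⁻¹ - β) • Hn G.M + ((G.M : ℝ)⁻¹ ^ 2 / β) • pT G.M fun v => aC c v - cs1 G.M v.1 := by
    rw [Hn_flow G.M (by omega), ht]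
    exact flowS_lin (tS G.M) (β⁻¹ - β) ((G.M : ℝ)⁻¹ ^ 2 / β) (torω G.M) t
  refine ⟨fun e => (β⁻¹ - β) * torω G.M e + ((G.M : ℝ)⁻¹ ^ 2 / β) * t e, ?_, ?_, ?_⟩
  · rw [row_eq, eFl]
    have e : Bst c (fX c) = fun v => β⁻¹ * qv G.M v + ((G.M : ℝ)⁻¹ ^ 2 / β) * (aC c v - cs1 G.M v.1) := by
      funext v
      rw [Bst_fX hc, qv, ← hβdef]
      field_simp
      ring
    rw [e]
    have e1 := pT_add G.M (fun v => β⁻¹ * qv G.M v) fun v => ((G.M : ℝ)⁻¹ ^ 2 / β) * (aC c v - cs1 G.M v.1)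
    have e2 := pT_smul G.M β⁻¹ (qv G.M)
    have e3 := pT_smul G.M ((G.M : ℝ)⁻¹ ^ 2 / β) fun v => aC c v - cs1 G.M v.1
    show pT G.M _ = _
    rw [e1, e2, e3]
    show β⁻¹ • Hn G.M + _ = _
    rw [sub_smul]
    abel
  · refine (sum_lin_sq_le _ _ _ _).trans ?_
    have h1 := torω_cost G.M hn
    have hd0 : 0 ≤ β⁻¹ - β := by
      rw [sub_nonneg]
      calc β ≤ 1 := hβ1
        _ ≤ β⁻¹ := (one_le_inv₀ hβp).2 hβ1
    have hsn : 0 ≤ snr c := by unfold snr; positivity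
    have hd1 : β⁻¹ - β ≤ Real.pi ^ 2 * snr c ^ 2 := by
      have e : β⁻¹ - β = (1 - β) * ((1 + β) * β⁻¹) := by field_simp; ring
      have hinv : β⁻¹ ≤ 2 := by
        rw [inv_le_comm₀ hβp (by norm_num)]
        linarith
      have h2 : (1 + β) * β⁻¹ ≤ 4 := by nlinarith [inv_pos.2 hβp]
      have h3 : 0 ≤ (1 + β) * β⁻¹ := by positivity
      have h4' : 0 ≤ 1 - β := by linarith
      rw [e]
      calc (1 - β) * ((1 + β) * β⁻¹) ≤ (Real.pi ^ 2 / 4 * ((c.m : ℝ) / G.M) ^ 2) * 4 :=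
            mul_le_mul hβ2 h2 h3 (by positivity)
        _ = _ := by unfold snr; ring
    have hd2 : (β⁻¹ - β) ^ 2 ≤ Real.pi ^ 4 * snr c ^ 4 := by
      calc (β⁻¹ - β) ^ 2 ≤ (Real.pi ^ 2 * snr c ^ 2) ^ 2 := pow_le_pow_left₀ hd0 hd1 2
        _ = _ := by ring
    have hq : ((G.M : ℝ)⁻¹ ^ 2 / β) ^ 2 ≤ 4 * (G.M : ℝ)⁻¹ ^ 4 := by
      have hinv : β⁻¹ ≤ 2 := by
        rw [inv_le_comm₀ hβp (by norm_num)]
        linarith
      have : ((G.M : ℝ)⁻¹ ^ 2 / β) ^ 2 = (G.M : ℝ)⁻¹ ^ 4 * β⁻¹ ^ 2 := by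
        rw [div_eq_mul_inv]; ring
      rw [this]
      have h5 : β⁻¹ ^ 2 ≤ 4 := by nlinarith [inv_pos.2 hβp]
      nlinarith [pow_pos (inv_pos.2 hMpos) 4]
    have hT0 : 0 ≤ ∑ e, torω G.M e ^ 2 := Finset.sum_nonneg fun _ _ => sq_nonneg _
    have ht0 : 0 ≤ ∑ e, t e ^ 2 := Finset.sum_nonneg fun _ _ => sq_nonneg _
    have A1 : 2 * (β⁻¹ - β) ^ 2 * ∑ e, torω G.M e ^ 2 ≤ 2 * (Real.pi ^ 4 * snr c ^ 4) * (Real.pi ^ 2 / 8) :=
      mul_le_mul (by linarith) h1 hT0 (by positivity)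
    have A2 : 2 * ((G.M : ℝ)⁻¹ ^ 2 / β) ^ 2 * ∑ e, t e ^ 2
        ≤ 2 * (4 * (G.M : ℝ)⁻¹ ^ 4) * (16 * Real.pi ^ 4 * (c.m : ℝ) ^ 4) :=
      mul_le_mul (by linarith) htc ht0 (by positivity)
    have e4 : (G.M : ℝ)⁻¹ ^ 4 * (c.m : ℝ) ^ 4 = snr c ^ 4 := by
      unfold snr
      rw [div_eq_mul_inv]
      ring
    calc _ ≤ 2 * (Real.pi ^ 4 * snr c ^ 4) * (Real.pi ^ 2 / 8)
          + 2 * (4 * (G.M : ℝ)⁻¹ ^ 4) * (16 * Real.pi ^ 4 * (c.m : ℝ) ^ 4) := add_le_add A1 A2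
      _ = Real.pi ^ 6 / 4 * snr c ^ 4 + 128 * Real.pi ^ 4 * ((G.M : ℝ)⁻¹ ^ 4 * (c.m : ℝ) ^ 4) := by ring
      _ = _ := by rw [e4]; unfold Ca; ring
  · intro b hb
    have h := ortho hG hc h4 b hb
    have e : pT G.M (fun v => Bst c (fX c) v - β * qv G.M v)
        = flowS (tS G.M) fun e => (β⁻¹ - β) * torω G.M e + ((G.M : ℝ)⁻¹ ^ 2 / β) * t e := by
      rw [eFl]
      have e0 : (fun v => Bst c (fX c) v - β * qv G.M v)
          = fun v => (β⁻¹ - β) * qv G.M v + ((G.M : ℝ)⁻¹ ^ 2 / β) * (aC c v - cs1 G.M v.1) := by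
        funext v
        rw [Bst_fX hc, qv, ← hβdef]
        field_simp
        ring
      rw [e0, pT_add, pT_smul, pT_smul]
      rfl
    rw [e] at h
    exact h

/-! ## 6. Abstract consequences -/

/-- uncorrelated tests: the variance splits -/
theorem var_split (S : LSys) (hS : S.Ok) (β : ℝ) (H R : S.L →+ ℝ) (h : S.Cv 0 0 H R = 0) :
    S.V0 (β • H + R) = β ^ 2 * S.V0 H + S.V0 R := by
  rw [var_add S hS, rd_V0_smul]
  have : S.Cv 0 0 (β • H) R = β * S.Cv 0 0 H R := by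
    rw [rd_Cv0_eq, rd_Cv0_eq, ← rd_E0_smul]
    congr 1
    funext z
    rw [AddMonoidHom.smul_apply, smul_eq_mul, mul_assoc]
  rw [this, h]
  ring

/-- L-CUT-P1.  **[E] L2.6 integrated.**  `E2.e2_V0_hasDerivAt hS X t ht : HasDerivAt (fun t => (S.atb _).V0 X) (dV S X t) t`, `0 ≤ dV` (`e2_dV_nonneg`), `dV ≤ card E * (Cup t * ∑ ω²)` (`e2_response_upper`, `hX = fun z => rfl`), `Cup t ≤ Cup b1` (`E2.e2_Cup_mono`);
mean value inequality on `Icc b0 b1` (`Convex.norm_image_sub_le_of_norm_hasDerivWithin_le`, `convex_Icc`). -/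
theorem v0_lip (S : LSys) (hS : S.Ok) (ω : S.E → ℝ) (b0 b1 : ℝ) (h0 : 0 < b0) :
    ∀ b ∈ Set.Icc b0 b1, ∀ b' ∈ Set.Icc b0 b1,
      |(S.atb fun _ => b).V0 (flowS S ω) - (S.atb fun _ => b').V0 (flowS S ω)|
        ≤ |b - b'| * ((Fintype.card S.E : ℝ) * (Cup b1 * ∑ e, ω e ^ 2)) := by
  intro b hb b' hb'
  have hQ0 : 0 ≤ ∑ e, ω e ^ 2 := Finset.sum_nonneg fun _ _ => sq_nonneg _
  have hder : ∀ t ∈ Set.Icc b0 b1, HasDerivWithinAt (fun t => (S.atb fun _ => t).V0 (flowS S ω)) (dV S (flowS S ω) t) (Set.Icc b0 b1) t :=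
    fun t ht => (e2_V0_hasDerivAt hS (flowS S ω) t (lt_of_lt_of_le h0 ht.1)).hasDerivWithinAt
  have hbd : ∀ t ∈ Set.Icc b0 b1, ‖dV S (flowS S ω) t‖ ≤ (Fintype.card S.E : ℝ) * (Cup b1 * ∑ e, ω e ^ 2) := by
    intro t ht
    have htp := lt_of_lt_of_le h0 ht.1
    rw [Real.norm_eq_abs, abs_of_nonneg (e2_dV_nonneg hS _ t htp)]
    refine (e2_response_upper hS (flowS S ω) ω (fun z => rfl) t htp).trans ?_
    exact mul_le_mul_of_nonneg_left (mul_le_mul_of_nonneg_right (e2_Cup_mono ht.2) hQ0) (Nat.cast_nonneg _)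
  have h := Convex.norm_image_sub_le_of_norm_hasDerivWithin_le hder hbd (convex_Icc b0 b1) hb' hb
  rw [Real.norm_eq_abs, Real.norm_eq_abs] at h
  calc _ ≤ _ := h
    _ = _ := by ring

theorem cmx_E0_abs_le (S : LSys) (hS : S.Ok) {F G : S.L → ℝ} (hF : S.Dom F) (hG : S.Dom G)
    (h : ∀ z, |F z| ≤ G z) : |S.E0 F| ≤ S.E0 G := by
  rw [abs_le]
  constructor
  · have h1 := rd_E0_mono hS (rd_dom_neg hG) hF (fun z => (abs_le.1 (h z)).1)
    have h2 : S.E0 (fun z => -G z) = -S.E0 G := by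
      have := rd_E0_smul (S := S) (-1) G
      simpa using this
    linarith
  · exact rd_E0_mono hS hF hG fun z => (abs_le.1 (h z)).2

theorem cmx_E0_sub (S : LSys) (hS : S.Ok) {F G : S.L → ℝ} (hF : S.Dom F) (hG : S.Dom G) :
    S.E0 (fun z => F z - G z) = S.E0 F - S.E0 G := by
  simp only [rd_E0_eq, rd_Zf_sub hS hF hG, sub_div]

theorem cmx_exp_sq (S : LSys) (t : S.E → ℝ) :
    (fun z : S.L => Real.exp (flowS S t z) ^ 2) = fun z => Real.exp (flowS S (fun e => 2 * t e) z) := by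
  funext z
  rw [frs_flowS_smul, AddMonoidHom.smul_apply, smul_eq_mul, ← Real.exp_nat_mul]
  norm_num

theorem cmx_mgf2 (S : LSys) (hS : S.Ok) (β : ℝ) (hβ : ∀ e, S.b e ≤ β) (t : S.E → ℝ) :
    S.E0 (fun z => Real.exp (flowS S t z) ^ 2)
      ≤ Real.exp (β * (Real.cosh (2 * Real.sqrt (∑ e, t e ^ 2)) - 1)) := by
  have h := fr_ref_mgf S hS β hβ (fun e => 2 * t e)
  have e2 : Real.sqrt (∑ e, (2 * t e) ^ 2) = 2 * Real.sqrt (∑ e, t e ^ 2) := by
    have : ∑ e, (2 * t e) ^ 2 = 2 ^ 2 * ∑ e, t e ^ 2 := by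
      rw [Finset.mul_sum]
      exact Finset.sum_congr rfl fun e _ => by ring
    rw [this, Real.sqrt_mul (by norm_num), Real.sqrt_sq (by norm_num)]
  rw [cmx_exp_sq]
  rw [e2] at h
  exact h

theorem cmx_cosh_mono {x y : ℝ} (hx : 0 ≤ x) (h : x ≤ y) : Real.cosh x ≤ Real.cosh y :=
  Real.cosh_le_cosh.2 (by rw [abs_of_nonneg hx, abs_of_nonneg (hx.trans h)]; exact h)

/-- L-CUT-M1.  **Stability of the mixed transform.**  `D = E0 [cos M e^Y (1 - e^R)]`, `|D| ≤ E0 [e^Y |1 - e^R|] ≤ (E0 e^{2Y})^{1/2} (E0 (1 - e^R)²)^{1/2}` (`rd_E0_mono`, `Free.E0_cs`; domination: `rd_dom_exp`, `rd_dom_cos`, `rd_dom_mul`, ...).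
`E0 e^{2Y} ≤ exp (b1 (cosh (2√K) - 1))` (`Free.fr_ref_mgf`, `frs_flowS_smul`).  `E0 (1 - e^R)² = 1 - 2 E0 e^R + E0 e^{2R} ≤ E0 e^{2R} - 1` (`E0 e^R ≥ 1`: `rd_mgf_lower` with `s = 1`, `rd_V0_nonneg`) `≤ exp (b1 (cosh (2σ) - 1)) - 1`, `σ² = ∑ tR² ≤ K`;
`cosh x - 1 ≤ x²/2 cosh x` (`Free.cosh_sub_one_le`), `e^u - 1 ≤ u e^u` (`E2.e2_exp_sub_one_le`): `≤ C' σ²`.  WLOG `0 ≤ b1, K` (else the hypotheses are empty unless `E` is empty; use `|b1|`, `|K|` in the constant). -/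
theorem mix_le (b1 K : ℝ) : ∃ C : ℝ, 0 ≤ C ∧ ∀ S : LSys, S.Ok → (∀ e, S.b e ≤ b1) → ∀ (M : S.L →+ ℝ) (tY tR : S.E → ℝ),
    ∑ e, tY e ^ 2 ≤ K → ∑ e, tR e ^ 2 ≤ K →
      |S.E0 (fun z => Real.cos (M z) * Real.exp (flowS S tY z))
          - S.E0 (fun z => Real.cos (M z) * Real.exp (flowS S tY z + flowS S tR z))|
        ≤ C * Real.sqrt (∑ e, tR e ^ 2) := by
  obtain ⟨β, hβdef⟩ : ∃ β, β = |b1| := ⟨_, rfl⟩
  obtain ⟨κ, hκdef⟩ : ∃ κ, κ = |K| := ⟨_, rfl⟩
  have hβ0 : 0 ≤ β := hβdef ▸ abs_nonneg _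
  have hκ0 : 0 ≤ κ := hκdef ▸ abs_nonneg _
  obtain ⟨ch, hch⟩ : ∃ ch, ch = Real.cosh (2 * Real.sqrt κ) := ⟨_, rfl⟩
  have hch1 : 1 ≤ ch := hch ▸ Real.one_le_cosh _
  obtain ⟨A, hA⟩ : ∃ A, A = Real.exp (β * (ch - 1)) := ⟨_, rfl⟩
  obtain ⟨U, hU⟩ : ∃ U, U = 2 * β * κ * ch := ⟨_, rfl⟩
  obtain ⟨B, hB⟩ : ∃ B, B = 2 * β * ch * Real.exp U := ⟨_, rfl⟩
  have hA0 : 0 ≤ A := hA ▸ (Real.exp_pos _).le
  have hB0 : 0 ≤ B := by rw [hB]; have := Real.exp_pos U; positivity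
  refine ⟨Real.sqrt (A * B), Real.sqrt_nonneg _, ?_⟩
  intro S hS hb M tY tR hY hR
  have hβ : ∀ e, S.b e ≤ β := fun e => (hb e).trans (hβdef ▸ le_abs_self _)
  have hYκ : ∑ e, tY e ^ 2 ≤ κ := hY.trans (hκdef ▸ le_abs_self _)
  have hRκ : ∑ e, tR e ^ 2 ≤ κ := hR.trans (hκdef ▸ le_abs_self _)
  obtain ⟨T, hT⟩ : ∃ T, T = ∑ e, tR e ^ 2 := ⟨_, rfl⟩
  have hT0 : 0 ≤ T := hT ▸ Finset.sum_nonneg fun _ _ => sq_nonneg _
  rw [← hT] at hRκ ⊢
  -- domination
  have dY : S.Dom fun z => Real.exp (flowS S tY z) := rd_dom_exp _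
  have dR : S.Dom fun z => Real.exp (flowS S tR z) := rd_dom_exp _
  have dC : S.Dom fun z => Real.cos (M z) := rd_dom_cos _
  have d1R : S.Dom fun z => 1 - Real.exp (flowS S tR z) := rd_dom_sub (rd_dom_const 1) dR
  have dF1 : S.Dom fun z => Real.cos (M z) * Real.exp (flowS S tY z) := rd_dom_mul dC dY
  have dF2 : S.Dom fun z => Real.cos (M z) * Real.exp (flowS S tY z + flowS S tR z) := by
    have := rd_dom_mul dC (rd_dom_exp (flowS S tY + flowS S tR))
    simpa using this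
  -- step 1, 2
  have s1 : |S.E0 (fun z => Real.cos (M z) * Real.exp (flowS S tY z))
          - S.E0 (fun z => Real.cos (M z) * Real.exp (flowS S tY z + flowS S tR z))|
      ≤ S.E0 fun z => Real.exp (flowS S tY z) * |1 - Real.exp (flowS S tR z)| := by
    rw [← cmx_E0_sub S hS dF1 dF2]
    refine cmx_E0_abs_le S hS (rd_dom_sub dF1 dF2) (rd_dom_mul dY (rd_dom_abs d1R)) fun z => ?_
    have e : Real.cos (M z) * Real.exp (flowS S tY z) - Real.cos (M z) * Real.exp (flowS S tY z + flowS S tR z)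
        = Real.cos (M z) * (Real.exp (flowS S tY z) * (1 - Real.exp (flowS S tR z))) := by
      rw [Real.exp_add]; ring
    rw [e, abs_mul, abs_mul, abs_of_pos (Real.exp_pos _)]
    exact mul_le_of_le_one_left (by positivity) (Real.abs_cos_le_one _)
  -- step 3
  have s3 := E0_cs S hS _ _ dY (rd_dom_abs d1R)
  -- step 4
  have s4 : S.E0 (fun z => Real.exp (flowS S tY z) ^ 2) ≤ A := by
    refine (cmx_mgf2 S hS β hβ tY).trans ?_
    rw [hA]
    refine Real.exp_le_exp.2 (mul_le_mul_of_nonneg_left ?_ hβ0)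
    have : Real.cosh (2 * Real.sqrt (∑ e, tY e ^ 2)) ≤ ch := by
      rw [hch]
      exact cmx_cosh_mono (by positivity) (by linarith [Real.sqrt_le_sqrt hYκ])
    linarith
  -- step 5
  have s5 : S.E0 (fun z => |1 - Real.exp (flowS S tR z)| ^ 2) ≤ B * T := by
    have e : (fun z : S.L => |1 - Real.exp (flowS S tR z)| ^ 2)
        = fun z => (1 + (-2) * Real.exp (flowS S tR z)) + Real.exp (flowS S tR z) ^ 2 := by
      funext z
      rw [sq_abs]; ring
    rw [e, rd_E0_add hS (rd_dom_add (rd_dom_const 1) (rd_dom_smul _ dR)) (rd_dom_pow dR 2),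
      rd_E0_add hS (rd_dom_const 1) (rd_dom_smul _ dR), rd_E0_const hS, rd_E0_smul]
    have l1 : 1 ≤ S.E0 fun z => Real.exp (flowS S tR z) := by
      have h := rd_mgf_lower hS (flowS S tR) 1
      have h0 := rd_V0_nonneg hS (flowS S tR)
      simp only [one_smul] at h
      nlinarith
    have l2 := cmx_mgf2 S hS β hβ tR
    rw [← hT] at l2
    obtain ⟨σ, hσ⟩ : ∃ σ, σ = Real.sqrt T := ⟨_, rfl⟩
    have hσ0 : 0 ≤ σ := hσ ▸ Real.sqrt_nonneg _
    have hσ2 : σ ^ 2 = T := by rw [hσ, Real.sq_sqrt hT0]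
    rw [← hσ] at l2
    have hc2 : Real.cosh (2 * σ) ≤ ch := by
      rw [hch, hσ]
      exact cmx_cosh_mono (by positivity) (by linarith [Real.sqrt_le_sqrt hRκ])
    obtain ⟨u, hu⟩ : ∃ u, u = β * (Real.cosh (2 * σ) - 1) := ⟨_, rfl⟩
    have hu0 : 0 ≤ u := by rw [hu]; exact mul_nonneg hβ0 (by linarith [Real.one_le_cosh (2 * σ)])
    have hu1 : u ≤ 2 * β * ch * T := by
      have h1 := Free.cosh_sub_one_le (2 * σ)
      have h2 : (2 * σ) ^ 2 / 2 * Real.cosh (2 * σ) ≤ 2 * T * ch := by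
        have : (2 * σ) ^ 2 / 2 = 2 * T := by rw [← hσ2]; ring
        rw [this]
        exact mul_le_mul_of_nonneg_left hc2 (by positivity)
      rw [hu]
      calc β * (Real.cosh (2 * σ) - 1) ≤ β * (2 * T * ch) := mul_le_mul_of_nonneg_left (h1.trans h2) hβ0
        _ = _ := by ring
    have hu2 : u ≤ U := by
      refine hu1.trans ?_
      rw [hU]
      have : 2 * β * ch * T ≤ 2 * β * ch * κ := mul_le_mul_of_nonneg_left hRκ (by positivity)
      linarith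
    rw [← hu] at l2
    have l3 : Real.exp u - 1 ≤ B * T := by
      refine (e2_exp_sub_one_le u).trans ?_
      calc u * Real.exp u ≤ (2 * β * ch * T) * Real.exp U :=
            mul_le_mul hu1 (Real.exp_le_exp.2 hu2) (Real.exp_pos _).le (by positivity)
        _ = B * T := by rw [hB]; ring
    linarith
  have s6 : (S.E0 fun z => Real.exp (flowS S tY z) * |1 - Real.exp (flowS S tR z)|) ^ 2 ≤ A * B * T := by
    refine s3.trans ?_
    have h0 : 0 ≤ S.E0 (fun z => |1 - Real.exp (flowS S tR z)| ^ 2) := by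
      rw [rd_E0_eq]
      exact div_nonneg (rd_Zf_nonneg hS 0 fun z => sq_nonneg _) (rd_w_pos hS 0).le
    calc _ ≤ A * (B * T) := mul_le_mul s4 s5 h0 hA0
      _ = _ := by ring
  refine s1.trans ?_
  rw [← Real.sqrt_mul (mul_nonneg hA0 hB0)]
  exact (le_abs_self _).trans (Real.abs_le_sqrt s6)

/-- L-CUT-M2.  `|E0 (cos M e^Y)| ≤ E0 e^Y ≤ exp (b1 (cosh √K - 1))` (`rd_E0_mono` both signs, `Free.fr_ref_mgf`, `Real.cosh_le_cosh`, `Real.sqrt_le_sqrt`). -/
theorem mix_bdd (b1 K : ℝ) (hb1 : 0 ≤ b1) (S : LSys) (hS : S.Ok) (hb : ∀ e, S.b e ≤ b1) (M : S.L →+ ℝ) (tY : S.E → ℝ)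
    (hY : ∑ e, tY e ^ 2 ≤ K) :
    |S.E0 fun z => Real.cos (M z) * Real.exp (flowS S tY z)| ≤ Real.exp (b1 * (Real.cosh (Real.sqrt K) - 1)) := by
  have h1 : |S.E0 fun z => Real.cos (M z) * Real.exp (flowS S tY z)| ≤ S.E0 fun z => Real.exp (flowS S tY z) :=
    cmx_E0_abs_le S hS (rd_dom_mul (rd_dom_cos _) (rd_dom_exp _)) (rd_dom_exp _) fun z => by
      rw [abs_mul, abs_of_pos (Real.exp_pos _)]
      exact mul_le_of_le_one_left (Real.exp_pos _).le (Real.abs_cos_le_one _)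
  refine h1.trans ((fr_ref_mgf S hS b1 hb tY).trans (Real.exp_le_exp.2 ?_))
  refine mul_le_mul_of_nonneg_left ?_ hb1
  have := cmx_cosh_mono (Real.sqrt_nonneg _) (Real.sqrt_le_sqrt hY)
  linarith

/-- Stores the on-demand equation lemmas of the definitions above in THIS module (rule 6 hygiene). -/
theorem cut_phys_forced : True := by
  have := @qv.eq_1
  have := @Hn.eq_1
  have := @Mn.eq_1
  have := @tMix.eq_1
  have := @aC.eq_1
  have := @sn1.eq_1
  have := @tau.eq_1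
  have := @cvB.eq_1
  have := @Ca.eq_1
  trivial

end

end Claimed.Agent.R285.Cut
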