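import Claimed.Agent.R285.Cut.Abs
import Claimed.Agent.R285.E2.Torus
import Claimed.Agent.R285.F4a.Unfold
import Claimed.Agent.R285.F4a.UnitB

/-!
# ROW 285, post BP-E3-CUTGRID (architect helper167), file 3: THE TORUS INSTANCE of the abstract layer.

`G` periodic of side `n = G.M`, `c` whole cells of side `s = c.m`.  The lattice system is E2's `tS n = sysP (torus n) {0}` (bonds of `Defs.torus n`, heights pinned at the origin), so that `torVar`, `torPhase`, `torMix` are
`V0`, `phi`, `E0` of this system (`E2.e2_Vr_eq`, ...).  The vocabulary of F4a lives on `G.V = Fin n × Fin n`; the two are related ONCE, by `vE G : ZMod n × ZMod n ≃ G.V`.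
* `hgt G z x` = the physical height `2π h_x` of the lattice point `z = ∇h`;   `tobs c : Obs (tS n)`: observations `avg c (hgt G z)`, faces `Face c`, side `s`.
* s1 `sm_lin`, `sm_lin_sq`, `sm_cos`, `sm_cos_exp`: exact Gaussian formulas ("Theorem G", abstract).
* s3 `eh_eq : Eh b c H = (tobs c).Ec b H`  ("Theorem U": unfolding of the translation copies + Gaussian density + relabelling).
* s4 `tobs_ok`: the cell flows of `F4a.cell_flow` carried to `torus n`;  `row_eq`: rows are `E2.physT` of `Bst c l = B_s^* l`.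

## Leaves (every `sorry`; the name is in the docstring; several leaves share this file: edit only your own theorems, helpers directly above them, splice on a fresh pull)
-/

set_option autoImplicit false

namespace Claimed.Agent.R285.Cut

open scoped BigOperators ENNReal
open MeasureTheory ProbabilityTheory
open Claimed.Agent.R285 Claimed.Agent.R285.RG Claimed.Agent.R285.F4a Claimed.Agent.R285.E2

noncomputable section

/-! ## 1. Exact Gaussian formulas (abstract) -/

theorem smc_int1 (ζ : ℂ) : Integrable (fun x : ℝ => Complex.exp (ζ * x)) (gaussianReal 0 1) := by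
  rw [← integrable_norm_iff (by fun_prop)]
  simpa [Complex.norm_exp] using integrable_exp_mul_gaussianReal (μ := 0) (v := 1) ζ.re

theorem smc_val1 (ζ : ℂ) : ∫ x : ℝ, Complex.exp (ζ * x) ∂(gaussianReal 0 1) = Complex.exp (ζ ^ 2 / 2) := by
  have := complexMGF_id_gaussianReal (μ := 0) (v := 1) ζ
  simpa [complexMGF] using this

theorem smc_cexp {I : Type} [Fintype I] (ζ : I → ℂ) :
    Integrable (fun e : I → ℝ => Complex.exp (∑ i, ζ i * (e i : ℂ))) (nz I) ∧
      ∫ e : I → ℝ, Complex.exp (∑ i, ζ i * (e i : ℂ)) ∂(nz I) = Complex.exp ((∑ i, ζ i ^ 2) / 2) := by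
  have e : (fun e : I → ℝ => Complex.exp (∑ i, ζ i * (e i : ℂ))) = fun e => ∏ i, Complex.exp (ζ i * (e i : ℂ)) := by
    funext e
    rw [Complex.exp_sum]
  rw [e]
  constructor
  · exact Integrable.fintype_prod (μ := fun _ : I => gaussianReal 0 1) (f := fun i (x : ℝ) => Complex.exp (ζ i * (x : ℂ)))
      (fun i => smc_int1 (ζ i))
  · show ∫ e : I → ℝ, ∏ i, Complex.exp (ζ i * (e i : ℂ)) ∂(Measure.pi fun _ => gaussianReal 0 1) = _
    rw [integral_fintype_prod_eq_prod (μ := fun _ : I => gaussianReal 0 1) (fun i (x : ℝ) => Complex.exp (ζ i * (x : ℂ)))]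
    simp only [smc_val1]
    rw [← Complex.exp_sum, Finset.sum_div]

theorem smc_main {I : Type} [Fintype I] (u l m : I → ℝ) (h : ∑ i, u i * l i = 0) :
    ∫ e, Real.cos (lin u fun i => m i + e i) * Real.exp (lin l fun i => m i + e i) ∂(nz I)
      = Real.exp ((∑ i, l i ^ 2 - ∑ i, u i ^ 2) / 2) * (Real.cos (lin u m) * Real.exp (lin l m)) := by
  obtain ⟨h1, h2⟩ := smc_cexp fun i => ((l i : ℂ) + Complex.I * (u i : ℂ))
  have key : ∀ a b : ℝ, Real.cos a * Real.exp b = (Complex.exp ((b : ℂ) + Complex.I * (a : ℂ))).re := by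
    intro a b
    rw [Complex.exp_re]
    simp [mul_comm]
  have hsum : ∀ y : I → ℝ, ∑ i, ((l i : ℂ) + Complex.I * (u i : ℂ)) * (y i : ℂ)
      = ((lin l y : ℝ) : ℂ) + Complex.I * ((lin u y : ℝ) : ℂ) := by
    intro y
    unfold lin
    push_cast
    rw [Finset.mul_sum, ← Finset.sum_add_distrib]
    refine Finset.sum_congr rfl fun i _ => ?_
    ring
  have hsq : ∑ i, ((l i : ℂ) + Complex.I * (u i : ℂ)) ^ 2 = ((∑ i, l i ^ 2 - ∑ i, u i ^ 2 : ℝ) : ℂ) := by
    have h' : (∑ i, (u i : ℂ) * (l i : ℂ)) = 0 := by exact_mod_cast congrArg (fun t : ℝ => (t : ℂ)) h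
    have : ∀ i, ((l i : ℂ) + Complex.I * (u i : ℂ)) ^ 2
        = (l i : ℂ) ^ 2 - (u i : ℂ) ^ 2 + 2 * Complex.I * ((u i : ℂ) * (l i : ℂ)) := by
      intro i
      have := Complex.I_sq
      linear_combination (u i : ℂ) ^ 2 * this
    simp only [this]
    rw [Finset.sum_add_distrib, Finset.sum_sub_distrib, ← Finset.mul_sum, h']
    push_cast
    ring
  have e1 : (fun e : I → ℝ => Real.cos (lin u fun i => m i + e i) * Real.exp (lin l fun i => m i + e i))
      = fun e => (Complex.exp (((lin l m : ℝ) : ℂ) + Complex.I * ((lin u m : ℝ) : ℂ))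
          * Complex.exp (∑ i, ((l i : ℂ) + Complex.I * (u i : ℂ)) * (e i : ℂ))).re := by
    funext e
    rw [key, lin_add, lin_add, hsum, ← Complex.exp_add]
    congr 2
    push_cast
    ring
  rw [e1]
  have h3 := h1.const_mul (Complex.exp (((lin l m : ℝ) : ℂ) + Complex.I * ((lin u m : ℝ) : ℂ)))
  rw [show (∫ e : I → ℝ, (Complex.exp (((lin l m : ℝ) : ℂ) + Complex.I * ((lin u m : ℝ) : ℂ))
          * Complex.exp (∑ i, ((l i : ℂ) + Complex.I * (u i : ℂ)) * (e i : ℂ))).re ∂(nz I))
      = (∫ e : I → ℝ, Complex.exp (((lin l m : ℝ) : ℂ) + Complex.I * ((lin u m : ℝ) : ℂ))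
          * Complex.exp (∑ i, ((l i : ℂ) + Complex.I * (u i : ℂ)) * (e i : ℂ)) ∂(nz I)).re from
      integral_re h3]
  rw [integral_const_mul, h2, hsq, ← Complex.exp_add]
  have e2 : ((lin l m : ℝ) : ℂ) + Complex.I * ((lin u m : ℝ) : ℂ) + ((∑ i, l i ^ 2 - ∑ i, u i ^ 2 : ℝ) : ℂ) / 2
      = ((lin l m + (∑ i, l i ^ 2 - ∑ i, u i ^ 2) / 2 : ℝ) : ℂ) + Complex.I * ((lin u m : ℝ) : ℂ) := by
    push_cast
    ring
  rw [e2, ← key, Real.exp_add]
  ring

theorem smg_memLp {I : Type} [Fintype I] (k : I) : MemLp (fun e : I → ℝ => e k) 2 (nz I) := by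
  have h1 : MemLp (id : ℝ → ℝ) 2 (gaussianReal 0 1) := memLp_id_gaussianReal 2
  have h2 := (measurePreserving_eval (fun _ : I => gaussianReal 0 1) k)
  exact h1.comp_measurePreserving h2

theorem smg_prob (I : Type) [Fintype I] : IsProbabilityMeasure (nz I) := by
  unfold nz
  infer_instance

theorem smg_int {I : Type} [Fintype I] (k : I) : Integrable (fun e : I → ℝ => e k) (nz I) := by
  have := smg_prob I
  exact (smg_memLp k).integrable (by norm_num)

theorem smg_int_mul {I : Type} [Fintype I] (i j : I) : Integrable (fun e : I → ℝ => e i * e j) (nz I) :=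
  (smg_memLp i).integrable_mul (smg_memLp j)

theorem smg_sq1 : ∫ t : ℝ, t ^ 2 ∂(gaussianReal 0 1) = 1 := by
  have h := variance_fun_id_gaussianReal (μ := 0) (v := 1)
  rw [variance_eq_integral measurable_id'.aemeasurable] at h
  simpa using h

theorem smg_val_mul {I : Type} [Fintype I] [DecidableEq I] (i j : I) :
    ∫ e : I → ℝ, e i * e j ∂(nz I) = if i = j then 1 else 0 := by
  have e : ∀ ξ : I → ℝ, ξ i * ξ j
      = ∏ k, ((if k = i then ξ k else 1) * (if k = j then ξ k else 1)) := by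
    intro ξ
    rw [Finset.prod_mul_distrib, Finset.prod_ite_eq' Finset.univ i, Finset.prod_ite_eq' Finset.univ j]
    simp
  simp only [e, nz]
  rw [integral_fintype_prod_eq_prod
    (f := fun k (t : ℝ) => (if k = i then t else 1) * (if k = j then t else 1))]
  split_ifs with hij
  · subst hij
    refine Finset.prod_eq_one fun k _ => ?_
    by_cases hk : k = i
    · simp only [hk, if_true, ← sq]
      exact smg_sq1
    · simp [hk]
  · refine Finset.prod_eq_zero (Finset.mem_univ i) ?_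
    simp [hij]

theorem smg_val {I : Type} [Fintype I] (k : I) : ∫ e : I → ℝ, e k ∂(nz I) = 0 := by
  classical
  have e : ∀ ξ : I → ℝ, ξ k = ∏ j, (if j = k then ξ j else 1) := by
    intro ξ
    rw [Finset.prod_ite_eq' Finset.univ k]
    simp
  simp only [e, nz]
  rw [integral_fintype_prod_eq_prod (f := fun j (t : ℝ) => (if j = k then t else 1))]
  refine Finset.prod_eq_zero (Finset.mem_univ k) ?_
  simp

theorem smg_lin_int {I : Type} [Fintype I] (l : I → ℝ) : Integrable (fun e : I → ℝ => lin l e) (nz I) := by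
  unfold lin
  exact integrable_finsetSum _ fun i _ => (smg_int i).const_mul _

theorem smg_lin_val {I : Type} [Fintype I] (l : I → ℝ) : ∫ e : I → ℝ, lin l e ∂(nz I) = 0 := by
  unfold lin
  rw [integral_finsetSum _ fun i _ => (smg_int i).const_mul _]
  simp [integral_const_mul, smg_val]

theorem smg_lin_sq_eq {I : Type} [Fintype I] (l e : I → ℝ) :
    lin l e ^ 2 = ∑ i, ∑ j, (l i * l j) * (e i * e j) := by
  unfold lin
  rw [sq, Finset.sum_mul_sum]
  refine Finset.sum_congr rfl fun i _ => Finset.sum_congr rfl fun j _ => ?_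
  ring

theorem smg_lin_sq_int {I : Type} [Fintype I] (l : I → ℝ) : Integrable (fun e : I → ℝ => lin l e ^ 2) (nz I) := by
  simp only [smg_lin_sq_eq]
  exact integrable_finsetSum _ fun i _ => integrable_finsetSum _ fun j _ => (smg_int_mul i j).const_mul _

theorem smg_lin_sq_val {I : Type} [Fintype I] (l : I → ℝ) : ∫ e : I → ℝ, lin l e ^ 2 ∂(nz I) = ∑ i, l i ^ 2 := by
  classical
  simp only [smg_lin_sq_eq]
  rw [integral_finsetSum _ fun i _ => integrable_finsetSum _ fun j _ => (smg_int_mul i j).const_mul _]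
  refine Finset.sum_congr rfl fun i _ => ?_
  rw [integral_finsetSum _ fun j _ => (smg_int_mul i j).const_mul _]
  simp only [integral_const_mul, smg_val_mul]
  simp [sq]

namespace Obs

variable {S : LSys} (O : Obs S)

/-- L-CUT-G1.  `lin l (m + e) = lin l m + lin l e` (`lin_add`); `∫ lin l e dγ = ∑ l_i ∫ e_i dγ = 0` (`integral_finset_sum`, `integral_const_mul`, `measurePreserving_eval`, `integral_id_gaussianReal`; integrability: `integrable_comp_eval`, `memLp_id_gaussianReal`). -/
theorem sm_lin (l : O.I → ℝ) (z : S.L) : O.sm (fun y => lin l y) z = O.row l z := by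
  have := smg_prob O.I
  unfold Obs.sm
  simp only [lin_add]
  rw [integral_add (integrable_const _) (smg_lin_int l), smg_lin_val, row_apply]
  simp

/-- L-CUT-G1.  `(a + x)² = a² + 2 a x + x²`, `∫ lin l e dγ = 0`, `∫ (lin l e)² dγ = ∑_{i j} l_i l_j ∫ e_i e_j dγ = ∑ l_i²` (`Entry.quad_integral_mul`, `Entry.quad_integrable_mul` of `R285/Entry/Quad.lean`: `stdG = nz` by `rfl`). -/
theorem sm_lin_sq (l : O.I → ℝ) (z : S.L) : O.sm (fun y => lin l y ^ 2) z = O.row l z ^ 2 + ∑ i, l i ^ 2 := by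
  have := smg_prob O.I
  unfold Obs.sm
  have e : ∀ e : O.I → ℝ, lin l (fun i => O.m z i + e i) ^ 2
      = lin l (O.m z) ^ 2 + (2 * lin l (O.m z)) * lin l e + lin l e ^ 2 := by
    intro e
    rw [lin_add]
    ring
  simp only [e]
  have i1 : Integrable (fun e : O.I → ℝ => lin l (O.m z) ^ 2 + (2 * lin l (O.m z)) * lin l e) (nz O.I) :=
    (integrable_const _).add ((smg_lin_int l).const_mul _)
  rw [integral_add i1 (smg_lin_sq_int l),
    integral_add (integrable_const _) ((smg_lin_int l).const_mul _), integral_const_mul, smg_lin_val, smg_lin_sq_val,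
    row_apply]
  simp

/-- L-CUT-G2.  Complex exponential: `∫ ∏_i cexp (ζ_i e_i) dγ = ∏_i cexp (ζ_i²/2)` (`integral_fintype_prod_eq_prod`, `complexMGF_id_gaussianReal`), `ζ_i = l_i + I u_i`, `∑ ζ_i² = ∑ l² - ∑ u² + 2 I ∑ u l`;
`cos (a) e^{b} = Re cexp (b + I a)`; take real parts (`integral_re` / `Complex.reCLM.integral_comp_comm`).  `sm_cos` is the case `l = 0`. -/
theorem sm_cos_exp (u l : O.I → ℝ) (h : ∑ i, u i * l i = 0) (z : S.L) :
    O.sm (fun y => Real.cos (lin u y) * Real.exp (lin l y)) z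
      = Real.exp ((∑ i, l i ^ 2 - ∑ i, u i ^ 2) / 2) * (Real.cos (O.row u z) * Real.exp (O.row l z)) := by
  unfold Obs.sm
  rw [row_apply, row_apply]
  exact smc_main u l (O.m z) h

theorem sm_cos (u : O.I → ℝ) (z : S.L) :
    O.sm (fun y => Real.cos (lin u y)) z = Real.exp (-(∑ i, u i ^ 2) / 2) * Real.cos (O.row u z) := by
  have h := O.sm_cos_exp u 0 (by simp) z
  have e0 : O.row (0 : O.I → ℝ) z = 0 := by simp [row_apply, lin]
  simp only [lin, Pi.zero_apply, zero_mul, Finset.sum_const_zero, Real.exp_zero, mul_one, ne_eq, OfNat.ofNat_ne_zero,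
    not_false_eq_true, zero_pow, zero_sub] at h
  rw [e0, Real.exp_zero, mul_one] at h
  exact h

end Obs

/-! ## 2. Definitions of the instance -/

instance geomNZ (G : Geom) : NeZero G.M := ⟨G.hM.ne'⟩

/-- `ZMod n ≃ Fin n`, `x ↦ x.val` -/
def zf (n : ℕ) [NeZero n] : ZMod n ≃ Fin n where
  toFun x := ⟨x.val, ZMod.val_lt x⟩
  invFun i := ((i : ℕ) : ZMod n)
  left_inv x := ZMod.natCast_zmod_val x
  right_inv i := Fin.ext (ZMod.val_cast_of_lt i.2)

/-- the vertices of `Defs.torus n` and of `G` -/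
def vE (G : Geom) : (torus G.M).V ≃ G.V := (zf G.M).prodCongr (zf G.M)

/-- the lattice system of the torus pinned at the origin, reference temperature `1` (moved by `Zu S t`) -/
abbrev tS (n : ℕ) [NeZero n] : LSys := sysP (torus n) {((0 : ZMod n), (0 : ZMod n))}

/-- the pinned integer height of a lattice point -/
def hInt (n : ℕ) [NeZero n] (z : (tS n).L) : (torus n).V → ℤ :=
  (((eL (e2_torus_proper n)).symm z : (HLaw.plain (torus n) {((0 : ZMod n), (0 : ZMod n))}).Λ) : (torus n).V → ℤ)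

/-- the physical height on `G.V` -/
def hgt (G : Geom) (z : (tS G.M).L) (x : G.V) : ℝ := 2 * Real.pi * (hInt G.M z ((vE G).symm x) : ℝ)

theorem hInt_zero (n : ℕ) [NeZero n] : hInt n 0 = 0 := by
  unfold hInt
  rw [map_zero]
  rfl

theorem hInt_add (n : ℕ) [NeZero n] (z z' : (tS n).L) : hInt n (z + z') = hInt n z + hInt n z' := by
  unfold hInt
  rw [map_add]
  rfl

variable {G : Geom}

/-- **the observed torus** -/
abbrev tobs (c : Grid G) : Obs (tS G.M) where
  I := c.I
  m :=
    { toFun := fun z i => avg c (hgt G z) i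
      map_zero' := by
        funext i
        simp [cellAvg, hgt, hInt_zero]
      map_add' := fun z z' => by
        funext i
        simp only [cellAvg, hgt, hInt_add, Pi.add_apply, Int.cast_add, mul_add, Finset.sum_add_distrib, add_div] }
  Fc := Face c
  a := fun f => f.1
  z := fun f => fnb c f
  s := c.m

/-- `B_s^* l` on the vertices of `torus n` -/
def Bst (c : Grid G) (l : c.I → ℝ) (v : (torus G.M).V) : ℝ :=
  l (c.blk (vE G v)) / ((c.sites {c.blk (vE G v)}).card : ℝ)

/-! ## 3. Relabelling `torus n ↔ (Top.full c).graph` -/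

theorem zf_add_one (n : ℕ) [NeZero n] (x : ZMod n) : ((zf n (x + 1) : Fin n) : ℕ) = ((zf n x : Fin n) + 1) % n := by
  show (x + 1).val = (x.val + 1) % n
  rw [ZMod.val_add, ZMod.val_one_eq_one_mod, Nat.add_mod_mod]

/-- L-CUT-I1.  `(torus n).tgt e = if e.2 then (e.1.1 + 1, e.1.2) else (e.1.1, e.1.2 + 1)`; `F4a.stp_per`; `(x + 1).val = (x.val + 1) % n` (`ZMod.val_add`, `ZMod.val_one_eq_one_mod`, `Nat.add_mod`); `Prod.ext`, `Fin.ext`. -/
theorem vE_tgt (hG : G.bc = BC.per) (e : (torus G.M).E) : vE G ((torus G.M).tgt e) = stp (vE G e.1) e.2 := by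
  obtain ⟨⟨x, y⟩, d⟩ := e
  obtain ⟨p1, p2, p3, p4⟩ := stp_per hG (vE G (x, y))
  cases d
  · apply Prod.ext
    · exact p4.symm
    · apply Fin.ext
      rw [p3]
      exact zf_add_one G.M y
  · apply Prod.ext
    · apply Fin.ext
      rw [p1]
      exact zf_add_one G.M x
    · exact p2.symm

/-- L-CUT-I1.  `Top.full`: all cells, all faces with `IsFace` (`Or.inl hG`).  `stp v d ≠ v`: `stp_per`, `(k + 1) % M ≠ k` for `k < M`, `2 ≤ M` (`whole_card`, `hc.two`, `hc.pos`). -/
theorem isEdge_full (hG : G.bc = BC.per) {c : Grid G} (hc : Whole c) (e : G.V × Bool) : (Top.full c).IsEdge e := by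
  have hM : 2 ≤ G.M := by
    rw [whole_card hc]
    have h1 := hc.two
    have h2 := hc.pos
    nlinarith
  refine ⟨?_, by simp [Top.full], by simp [Top.full], Or.inr ?_⟩
  · obtain ⟨v, d⟩ := e
    obtain ⟨p1, p2, p3, p4⟩ := stp_per hG v
    have key : ∀ k : ℕ, k < G.M → (k + 1) % G.M ≠ k := by
      intro k hk h
      rcases Nat.lt_or_ge (k + 1) G.M with h1 | h1
      · rw [Nat.mod_eq_of_lt h1] at h
        omega
      · have : k + 1 = G.M := by omega
        rw [this, Nat.mod_self] at h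
        omega
    intro h
    cases d
    · have : ((stp v false).2 : ℕ) = v.2 := by
        have h' : stp v false = v := h
        rw [h']
      rw [p3] at this
      exact key _ v.2.2 this
    · have : ((stp v true).1 : ℕ) = v.1 := by
        have h' : stp v true = v := h
        rw [h']
      rw [p1] at this
      exact key _ v.1.2 this
  · unfold Top.full
    simp only [Finset.mem_filter, Finset.mem_univ, true_and]
    exact Or.inl hG

/-- the vertices of the full graph -/
def vF (c : Grid G) : (torus G.M).V ≃ (Top.full c).graph.V :=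
  (vE G).trans ⟨fun x => ⟨x, by simp [Top.full]⟩, fun x => x.1, fun _ => rfl, fun _ => rfl⟩

/-- the bonds of the full graph -/
def eF (hG : G.bc = BC.per) {c : Grid G} (hc : Whole c) : (torus G.M).E ≃ (Top.full c).graph.E :=
  ((vE G).prodCongr (Equiv.refl Bool)).trans
    ⟨fun e => ⟨e, isEdge_full hG hc e⟩, fun e => e.1, fun _ => rfl, fun _ => rfl⟩

theorem eF_src (hG : G.bc = BC.per) {c : Grid G} (hc : Whole c) (e : (torus G.M).E) :
    (Top.full c).graph.src (eF hG hc e) = vF c ((torus G.M).src e) := rfl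

theorem eF_tgt (hG : G.bc = BC.per) {c : Grid G} (hc : Whole c) (e : (torus G.M).E) :
    (Top.full c).graph.tgt (eF hG hc e) = vF c ((torus G.M).tgt e) :=
  Subtype.ext (vE_tgt hG e).symm

/-- the origin as a vertex of the full graph -/
def v0 (c : Grid G) : (Top.full c).graph.V := ⟨og G, by simp [Top.full]⟩

theorem vF_zero (c : Grid G) : vF c ((0 : ZMod G.M), (0 : ZMod G.M)) = v0 c := by
  apply Subtype.ext
  show vE G ((0 : ZMod G.M), (0 : ZMod G.M)) = og G
  apply Prod.ext <;> apply Fin.ext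
  · show (0 : ZMod G.M).val = 0
    exact ZMod.val_zero
  · show (0 : ZMod G.M).val = 0
    exact ZMod.val_zero

/-- heights of the full graph pinned at the origin = heights of the torus pinned at the origin -/
def relH (c : Grid G) : {h : (Top.full c).graph.V → ℤ // h (v0 c) = 0} ≃
    (HLaw.plain (torus G.M) {((0 : ZMod G.M), (0 : ZMod G.M))}).Λ where
  toFun h := ⟨fun v => h.1 (vF c v), by
    intro v hv
    rw [Set.mem_singleton_iff.1 hv]
    show h.1 (vF c ((0 : ZMod G.M), (0 : ZMod G.M))) = 0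
    rw [vF_zero]
    exact h.2⟩
  invFun k := ⟨fun x => k.1 ((vF c).symm x), by
    show k.1 ((vF c).symm (v0 c)) = 0
    have e : (vF c).symm (v0 c) = ((0 : ZMod G.M), (0 : ZMod G.M)) := by
      rw [← vF_zero]
      exact Equiv.symm_apply_apply _ _
    rw [e]
    exact k.2 _ rfl⟩
  left_inv h := by
    apply Subtype.ext
    funext x
    show h.1 (vF c ((vF c).symm x)) = h.1 x
    rw [Equiv.apply_symm_apply]
  right_inv k := by
    apply Subtype.ext
    funext v
    show k.1 ((vF c).symm (vF c v)) = k.1 v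
    rw [Equiv.symm_apply_apply]

theorem relH_apply (c : Grid G) (h : {h : (Top.full c).graph.V → ℤ // h (v0 c) = 0}) (v : (torus G.M).V) :
    (relH c h : (torus G.M).V → ℤ) v = h.1 (vF c v) := rfl

/-- the bijection of `relabel` -/
def relE (c : Grid G) : {h : (Top.full c).graph.V → ℤ // h (v0 c) = 0} ≃ (tS G.M).L :=
  (relH c).trans (eL (e2_torus_proper G.M)).toEquiv

theorem relE_fst (c : Grid G) (h : {h : (Top.full c).graph.V → ℤ // h (v0 c) = 0}) (e : (torus G.M).E) :
    ((relE c h : (tS G.M).L) : (tS G.M).Amb).1 e = h.1 (vF c ((torus G.M).tgt e)) - h.1 (vF c ((torus G.M).src e)) := rfl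

theorem relE_hInt (c : Grid G) (h : {h : (Top.full c).graph.V → ℤ // h (v0 c) = 0}) :
    hInt G.M (relE c h) = fun v => h.1 (vF c v) := by
  unfold hInt
  show (((eL (e2_torus_proper G.M)).symm (eL (e2_torus_proper G.M) (relH c h)) :
    (HLaw.plain (torus G.M) {((0 : ZMod G.M), (0 : ZMod G.M))}).Λ) : (torus G.M).V → ℤ) = _
  rw [AddEquiv.symm_apply_apply]
  rfl

theorem relE_W (hG : G.bc = BC.per) {c : Grid G} (hc : Whole c) (b : ℝ)
    (h : {h : (Top.full c).graph.V → ℤ // h (v0 c) = 0}) :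
    Wu (tS G.M) b ((relE c h : (tS G.M).L) : (tS G.M).Amb) = fwt b c 0 h.1 := by
  unfold Wu fwt HGraph.wt
  have h1 : Real.exp (-(∑ o : (tS G.M).O, ((relE c h : (tS G.M).L) : (tS G.M).Amb).2 o ^ 2) / 2) = 1 := by
    have : ∑ o : (tS G.M).O, ((relE c h : (tS G.M).L) : (tS G.M).Amb).2 o ^ 2 = 0 :=
      Finset.sum_eq_zero fun o _ => (o : Empty).elim
    rw [this]
    simp
  rw [h1, mul_one]
  refine Fintype.prod_equiv (eF hG hc) _ _ fun e => ?_
  have e0 : (Top.full c).econn (0 : Face c → ℤ) (eF hG hc e) = 0 := by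
    unfold Top.econn
    split_ifs <;> rfl
  rw [e0, add_zero, eF_src, eF_tgt]
  rfl

theorem relE_m (c : Grid G) (h : {h : (Top.full c).graph.V → ℤ // h (v0 c) = 0}) :
    (tobs c).m (relE c h) = havg c h.1 := by
  funext i
  show avg c (hgt G (relE c h)) i = havg c h.1 i
  unfold havg
  congr 1
  funext x
  unfold hgt
  rw [relE_hInt]
  show 2 * Real.pi * ((h.1 (vF c ((vE G).symm x)) : ℤ) : ℝ) = _
  have e : vF c ((vE G).symm x) = ⟨x, by simp [Top.full]⟩ := by
    apply Subtype.ext
    show vE G ((vE G).symm x) = x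
    exact Equiv.apply_symm_apply _ _
  rw [e]

/-- L-CUT-U2.  **Relabelling of the sum over pinned heights.**  Bijection `{h // h (v0 c) = 0} ≃ (tS n).L`, `h ↦ eL (e2_torus_proper n) ⟨h ∘ vF c, _⟩` (`vF c (0,0) = v0 c`; inverse `z ↦ hInt n z ∘ (vF c).symm`); `Equiv.tsum_eq`.
Weights: `fwt b c 0 h = ∏_{e : Γ.E} bes b (h (tgt e) - h (src e) + econn 0 e)`, `econn 0 = 0` (`Top.econn`, `split_ifs`), `Fintype.prod_equiv (eF hG hc)`, `eF_src`, `eF_tgt`;
`Wu S b z = (∏_e bes b (z.1 e)) * exp (-(∑_{o : Empty} ..)/2)`, `z.1 e = h (tgt e) - h (src e)` for `z = eL _ h` (`HLaw.coord`; see the proof of `E2.e2_physT_flow`).  `havg c h = (tobs c).m z` by unfolding (`havg`, `hgt`, `hInt`, `AddEquiv.symm_apply_apply`). -/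
theorem relabel (hG : G.bc = BC.per) {c : Grid G} (hc : Whole c) (b : ℝ) (Ψ : (c.I → ℝ) → ℝ≥0∞) :
    ∑' h : {h : (Top.full c).graph.V → ℤ // h (v0 c) = 0}, ENNReal.ofReal (fwt b c 0 h.1) * Ψ (havg c h.1)
      = ∑' z : (tS G.M).L, ENNReal.ofReal (Wu (tS G.M) b (z : (tS G.M).Amb)) * Ψ ((tobs c).m z) := by
  rw [← (relE c).tsum_eq]
  refine tsum_congr fun h => ?_
  rw [relE_W hG hc, relE_m]

/-! ## 4. Unfolding ("Theorem U") -/

theorem nzd_lmarginal_prod {ι : Type*} [Fintype ι] [DecidableEq ι] {X : ι → Type*}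
    [∀ i, MeasurableSpace (X i)] (μ : ∀ i, Measure (X i)) [∀ i, SigmaFinite (μ i)]
    (f : ∀ i, X i → ℝ≥0∞) (hf : ∀ i, Measurable (f i)) (s : Finset ι) (x : ∀ i, X i) :
    (∫⋯∫⁻_s, (fun x => ∏ i, f i (x i)) ∂μ) x
      = (∏ i ∈ s, ∫⁻ y, f i y ∂μ i) * ∏ i ∈ Finset.univ \ s, f i (x i) := by
  have hF : Measurable fun x : ∀ i, X i => ∏ i, f i (x i) :=
    Finset.measurable_prod _ fun i _ => (hf i).comp (measurable_pi_apply i)
  induction s using Finset.induction_on generalizing x with
  | empty => simp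
  | insert i s hi ih =>
    rw [lmarginal_insert _ hF hi]
    simp_rw [ih]
    have hsplit : Finset.univ \ s = insert i (Finset.univ \ insert i s) := by
      ext j
      simp only [Finset.mem_sdiff, Finset.mem_univ, true_and, Finset.mem_insert, not_or]
      by_cases hj : j = i
      · subst hj; simp [hi]
      · simp [hj]
    have hnot : i ∉ Finset.univ \ insert i s := by simp
    have e : ∀ y : X i, ∏ j ∈ Finset.univ \ s, f j (Function.update x i y j)
        = f i y * ∏ j ∈ Finset.univ \ insert i s, f j (x j) := by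
      intro y
      rw [hsplit, Finset.prod_insert hnot, Function.update_self]
      congr 1
      refine Finset.prod_congr rfl fun j hj => ?_
      have : j ≠ i := by
        rintro rfl
        exact hnot hj
      rw [Function.update_of_ne this]
    simp_rw [e]
    rw [lintegral_const_mul _ ((hf i).mul_const _), lintegral_mul_const _ (hf i),
      Finset.prod_insert hi]
    ring

theorem nzd_lintegral_prod {ι : Type*} [Fintype ι] {X : ι → Type*}
    [∀ i, MeasurableSpace (X i)] (μ : ∀ i, Measure (X i)) [∀ i, SigmaFinite (μ i)]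
    (f : ∀ i, X i → ℝ≥0∞) (hf : ∀ i, Measurable (f i)) :
    ∫⁻ x, ∏ i, f i (x i) ∂(Measure.pi μ) = ∏ i, ∫⁻ y, f i y ∂μ i := by
  classical
  rcases isEmpty_or_nonempty (∀ i, X i) with hE | ⟨⟨x⟩⟩
  · obtain ⟨i, hi⟩ := isEmpty_pi.mp hE
    rw [lintegral_of_isEmpty]
    symm
    apply Finset.prod_eq_zero (Finset.mem_univ i)
    rw [lintegral_of_isEmpty]
  · rw [lintegral_eq_lmarginal_univ x, nzd_lmarginal_prod μ f hf]
    simp

theorem nzd_pi_withDensity {ι : Type*} [Fintype ι] {X : ι → Type*}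
    [∀ i, MeasurableSpace (X i)] (μ : ∀ i, Measure (X i)) [∀ i, SigmaFinite (μ i)]
    (f : ∀ i, X i → ℝ≥0∞) (hf : ∀ i, Measurable (f i))
    [∀ i, SigmaFinite ((μ i).withDensity (f i))] :
    Measure.pi (fun i => (μ i).withDensity (f i))
      = (Measure.pi μ).withDensity (fun x => ∏ i, f i (x i)) := by
  apply Measure.pi_eq
  intro s hs
  rw [withDensity_apply _ (MeasurableSet.univ_pi hs), ← lintegral_indicator (MeasurableSet.univ_pi hs)]
  have e : (Set.pi Set.univ s).indicator (fun x : ∀ i, X i => ∏ i, f i (x i))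
      = fun x => ∏ i, (s i).indicator (f i) (x i) := by
    funext x
    by_cases hx : x ∈ Set.pi Set.univ s
    · rw [Set.indicator_of_mem hx]
      refine Finset.prod_congr rfl fun i _ => ?_
      rw [Set.indicator_of_mem (hx i (Set.mem_univ i))]
    · rw [Set.indicator_of_notMem hx]
      simp only [Set.mem_pi, Set.mem_univ, true_imp_iff, not_forall] at hx
      obtain ⟨i, hi⟩ := hx
      symm
      apply Finset.prod_eq_zero (Finset.mem_univ i)
      rw [Set.indicator_of_notMem hi]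
  rw [e, nzd_lintegral_prod μ _ fun i => (hf i).indicator (hs i)]
  refine Finset.prod_congr rfl fun i _ => ?_
  rw [withDensity_apply _ (hs i), lintegral_indicator (hs i)]

theorem nzd_nz_eq (I : Type) [Fintype I] :
    nz I = (volume : Measure (I → ℝ)).withDensity fun e => ∏ i, gaussianPDF 0 1 (e i) := by
  unfold nz
  have h1 : (fun _ : I => gaussianReal 0 1) = fun _ : I => (volume : Measure ℝ).withDensity (gaussianPDF 0 1) := by
    funext _
    exact gaussianReal_of_var_ne_zero 0 one_ne_zero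
  have hs : SigmaFinite ((volume : Measure ℝ).withDensity (gaussianPDF 0 1)) := by
    rw [← gaussianReal_of_var_ne_zero 0 one_ne_zero]
    infer_instance
  rw [h1, nzd_pi_withDensity (fun _ : I => (volume : Measure ℝ)) (fun _ => gaussianPDF 0 1)
    fun _ => measurable_gaussianPDF 0 1]
  rfl

theorem nzd_pdf_prod {I : Type} [Fintype I] (e : I → ℝ) :
    ENNReal.ofReal ((2 * Real.pi) ^ ((Fintype.card I : ℝ) / 2)) * ∏ i, gaussianPDF 0 1 (e i)
      = ENNReal.ofReal (Real.exp (-(∑ i, (e i) ^ 2) / 2)) := by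
  have hp : (0 : ℝ) < 2 * Real.pi := by positivity
  have h1 : ∀ x : ℝ, gaussianPDF 0 1 x = ENNReal.ofReal (((2 * Real.pi) ^ ((1 : ℝ) / 2))⁻¹ * Real.exp (-(x ^ 2) / 2)) := by
    intro x
    unfold gaussianPDF gaussianPDFReal
    congr 1
    rw [Real.sqrt_eq_rpow]
    simp
  simp only [h1]
  rw [← ENNReal.ofReal_prod_of_nonneg (fun i _ => by positivity), ← ENNReal.ofReal_mul (by positivity)]
  congr 1
  rw [Finset.prod_mul_distrib, ← Real.exp_sum, Finset.prod_const, Finset.card_univ, ← mul_assoc]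
  have h2 : (2 * Real.pi) ^ ((Fintype.card I : ℝ) / 2) * (((2 * Real.pi) ^ ((1 : ℝ) / 2))⁻¹) ^ Fintype.card I = 1 := by
    rw [inv_pow, ← Real.rpow_natCast, ← Real.rpow_mul hp.le]
    have : (1 : ℝ) / 2 * (Fintype.card I : ℝ) = (Fintype.card I : ℝ) / 2 := by ring
    rw [this]
    exact mul_inv_cancel₀ (by positivity)
  rw [h2, one_mul]
  congr 1
  rw [← Finset.sum_div, Finset.sum_neg_distrib]

/-- L-CUT-U1.  **The Gaussian density.**  Mathlib only.  `nz I = volume.withDensity (fun e => ∏_i gaussianPDF 0 1 (e_i))`: `Measure.pi_eq` on boxes (`lintegral` of a product over a box: `lintegral_prod_...`/ induction via `MeasureTheory.lintegral_fintype_prod_eq_prod` if available, else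
`Measure.pi` of `withDensity`: prove `∫⁻ ∏ f_i (x_i) d(pi μ) = ∏ ∫⁻ f_i dμ_i` by `Fintype.induction_empty_option` or use `measurePreserving_piFinSuccAbove`).  `gaussianPDF 0 1 x = ofReal ((2π)^{-1/2} e^{-x²/2})`.
Then `lintegral_withDensity_eq_lintegral_mul`, translation invariance of `volume` on `I → ℝ` (`lintegral_add_left_eq_self`, `y = m + e`), `(m_i - (m_i + e_i))² = e_i²`, `Real.exp_sum`, `(2π)^{N/2} = ∏ (2π)^{1/2}`. -/
theorem nz_density {I : Type} [Fintype I] (m : I → ℝ) (g : (I → ℝ) → ℝ≥0∞) (hg : Measurable g) :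
    ∫⁻ y, g y * ENNReal.ofReal (Real.exp (-(∑ i, (m i - y i) ^ 2) / 2))
      = ENNReal.ofReal ((2 * Real.pi) ^ ((Fintype.card I : ℝ) / 2)) * ∫⁻ e, g (fun i => m i + e i) ∂(nz I) := by
  have hm : Measurable fun e : I → ℝ => fun i => m i + e i := measurable_shift m
  have hd : Measurable fun e : I → ℝ => ∏ i, gaussianPDF 0 1 (e i) :=
    Finset.measurable_prod _ fun i _ => (measurable_gaussianPDF 0 1).comp (measurable_pi_apply i)
  have hgm : Measurable fun e : I → ℝ => g fun i => m i + e i := hg.comp hm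
  rw [nzd_nz_eq, lintegral_withDensity_eq_lintegral_mul _ hd hgm, ← lintegral_const_mul _ (hd.mul hgm)]
  rw [← lintegral_add_left_eq_self (μ := (volume : Measure (I → ℝ))) _ m]
  refine lintegral_congr fun e => ?_
  simp only [Pi.mul_apply]
  rw [← mul_assoc, nzd_pdf_prod, mul_comm]
  congr 3
  · refine congrArg (fun t => -t / 2) (Finset.sum_congr rfl fun i _ => ?_)
    simp only [Pi.add_apply]
    ring

/-- the unfolded integral, in `ℝ≥0∞` -/
theorem unf_lintegral (hG : G.bc = BC.per) {c : Grid G} (hc : Whole c) (b : ℝ) (hb : 0 < b) (i0 : c.I)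
    (g : (c.I → ℝ) → ℝ≥0∞) (hg : Measurable g) (hper : ∀ y, g (fun i => y i + 2 * Real.pi) = g y) :
    ∫⁻ y in fund c i0, g y * ENNReal.ofReal ((Top.full c).Zobs b 0 y)
      = ENNReal.ofReal ((2 * Real.pi) ^ ((Fintype.card c.I : ℝ) / 2)) *
        ∑' z : (tS G.M).L, ENNReal.ofReal (Wu (tS G.M) b (z : (tS G.M).Amb)) *
          ∫⁻ e, g (fun i => (tobs c).m z i + e i) ∂(nz c.I) := by
  rw [lintegral_fund_Zobs b hb hc i0 (v0 c) 0 g hg hper,
    relabel hG hc b fun m => ∫⁻ y, g y * ENNReal.ofReal (Real.exp (-(∑ i, (m i - y i) ^ 2) / 2)),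
    ← ENNReal.tsum_mul_left]
  refine tsum_congr fun z => ?_
  rw [nz_density _ g hg]
  ring

theorem pint_pos (hG : G.bc = BC.per) {c : Grid G} (hc : Whole c) (b : ℝ) (hb : 0 < b) (i0 : c.I) {A : ℝ} {l : c.I → ℝ}
    {H : (c.I → ℝ) → ℝ} (hH : Adm A l H) (hper : Per c H) (h0 : ∀ y, 0 ≤ H y) :
    Integrable (fun y => H y * (Top.full c).Zobs b 0 y) (volume.restrict (fund c i0)) ∧
    Pint b c i0 0 H = (2 * Real.pi) ^ ((Fintype.card c.I : ℝ) / 2) * Zu (tS G.M) b 0 ((tobs c).sm H) := by
  have hS : (tS G.M).Ok := sysP_ok _ _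
  have hZm := Zobs_measurable (Top.full c) b hb 0
  have hZp := fun y => (Zobs_pos hc (Top.full c) b hb 0 y).le
  have hsum := (sm_gr (tobs c) hS hH).summable hS b hb 0
  have hsm0 : ∀ z, 0 ≤ (tobs c).sm H z := (tobs c).sm_nonneg h0
  have hZu0 : 0 ≤ Zu (tS G.M) b 0 ((tobs c).sm H) :=
    tsum_nonneg fun z => mul_nonneg (hsm0 z) (Wu_nonneg _ _ hb.le _)
  have key : ∫⁻ y in fund c i0, ENNReal.ofReal (H y * (Top.full c).Zobs b 0 y)
      = ENNReal.ofReal ((2 * Real.pi) ^ ((Fintype.card c.I : ℝ) / 2) * Zu (tS G.M) b 0 ((tobs c).sm H)) := by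
    have h1 := unf_lintegral hG hc b hb i0 (fun y => ENNReal.ofReal (H y)) hH.1.ennreal_ofReal
      (fun y => by show ENNReal.ofReal (H _) = _; rw [hper y])
    have e1 : ∀ y, ENNReal.ofReal (H y * (Top.full c).Zobs b 0 y)
        = ENNReal.ofReal (H y) * ENNReal.ofReal ((Top.full c).Zobs b 0 y) := fun y => ENNReal.ofReal_mul (h0 y)
    simp only [e1]
    rw [h1, ENNReal.ofReal_mul (by positivity)]
    congr 1
    unfold Zu
    rw [ENNReal.ofReal_tsum_of_nonneg (fun z => mul_nonneg (hsm0 z) (Wu_nonneg _ _ hb.le _)) hsum]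
    refine tsum_congr fun z => ?_
    rw [add_zero, mul_comm, ENNReal.ofReal_mul (hsm0 z)]
    congr 1
    unfold Obs.sm
    rw [ofReal_integral_eq_lintegral_ofReal (adm_integrable hH _) (Filter.Eventually.of_forall fun e => h0 _)]
  have hnn : 0 ≤ᵐ[volume.restrict (fund c i0)] fun y => H y * (Top.full c).Zobs b 0 y :=
    Filter.Eventually.of_forall fun y => mul_nonneg (h0 y) (hZp y)
  have hmeas : AEStronglyMeasurable (fun y => H y * (Top.full c).Zobs b 0 y) (volume.restrict (fund c i0)) :=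
    (hH.1.mul hZm).aestronglyMeasurable
  constructor
  · refine ⟨hmeas, ?_⟩
    rw [hasFiniteIntegral_iff_ofReal hnn, key]
    exact ENNReal.ofReal_lt_top
  · unfold Pint
    rw [integral_eq_lintegral_of_nonneg_ae hnn hmeas, key, ENNReal.toReal_ofReal (by positivity)]

/-- L-CUT-U3.  **From `ℝ≥0∞` to `ℝ`.**  `S = tS n`, `O = tobs c`.  For `g = ofReal ∘ H⁺`, `ofReal ∘ H⁻` (`H⁺ = max H 0`: measurable, periodic) `unf_lintegral` gives
`∫⁻_{fund} ofReal (H^± Zobs) = ofReal (c_N) ∑' ofReal (Wu z) ofReal (sm H^± z) = ofReal (c_N Zu S b 0 (sm H^±))`: `ofReal_integral_eq_lintegral_ofReal` (`adm_integrable`, `H^±` is `Adm A l`), `ENNReal.ofReal_mul`, `ENNReal.ofReal_tsum_of_nonneg` with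
`(sm_gr O hS _).summable` (`Gr.summable`, `α = 0`, `add_zero`).  Finite, so `H^± Zobs` is integrable on `fund` (`Zobs_measurable`, `Zobs_pos`; `integral_eq_lintegral_of_nonneg_ae`).  Subtract: `H = H⁺ - H⁻`, `integral_sub`, `sm_sub`, `zu_sub`. -/
theorem pint_eq (hG : G.bc = BC.per) {c : Grid G} (hc : Whole c) (b : ℝ) (hb : 0 < b) (i0 : c.I) {A : ℝ} {l : c.I → ℝ}
    {H : (c.I → ℝ) → ℝ} (hH : Adm A l H) (hper : Per c H) :
    Pint b c i0 0 H = (2 * Real.pi) ^ ((Fintype.card c.I : ℝ) / 2) * Zu (tS G.M) b 0 ((tobs c).sm H) := by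
  have hS : (tS G.M).Ok := sysP_ok _ _
  have hp : Adm A l fun y => max (H y) 0 :=
    ⟨hH.1.max measurable_const, fun y => le_trans (by
      show |max (H y) 0| ≤ |H y|
      rcases le_total (H y) 0 with h | h
      · rw [max_eq_right h, abs_zero]; exact abs_nonneg _
      · rw [max_eq_left h]) (hH.2 y)⟩
  have hn : Adm A l fun y => max (-H y) 0 :=
    ⟨hH.1.neg.max measurable_const, fun y => le_trans (by
      show |max (-H y) 0| ≤ |H y|
      rcases le_total (-H y) 0 with h | h
      · rw [max_eq_right h, abs_zero]; exact abs_nonneg _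
      · rw [max_eq_left h, abs_neg]) (hH.2 y)⟩
  obtain ⟨i1, e1⟩ := pint_pos hG hc b hb i0 hp (fun y => by show max (H _) 0 = _; rw [hper y]) fun y => le_max_right _ _
  obtain ⟨i2, e2⟩ := pint_pos hG hc b hb i0 hn (fun y => by show max (-H _) 0 = _; rw [hper y]) fun y => le_max_right _ _
  have eH : H = fun y => max (H y) 0 - max (-H y) 0 := by
    funext y
    rcases le_total (H y) 0 with h | h
    · rw [max_eq_right h, max_eq_left (by linarith)]; ring
    · rw [max_eq_left h, max_eq_right (by linarith)]; ring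
  have e3 : Pint b c i0 0 H = Pint b c i0 0 (fun y => max (H y) 0) - Pint b c i0 0 fun y => max (-H y) 0 := by
    unfold Pint
    rw [← integral_sub i1 i2]
    congr 1
    funext y
    rw [← sub_mul, ← congrFun eH y]
  have e4 : (tobs c).sm H = fun z => (tobs c).sm (fun y => max (H y) 0) z - (tobs c).sm (fun y => max (-H y) 0) z := by
    funext z
    rw [← (tobs c).sm_sub hp hn z, ← eH]
  rw [e3, e1, e2, e4, zu_sub hS (sm_gr (tobs c) hS hp) (sm_gr (tobs c) hS hn) b hb 0]
  ring

theorem faces_full (hG : G.bc = BC.per) (c : Grid G) : (Top.full c).faces = Finset.univ := by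
  classical
  unfold Top.full
  exact Finset.filter_true_of_mem fun f _ => Or.inl hG

theorem kap_eq (hG : G.bc = BC.per) (c : Grid G) (y : c.I → ℝ) :
    ∏ f ∈ (Top.full c).faces, chi c.m (wf c 0 y f) = (tobs c).kap y := by
  rw [faces_full hG]
  unfold Obs.kap wf
  refine Finset.prod_congr rfl fun f _ => ?_
  simp

theorem phat_eq_pint (hG : G.bc = BC.per) (c : Grid G) (b : ℝ) (i0 : c.I) (H : (c.I → ℝ) → ℝ) :
    Phat b c i0 0 H = Pint b c i0 0 fun y => H y * (tobs c).kap y := by
  unfold Phat Pint Top.Zhat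
  congr 1
  funext y
  rw [kap_eq hG]
  ring

theorem kap_per (c : Grid G) : Per c (tobs c).kap := by
  intro y
  unfold Obs.kap
  refine Finset.prod_congr rfl fun f _ => ?_
  congr 1
  ring

/-- **Theorem U**: the normalised cutoff expectation of F4a is the abstract one. -/
theorem eh_eq (hG : G.bc = BC.per) {c : Grid G} (hc : Whole c) (b : ℝ) (hb : 0 < b) {A : ℝ} {l : c.I → ℝ}
    {H : (c.I → ℝ) → ℝ} (hH : Adm A l H) (hper : Per c H) : Eh b c H = (tobs c).Ec b H := by
  have hs : 0 < (tobs c).s := by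
    have := hc.pos
    show (0 : ℝ) < (c.m : ℝ)
    exact_mod_cast this
  have hk := (tobs c).kap_measurable hs
  have hk1 := (tobs c).kap_abs_le hs
  have p1 : Per c fun y => H y * (tobs c).kap y := fun y => by
    show H _ * (tobs c).kap _ = _
    rw [hper y, kap_per c y]
  have p2 : Per c fun y => (1 : ℝ) * (tobs c).kap y := fun y => by
    show (1 : ℝ) * (tobs c).kap _ = _
    rw [kap_per c y]
  unfold Eh Obs.Ec
  rw [phat_eq_pint hG, phat_eq_pint hG, pint_eq hG hc b hb _ (hH.mul_bdd hk hk1) p1,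
    pint_eq hG hc b hb _ ((adm_one l).mul_bdd hk hk1) p2]
  have e : (fun y => (1 : ℝ) * (tobs c).kap y) = (tobs c).kap := by
    funext y
    rw [one_mul]
  rw [e]
  exact mul_div_mul_left _ _ (by positivity)

/-! ## 5. Flows and rows -/

theorem hInt_fst (n : ℕ) [NeZero n] (z : (tS n).L) (e : (torus n).E) :
    (z : (tS n).Amb).1 e = hInt n z ((torus n).tgt e) - hInt n z ((torus n).src e) := by
  obtain ⟨k, rfl⟩ := (eL (e2_torus_proper n)).surjective z
  unfold hInt
  rw [AddEquiv.symm_apply_apply]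
  rfl

theorem hgt_vE (z : (tS G.M).L) (v : (torus G.M).V) : hgt G z (vE G v) = 2 * Real.pi * (hInt G.M z v : ℝ) := by
  unfold hgt
  rw [Equiv.symm_apply_apply]

/-- L-CUT-F1.  **The cell flows on `torus n`.**  `C` from `F4a.cell_flow`, `T = Top.full c` (`T.Ok`: `IsFace` by `Or.inl hG`, cells `= univ`), `CΦ = max (2π C) (4π² C)`, `Φ' e = 2π Φ f (eF hG hc e)`.
Identity: `cell_flow` with `u = hgt G z / (2π)`.. or directly `u = hgt G z`, `w = 0` (`econn 0 = 0`); `Fintype.sum_equiv (eF hG hc)`; `hgt G z (stp (vE v) d) - hgt G z (vE v) = 2π (h (tgt e) - h (src e)) = 2π z_e` (`vE_tgt`, `Equiv.symm_apply_apply`; `z.1 e` as in `E2.e2_physT_flow`).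
Bounds: `cell_flow` with `t = Pi.single f 1`, `B = 1` (`Finset.sum_eq_single f`).  `S.Ok = E2.sysP_ok`; `1 ≤ s` from `hc.pos`. -/
theorem tobs_ok : ∃ CΦ : ℝ, ∀ (G : Geom) (c : Grid G), G.bc = BC.per → Whole c → (tobs c).OK CΦ := by
  classical
  obtain ⟨C, hC⟩ := cell_flow
  refine ⟨max (2 * Real.pi * C) (4 * Real.pi ^ 2 * C), fun G c hG hc => ?_⟩
  have hT : (Top.full c).Ok := by
    intro f _
    exact ⟨Or.inl hG, by simp [Top.full], by simp [Top.full]⟩
  obtain ⟨Φ, h1, -, h3⟩ := hC G c hc (Top.full c) hT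
  have hm : (0 : ℝ) < (c.m : ℝ) := by exact_mod_cast hc.pos
  refine ⟨sysP_ok _ _, ?_, fun f => ?_⟩
  · show (1 : ℝ) ≤ (c.m : ℝ)
    exact_mod_cast hc.pos
  have hf : f ∈ (Top.full c).faces := by
    rw [faces_full hG]
    exact Finset.mem_univ _
  have hs : ∀ e : (Top.full c).graph.E, ∑ f' ∈ (Top.full c).faces, (Pi.single f (1 : ℝ) : Face c → ℝ) f' * Φ f' e = Φ f e := by
    intro e
    rw [Finset.sum_eq_single f]
    · rw [Pi.single_eq_same, one_mul]
    · intro f' _ hne
      rw [Pi.single_eq_of_ne hne, zero_mul]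
    · intro h
      exact absurd hf h
  obtain ⟨b1, b2⟩ := h3 (Pi.single f (1 : ℝ))
  have hsq : ∑ f' ∈ (Top.full c).faces, ((Pi.single f (1 : ℝ) : Face c → ℝ) f') ^ 2 = 1 := by
    rw [Finset.sum_eq_single f]
    · rw [Pi.single_eq_same, one_pow]
    · intro f' _ hne
      rw [Pi.single_eq_of_ne hne]
      norm_num
    · intro h
      exact absurd hf h
  refine ⟨fun e => 2 * Real.pi * Φ f (eF hG hc e), ?_, ?_, ?_⟩
  · intro z
    have h := h1 f hf (hgt G z) 0
    show avg c (hgt G z) (fnb c f) - avg c (hgt G z) f.1 = _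
    rw [Pi.zero_apply, add_zero] at h
    rw [h]
    symm
    refine Fintype.sum_equiv (eF hG hc) _ _ fun e => ?_
    have e0 : (Top.full c).econn (0 : Face c → ℝ) (eF hG hc e) = 0 := by
      unfold Top.econn
      split_ifs <;> rfl
    rw [e0, add_zero]
    show 2 * Real.pi * Φ f (eF hG hc e) * (((z : (tS G.M).Amb).1 e : ℤ) : ℝ)
      = Φ f (eF hG hc e) * (hgt G z (stp (vE G e.1) e.2) - hgt G z (vE G e.1))
    have a1 : hgt G z (stp (vE G e.1) e.2) = 2 * Real.pi * (hInt G.M z ((torus G.M).tgt e) : ℝ) := by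
      rw [← vE_tgt hG e]
      exact hgt_vE z _
    have a2 : hgt G z (vE G e.1) = 2 * Real.pi * (hInt G.M z ((torus G.M).src e) : ℝ) := hgt_vE z _
    have a3 : (((z : (tS G.M).Amb).1 e : ℤ) : ℝ)
        = (hInt G.M z ((torus G.M).tgt e) : ℝ) - (hInt G.M z ((torus G.M).src e) : ℝ) := by
      rw [← Int.cast_sub]
      exact congrArg _ (hInt_fst G.M z e)
    rw [a1, a2, a3]
    ring
  · intro e
    have h := b1 (eF hG hc e) 1 zero_le_one (fun f' _ => by
      by_cases hne : f' = f
      · rw [hne, Pi.single_eq_same, abs_one]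
      · rw [Pi.single_eq_of_ne hne, abs_zero]
        exact zero_le_one)
    rw [hs, mul_one] at h
    show |2 * Real.pi * Φ f (eF hG hc e)| ≤ max (2 * Real.pi * C) (4 * Real.pi ^ 2 * C) / (c.m : ℝ)
    rw [abs_mul, abs_of_pos (by positivity : (0 : ℝ) < 2 * Real.pi)]
    calc 2 * Real.pi * |Φ f (eF hG hc e)| ≤ 2 * Real.pi * (C / (c.m : ℝ)) :=
          mul_le_mul_of_nonneg_left h (by positivity)
      _ = 2 * Real.pi * C / (c.m : ℝ) := by ring
      _ ≤ _ := div_le_div_of_nonneg_right (le_max_left _ _) hm.le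
  · simp only [hs] at b2
    rw [hsq, mul_one] at b2
    have e1 : ∑ e : (tS G.M).E, (2 * Real.pi * Φ f (eF hG hc e)) ^ 2 = 4 * Real.pi ^ 2 * ∑ e, Φ f e ^ 2 := by
      rw [Finset.mul_sum]
      refine Fintype.sum_equiv (eF hG hc) _ _ fun e => ?_
      ring
    rw [e1]
    exact (mul_le_mul_of_nonneg_left b2 (by positivity)).trans (le_max_right _ _)

theorem sites_single (c : Grid G) (i : c.I) : c.sites {i} = Finset.univ.filter fun v => c.blk v = i := by
  unfold Grid.sites
  apply Finset.filter_congr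
  intro v _
  rw [Finset.mem_singleton]

/-- L-CUT-R1.  **Rows are vertex tests.**  `∑_i l_i (∑_{x ∈ sites {i}} φ x) / card = ∑_x (l (blk x) / card (sites {blk x})) φ x` (`Grid.sites`, `Finset.sum_fiberwise`/`Finset.sum_comm'`: `x ∈ sites {i} ↔ blk x = i`), reindex `x = vE G v` (`Equiv.sum_comp`);
`physT` unfolds to `∑_v f v * (2π * h v)` with `h = (eL hP).symm z = hInt n z`. -/
theorem row_eq (c : Grid G) (l : c.I → ℝ) : (tobs c).row l = physT (e2_torus_proper G.M) (Bst c l) := by
  ext z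
  show ∑ i, l i * ((∑ v ∈ c.sites {i}, hgt G z v) / ((c.sites {i}).card : ℝ))
    = ∑ v : (torus G.M).V, Bst c l v * (2 * Real.pi * (hInt G.M z v : ℝ))
  rw [← Equiv.sum_comp (vE G).symm (fun v : (torus G.M).V => Bst c l v * (2 * Real.pi * (hInt G.M z v : ℝ)))]
  rw [← Finset.sum_fiberwise Finset.univ c.blk]
  apply Finset.sum_congr rfl
  intro i _
  rw [sites_single, Finset.sum_div, Finset.mul_sum]
  apply Finset.sum_congr rfl
  intro x hx
  have hx' : c.blk x = i := (Finset.mem_filter.1 hx).2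
  unfold Bst hgt
  rw [Equiv.apply_symm_apply, hx', sites_single]
  ring

/-- Stores the on-demand equation lemmas of the definitions above in THIS module (rule 6 hygiene). -/
theorem cut_tor_forced : True := by
  have := @zf.eq_1
  have := @vE.eq_1
  have := @hInt.eq_1
  have := @hgt.eq_1
  have := @tobs.eq_1
  have := @Bst.eq_1
  have := @vF.eq_1
  have := @eF.eq_1
  have := @v0.eq_1
  have := @relH.eq_1
  have := @relE.eq_1
  trivial

end

end Claimed.Agent.R285.Cut
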